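import Vale.Agent.P073.H304.SpecB

/-!
# P073, block B00: the input of `K3C` for a mesh with cut passive faces

`InW`: as `In`, but only the faces near `J₀` which touch a protected cell, and the faces of the
cells in `Nb w J₀ (2 * η)`, are dyadic squares.
-/

open Set Metric Topology
open scoped ENNReal

namespace Vale.Agent.P073.H304

open Vale.Agent.P073
open Vale.Agent.P073.St (V)
open Vale.Agent.P073.H73 (Mesh sqr ctr onSeg)
open _root_.P073 (ConHomeo)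
open _root_.P073.Net (len dyc dyo IsTile SizeFn)

/-- Input, see `In`; the field `face` is asked of fewer faces. -/
structure InW {Ω Λ : Set V} (η δ c₀ : ℝ) (v w : V) (ρ : V → ℝ) (M : Mesh Ω) (h : V → V)
    (J₀ J : Set (ℕ × (Fin 3 → ℤ))) (P Z : Set M.ι) : Prop where
  tile : ∀ t ∈ J, IsTile ρ w t.1 t.2
  sub : J₀ ⊆ J
  /-- the neighbours of the processed tiles have a protected cell, or have the same size -/
  nbr : ∀ t ∈ J₀, ∀ t' : ℕ × (Fin 3 → ℤ), IsTile ρ w t'.1 t'.2 →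
    (dyc w t.1 t.2 ∩ dyc w t'.1 t'.2).Nonempty → t' ∈ J ∨ t'.1 = t.1
  /-- protected cells are mapped onto middle cubes by diagonal maps -/
  prot : ∀ i ∈ P, ∃ t ∈ J, ∃ (a : V) (r : ℝ) (s : V), 0 < r ∧ (∀ j, s j = 1 ∨ s j = -1) ∧
    M.Q i = closedBall a r ∧
    ∀ x ∈ M.Q i, ∀ j, h x j = ctr w t.1 t.2 j + (1 - η) / 2 / 2 ^ t.1 / r * s j * (x j - a j)
  surj : ∀ t ∈ J, ∃ i ∈ P, h '' M.Q i = mid w η t
  /-- the other cells near `J₀` are dyadic cubes with small images -/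
  cube : ∀ i, i ∉ P → (h '' M.Q i ∩ Nb w J₀ c₀).Nonempty → ∃ m z, M.Q i = dyc v m z
  small : ∀ i, i ∉ P → ∀ t ∈ J₀, (h '' M.Q i ∩ Nb w {t} c₀).Nonempty →
    ∀ x ∈ M.Q i, ∀ y ∈ M.Q i, ‖h x - h y‖ ≤ δ / 2 ^ t.1
  /-- the faces near `J₀` which touch a protected cell, and the faces of the cells very near `J₀`,
  are dyadic squares -/
  face : ∀ k, (h '' M.F k ∩ Nb w J₀ c₀).Nonempty →
    ((∃ i ∈ P, (M.F k ∩ M.Q i).Nonempty) ∨
      ∃ i, M.F k ⊆ M.Q i ∧ h '' M.Q i ⊆ Nb w J₀ (2 * η)) →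
    ∃ s : AB.Idx × Fin 3, M.F k = AB.squ v s
  /-- drawn cells, in the shells of the processed tiles -/
  drawn : ∀ i ∈ Z, i ∉ P ∧ h '' M.Q i ⊆ Nb w J₀ η

variable {Ω Λ : Set V} {η δ c₀ : ℝ} {v w : V} {ρ : V → ℝ} {M : Mesh Ω} {h : V → V}
  {J₀ J : Set (ℕ × (Fin 3 → ℤ))} {P Z : Set M.ι}

theorem In.toW (H : In (Λ := Λ) η δ c₀ v w ρ M h J₀ J P Z) :
    InW (Λ := Λ) η δ c₀ v w ρ M h J₀ J P Z :=
  ⟨H.tile, H.sub, H.nbr, H.prot, H.surj, H.cube, H.small, fun k hk _ => H.face k hk, H.drawn⟩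

/-- the input without drawn cells -/
theorem InW.empty (H : InW (Λ := Λ) η δ c₀ v w ρ M h J₀ J P Z) :
    InW (Λ := Λ) η δ c₀ v w ρ M h J₀ J P ∅ :=
  { H with drawn := fun i hi => absurd hi (notMem_empty i) }

theorem Mesh.face_nonempty (M : Mesh Ω) (k : M.κ) : (M.F k).Nonempty := by
  obtain ⟨φ, -⟩ := (M.fat k).chart
  exact ⟨_, φ.mapsTo (show ((0:ℝ), (0:ℝ)) ∈ H73.usq from
    ⟨⟨le_rfl, zero_le_one⟩, ⟨le_rfl, zero_le_one⟩⟩)⟩

/-- the faces of protected cells near `J₀` are dyadic squares -/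
theorem InW.face_prot (H : InW (Λ := Λ) η δ c₀ v w ρ M h J₀ J P Z) {i : M.ι} (hi : i ∈ P)
    {k : M.κ} (hk : M.F k ⊆ M.Q i) (hne : (h '' M.F k ∩ Nb w J₀ c₀).Nonempty) :
    ∃ s : AB.Idx × Fin 3, M.F k = AB.squ v s := by
  obtain ⟨x, hx⟩ := Mesh.face_nonempty M k
  exact H.face k hne (Or.inl ⟨i, hi, x, hx, hk hx⟩)

/-- the faces near `J₀` at the points of protected cells are dyadic squares -/
theorem InW.face_prot' (H : InW (Λ := Λ) η δ c₀ v w ρ M h J₀ J P Z) {i : M.ι} (hi : i ∈ P)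
    {k : M.κ} {x : V} (hx : x ∈ M.Q i) (hk : x ∈ M.F k)
    (hne : (h '' M.F k ∩ Nb w J₀ c₀).Nonempty) : ∃ s : AB.Idx × Fin 3, M.F k = AB.squ v s :=
  H.face k hne (Or.inl ⟨i, hi, x, hk, hx⟩)

end Vale.Agent.P073.H304
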