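import Vale.Agent.P073.GBM.CellSpec

/-!
# P073, GAP-CLOSE (helper407): the collar with control of the size, definitions
-/

open Set Metric Topology Filter

namespace P073.Cell

open P073 P073.PR720 P073.GB73 P073.GBM P073.Gauge
open Vale.Agent.P073.St (V)
open Vale.Agent.P073.AB
open Vale.Agent.P073.SQ (ev)
open P073.Net (dyc dyo)

/-- `CollarProp` with the clause `‖Φ x - x‖ ≤ ε` -/
def CollarPropE (a b : V) (m : ℝ) (X : Set V) (ρ ε : ℝ) : Prop :=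
  ∀ φ : ConHomeo (frontier (Icc a b)) (frontier (Icc a b)),
    (∀ x ∈ X, φ.toFun x = x) → (∀ x ∈ frontier (Icc a b), ‖φ.toFun x - x‖ ≤ ρ) →
    ∀ θ, 0 < θ → θ < m → ∃ Φ : ConHomeo (Icc a b) (Icc a b),
      EqOn Φ.toFun φ.toFun (frontier (Icc a b)) ∧ (∀ x ∈ shr a b θ, Φ.toFun x = x) ∧
      (∀ x ∈ X, ∀ z ∈ Icc a b, ‖z - x‖ ≤ m →
        (∃ i, (x i = a i ∨ x i = b i) ∧ (∀ j ≠ i, z j = x j)) → Φ.toFun z = z) ∧
      ∀ x ∈ Icc a b, ‖Φ.toFun x - x‖ ≤ ε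

/-- **(UE)** uniform collar with control of the size: `SpecU` (literally for the same boxes and the
same marked points) with `ε = 1 / 2 ^ (n₂ + k₁)`. (owner: helper16) -/
def SpecUE : Prop :=
  ∀ k₁ : ℕ, 3 ≤ k₁ → ∃ ρ > 0, ∀ (v : V) (n₂ k₀ : ℕ) (z : Fin 3 → ℤ), 1 ≤ k₀ →
    CollarPropE (lo v n₂ k₁ k₀ z) (hi v n₂ k₁ k₀ z) (mg n₂ k₁ k₀) (mpt v n₂ k₁ k₀ z)
      (ρ / 2 ^ (n₂ + k₁)) (1 / 2 ^ (n₂ + k₁))

end P073.Cell
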