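import Vale.Agent.P073.H407.PlateT3
import Vale.Agent.P073.H235.R2Parts2

/-!
# P073, A16 rank two (helper407): **[PLATE-T]** (`H235.SpecPlateT`)
-/

open Set Metric Topology Filter MeasureTheory
open scoped ENNReal

namespace Vale.Agent.P073.H407

open Vale.Agent.P073.St (V)
open Vale.Agent.P073.AB
open Vale.Agent.P073.H194 (sInt)
open Vale.Agent.P073.H235 (P2 GSet SpecPlateT SpecPlateT2)
open Vale.Agent.P073.SQ (ev)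
open _root_.P073 (ConHomeo)
open _root_.P073.Plate (pbox)
open _root_.P073.GBM (mem_squ)

/-- the good squares of generation `m₀ + d` and the collapse, from the plates of generation
`m₀ + d₁` -/
theorem plateT_aux {f : V → V} {κ ϑ : ℝ} {Λ : Set V} (hΛ : IsOpen Λ) {v : V} {m₀ : ℕ}
    {S₀ : Finset (Fin 3 → ℤ)}
    {S0 : Finset (Idx × Fin 3)} {n : ℕ} {G : Set V} {J : Finset (Fin 3 → ℤ)}
    {a : (Fin 3 → ℤ) → V} (hκ : 0 < κ) (hκϑ : κ ≤ ϑ / 256) (hϑ1 : ϑ ≤ 1)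
    (H : PlatesAt f P2 κ ϑ Λ v S0 2 n G J a) {d₁ : ℕ} (hn : n = m₀ + d₁) {d : ℕ}
    (hd : 1 / 2 ^ (m₀ + d) ≤ κ / 2 ^ n)
    (hosc : ∀ k₀ ∈ S₀, ∀ x ∈ squ v ((m₀, k₀), 2), ∀ y ∈ squ v ((m₀, k₀), 2),
      ‖x - y‖ ≤ 1 / 2 ^ (m₀ + d) → ‖f x - f y‖ ≤ κ / 2 ^ n) {mt : ℕ}
    (hmt : 1 / 2 ^ mt ≤ κ / 2 ^ n) {δ : ℝ} (hδ : 0 < δ) {ε : ℝ} (hε : 5 * κ / 2 ^ n ≤ ε) :
    ∃ (T : ConHomeo Λ Λ) (r : ℝ), 0 < r ∧ (∀ y ∈ Λ, y ∉ plK v n J a → T.toFun y = y) ∧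
      (∀ y ∈ Λ, ∀ y' ∈ Λ, ‖T.toFun y - T.toFun y'‖ ≤ 2 * ‖y - y'‖) ∧
      (∀ y ∈ Λ, ‖T.toFun y - y‖ ≤ ε) ∧
      (∀ y ∈ Λ, ∀ j, j ≠ 2 → T.toFun y j = y j) ∧
      ∀ k ∈ gsq v m₀ 2 S₀ d (G ∩ boxes v m₀ 2 S₀ d₁ (3 * ϑ)), ∃ t : ℤ,
        ∀ x ∈ squ v ((m₀ + d, k), 2), ∀ y ∈ Λ, ‖y - f x‖ ≤ r →
          |T.toFun y 2 - t / 2 ^ mt| ≤ δ / 2 ^ mt := by
  have h2n : (0:ℝ) < 2 ^ n := by positivity
  have hϑ0 : 0 < ϑ := by linarith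
  obtain ⟨T, hT1, hT2, hT3, hT4, hT5⟩ := exists_T hΛ H hκ hκϑ hϑ1 hmt hδ
  refine ⟨T, κ / 2 ^ n, by positivity, hT1, fun y _ y' _ => hT2 y y',
    fun y _ => (hT3 y).trans hε, fun y _ j hj => hT4 y j hj, fun k hk => ?_⟩
  obtain ⟨k₀, hk₀, hkk, x₀, hx₀, hx₀G, hx₀b⟩ := mem_gsq.1 hk
  obtain ⟨k₁, hk₁, hx₁⟩ := mem_iUnion₂.1 hx₀b
  obtain ⟨z, hz, hxz⟩ := mem_iUnion₂.1 hx₁
  rw [← hn] at hxz
  -- the plate
  obtain ⟨z', hz', hxz'⟩ := H.cover x₀ hx₀G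
  have hzz : z = z' := by
    have h0 : (0:ℝ) < 3 * ϑ / 2 ^ n := by positivity
    refine eq_of_mem_pbox h0 ?_ hxz hxz'
    have h1 := (mem_squ.1 (pbox_subset_squ h0.le hxz)).1
    have h2 := (mem_squ.1 hxz').1
    rw [h1] at h2
    have h3 : (z 2 : ℝ) / 2 ^ n = z' 2 / 2 ^ n := by
      have : v 2 + (z 2 : ℝ) / 2 ^ n = v 2 + z' 2 / 2 ^ n := h2
      linarith
    have h4 : (z 2 : ℝ) = z' 2 := by
      field_simp at h3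
      exact h3
    exact_mod_cast h4
  subst hzz
  obtain ⟨t, ht⟩ := hT5 z hz'
  refine ⟨t, fun x hx y hy hxy => ht x ?_ y ?_⟩
  · -- the small square is in the inner part of the plate
    refine mem_pbox_of_near hxz ?_ (?_ : ‖x₀ - x‖ ≤ _)
    · rw [(mem_squ.1 hx).1, (mem_squ.1 hx₀).1]
    · refine (norm_sub_le_squ hx₀ hx).trans (hd.trans ?_)
      have e : 3 * ϑ / 2 ^ n - 2 * ϑ / 2 ^ n = ϑ / 2 ^ n := by ring
      rw [e]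
      gcongr
      linarith
  · have hx₀S := squ_sub_of_subs hkk hx₀
    have hxS := squ_sub_of_subs hkk hx
    have hxx : ‖x - x₀‖ ≤ 1 / 2 ^ (m₀ + d) := norm_sub_le_squ hx hx₀
    have h1 := H.near z hz' x₀ ⟨hx₀G, pbox_subset_squ (by positivity) hxz⟩
    have h2 := hosc k₀ hk₀ x hxS x₀ hx₀S hxx
    have h3 : ‖P2 x₀ - P2 x‖ ≤ κ / 2 ^ n := by
      refine (norm_P2_sub_le _ _).trans ?_
      rw [norm_sub_rev]
      exact hxx.trans hd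
    have e : y - (P2 x + a z) = (y - f x) + (f x - f x₀) + (f x₀ - (P2 x₀ + a z)) +
        (P2 x₀ - P2 x) := by abel
    rw [e]
    refine (norm_add_le _ _).trans ?_
    have h4 : ‖(y - f x) + (f x - f x₀) + (f x₀ - (P2 x₀ + a z))‖ ≤
        κ / 2 ^ n + κ / 2 ^ n + κ / 2 ^ n :=
      (norm_add_le _ _).trans (add_le_add ((norm_add_le _ _).trans (add_le_add hxy h2)) h1)
    have e2 : 4 * κ / 2 ^ n = κ / 2 ^ n + κ / 2 ^ n + κ / 2 ^ n + κ / 2 ^ n := by ring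
    rw [e2]
    exact add_le_add h4 h3

/-- uniform continuity on the finitely many squares -/
theorem exists_osc {f : V → V} {Ω : Set V} (hfc : ContinuousOn f Ω) {v : V} {m₀ : ℕ}
    {S₀ : Finset (Fin 3 → ℤ)} (hS : ∀ k ∈ S₀, squ v ((m₀, k), 2) ⊆ Ω) {e : ℝ} (he : 0 < e) :
    ∃ δ > 0, ∀ k₀ ∈ S₀, ∀ x ∈ squ v ((m₀, k₀), 2), ∀ y ∈ squ v ((m₀, k₀), 2),
      ‖x - y‖ ≤ δ → ‖f x - f y‖ ≤ e := by
  have hK : IsCompact (⋃ k ∈ S₀, squ v ((m₀, k), 2)) :=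
    S₀.isCompact_biUnion fun k _ => isCompact_squ v m₀ k 2
  have hu := hK.uniformContinuousOn_of_continuous (hfc.mono (iUnion₂_subset hS))
  rw [Metric.uniformContinuousOn_iff] at hu
  obtain ⟨δ, hδ, h⟩ := hu e he
  refine ⟨δ / 2, by positivity, fun k₀ hk₀ x hx y hy hxy => ?_⟩
  have := h x (mem_biUnion hk₀ hx) y (mem_biUnion hk₀ hy) (by
    rw [dist_eq_norm]; linarith)
  rw [dist_eq_norm] at this
  exact this.le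

/-- the choice of the plates and the collapse, strongest form -/
theorem plateT_main (C₀ ε : ℝ) (hC₀ : 0 < C₀) (hε : 0 < ε) : ∃ κ > 0,
    ∀ (Ω Λ : Set V) (f : V → V) (H : V → ℝ≥0∞) (v : V)
    (m₀ : ℕ) (S₀ : Finset (Fin 3 → ℤ)) (B : ℤ), IsOpen Ω → IsOpen Λ → St.IsHomeo Ω Λ f →
    GSet C₀ v Ω f H → (∀ k ∈ S₀, k 2 = B ∧ squ v ((m₀, k), 2) ⊆ Ω) → S₀.card ≤ 4 ^ m₀ →
    ∑ k ∈ S₀, sInt v ((m₀, k), 2) H ≤ ENNReal.ofReal κ →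
    ∃ n₀ : ℕ, ∀ n₃ ≥ n₀, ∃ (G : Finset (Fin 3 → ℤ)) (mt₀ : ℕ) (K : Set V), K ⊆ Λ ∧
      IsCompact K ∧
      (∀ k ∈ G, ∃ k₀ ∈ S₀, squ v ((n₃, k), 2) ⊆ squ v ((m₀, k₀), 2)) ∧
      (S₀.card : ℝ) / 4 ^ m₀ - (G.card : ℝ) / 4 ^ n₃ ≤ ε ∧
      ∀ mt ≥ mt₀, ∀ δ > 0, ∃ (T : ConHomeo Λ Λ) (r : ℝ), 0 < r ∧
        (∀ y ∈ Λ, y ∉ K → T.toFun y = y) ∧
        (∀ y ∈ Λ, ∀ y' ∈ Λ, ‖T.toFun y - T.toFun y'‖ ≤ 2 * ‖y - y'‖) ∧
        (∀ y ∈ Λ, ‖T.toFun y - y‖ ≤ ε) ∧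
        (∀ y ∈ Λ, ∀ j, j ≠ 2 → T.toFun y j = y j) ∧
        ∀ k ∈ G, ∃ t : ℤ, ∀ x ∈ squ v ((n₃, k), 2), ∀ y ∈ Λ, ‖y - f x‖ ≤ r →
          |T.toFun y 2 - t / 2 ^ mt| ≤ δ / 2 ^ mt := by
  classical
  set ϑ : ℝ := min (1 / 4) (ε / 60) with hϑ
  have hϑ0 : 0 < ϑ := lt_min (by norm_num) (by positivity)
  have hϑ1 : ϑ ≤ 1 / 4 := min_le_left _ _
  have hϑε : 60 * ϑ ≤ ε := by
    have : ϑ ≤ ε / 60 := min_le_right _ _
    linarith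
  set κL : ℝ := ϑ / 256 with hκL
  have hκL0 : 0 < κL := by positivity
  set kk : ℝ := κL / C₀ with hkk
  have hkk0 : 0 < kk := by positivity
  refine ⟨ε * kk / (2 * C₀), by positivity, ?_⟩
  intro Ω Λ f H v m₀ S₀ B hΩ hΛ hf hGS hS hcard hsum
  obtain ⟨g, hg, hfc, -⟩ := hf
  have hfm : MapsTo f Ω Λ := fun x hx => (hg.1 x hx).1
  have hfi : InjOn f Ω := by
    intro x hx y hy hxy
    rw [← (hg.1 x hx).2, ← (hg.1 y hy).2, hxy]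
  -- the good sets
  have hex : ∀ s : Idx × Fin 3, ∃ Gs : Set V, (s.2 = 2 → squ v s ⊆ Ω → (Gs ⊆ squ v s ∧
      IsClosed Gs ∧ sInt v s (Gsᶜ.indicator 1) ≤ ENNReal.ofReal (C₀ / kk) * sInt v s H ∧
      ∀ x ∈ Gs, ∀ y ∈ Gs, ‖(f x - P2 x) - (f y - P2 y)‖ ≤ C₀ * kk * ‖x - y‖)) := by
    intro s
    by_cases h1 : s.2 = 2
    · by_cases h2 : squ v s ⊆ Ω
      · obtain ⟨Gs, h3, h4, h5, h6⟩ := hGS s h1 h2 kk hkk0
        exact ⟨Gs, fun _ _ => ⟨h3, h4, h5, h6⟩⟩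
      · exact ⟨∅, fun _ h => absurd h h2⟩
    · exact ⟨∅, fun h => absurd h h1⟩
  choose Gs hGs using hex
  set S0 : Finset (Idx × Fin 3) := S₀.image fun k => ((m₀, k), 2) with hS0
  have hS0' : ∀ s ∈ S0, s.1.1 = m₀ ∧ s.2 = 2 ∧ s.1.2 2 = B ∧ squ v s ⊆ Ω := by
    intro s hs
    obtain ⟨k, hk, rfl⟩ := Finset.mem_image.1 hs
    exact ⟨rfl, rfl, (hS k hk).1, (hS k hk).2⟩
  obtain ⟨hcl, hpl⟩ := exists_plates (S0 := S0) (Gs := Gs) hΛ hfc hfi hfm hS0' (L := P2)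
    (fun x hx => norm_P2 hx) (κ := κL) (ϑ := ϑ) (ϑ' := ϑ) hκL0.le (by rw [hκL]; linarith) hϑ0
    (by linarith) hϑ0 (fun s hs => (hGs s (hS0' s hs).2.1 (hS0' s hs).2.2.2).2.1)
    (fun s hs => (hGs s (hS0' s hs).2.1 (hS0' s hs).2.2.2).1)
    (fun s hs x hx y hy => by
      have h1 := (hGs s (hS0' s hs).2.1 (hS0' s hs).2.2.2).2.2.2 x hx y hy
      have h2 : C₀ * kk = κL := by rw [hkk]; field_simp
      rwa [h2] at h1)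
  set G : Set V := ⋃ s ∈ S0, Gs s ∩ pbox v s (ϑ / 2 ^ m₀) 0 with hG
  -- the generation of the plates
  obtain ⟨n, ⟨J, a, HP⟩, hnm, hnε⟩ : ∃ n, (∃ (J : Finset (Fin 3 → ℤ)) (a : (Fin 3 → ℤ) → V),
      PlatesAt f P2 κL ϑ Λ v S0 2 n G J a) ∧ m₀ ≤ n ∧ 5 * κL / 2 ^ n ≤ ε := by
    have h1 : ∀ᶠ n : ℕ in atTop, 5 * κL / 2 ^ n ≤ ε := by
      refine Eventually.of_forall fun n => ?_
      have h2 : (1:ℝ) ≤ 2 ^ n := one_le_pow₀ (by norm_num)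
      calc 5 * κL / 2 ^ n ≤ 5 * κL := div_le_self (by positivity) h2
        _ ≤ ε := by rw [hκL]; linarith
    obtain ⟨n, h⟩ := (hpl.and ((eventually_ge_atTop m₀).and h1)).exists
    exact ⟨n, h⟩
  obtain ⟨d₁, hd₁⟩ := Nat.exists_eq_add_of_le hnm
  have h2n : (0:ℝ) < 2 ^ n := by positivity
  obtain ⟨δ₀, hδ₀, hosc⟩ := exists_osc hfc (fun k hk => (hS k hk).2)
    (show 0 < κL / 2 ^ n by positivity)
  -- the thresholds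
  have hlim : Tendsto (fun m : ℕ => (1:ℝ) / 2 ^ m) atTop (𝓝 0) := by
    have h1 := tendsto_pow_atTop_nhds_zero_of_lt_one (r := (1 / 2 : ℝ)) (by norm_num) (by norm_num)
    refine h1.congr fun m => ?_
    rw [one_div_pow]
  obtain ⟨N₁, hN₁⟩ := eventually_atTop.1 ((hlim.eventually_lt_const
    (show 0 < κL / 2 ^ n by positivity)).and (hlim.eventually_lt_const hδ₀))
  refine ⟨max (max N₁ m₀) n, fun n₃ hn₃ => ?_⟩
  have hn₃1 : N₁ ≤ n₃ := ((le_max_left _ _).trans (le_max_left _ _)).trans hn₃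
  have hn₃2 : m₀ ≤ n₃ := ((le_max_right _ _).trans (le_max_left _ _)).trans hn₃
  obtain ⟨d, hd⟩ := Nat.exists_eq_add_of_le hn₃2
  subst hd
  refine ⟨gsq v m₀ 2 S₀ d (G ∩ boxes v m₀ 2 S₀ d₁ (3 * ϑ)), N₁, plK v n J a, plK_sub HP,
    isCompact_plK _ _ _ _, ?_, ?_, ?_⟩
  · intro k hk
    obtain ⟨k₀, hk₀, hkk, -⟩ := mem_gsq.1 hk
    exact ⟨k₀, hk₀, squ_sub_of_subs hkk⟩
  · -- the area
    have hcG : IsClosed (G ∩ boxes v m₀ 2 S₀ d₁ (3 * ϑ)) := hcl.inter (isClosed_boxes _ _ _ _ _ _)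
    refine gsq_count (fun k hk => (hS k hk).1) hcG.measurableSet hε.le ?_
    have h1 : ∀ k ∈ S₀, sArea v ((m₀, k), 2) (G ∩ boxes v m₀ 2 S₀ d₁ (3 * ϑ))ᶜ ≤
        ENNReal.ofReal (C₀ / kk) * sInt v ((m₀, k), 2) H +
          ENNReal.ofReal (24 * ϑ * (1 / 2 ^ m₀) ^ 2) := by
      intro k hk
      have hs : ((m₀, k), (2 : Fin 3)) ∈ S0 := Finset.mem_image_of_mem _ hk
      have h2 : (G ∩ boxes v m₀ 2 S₀ d₁ (3 * ϑ))ᶜ ⊆ (Gs ((m₀, k), 2))ᶜ ∪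
          ((pbox v ((m₀, k), 2) (ϑ / 2 ^ m₀) 0)ᶜ ∪ (boxes v m₀ 2 S₀ d₁ (3 * ϑ))ᶜ) := by
        rw [← compl_inter, ← compl_inter, ← inter_assoc]
        refine compl_subset_compl.2 (inter_subset_inter_left _ ?_)
        exact subset_biUnion_of_mem (u := fun s => Gs s ∩ pbox v s (ϑ / 2 ^ m₀) 0) hs
      have hGk := hGs ((m₀, k), 2) rfl (hS k hk).2
      refine (sArea_mono h2).trans ((sArea_union_le hGk.2.1.measurableSet.compl).trans ?_)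
      refine add_le_add hGk.2.2.1 ((sArea_union_le
        (isClosed_pbox _ _ _ _).measurableSet.compl).trans ?_)
      refine (add_le_add (sArea_compl_pbox_le v m₀ k 2 hϑ0.le)
        (sArea_boxes_le (by positivity) hk)).trans ?_
      rw [← ENNReal.ofReal_add (by positivity) (by positivity)]
      apply ENNReal.ofReal_le_ofReal
      apply le_of_eq
      ring
    refine (Finset.sum_le_sum h1).trans ?_
    rw [Finset.sum_add_distrib, ← Finset.mul_sum, Finset.sum_const, nsmul_eq_mul]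
    calc ENNReal.ofReal (C₀ / kk) * ∑ k ∈ S₀, sInt v ((m₀, k), 2) H +
          S₀.card * ENNReal.ofReal (24 * ϑ * (1 / 2 ^ m₀) ^ 2)
        ≤ ENNReal.ofReal (C₀ / kk) * ENNReal.ofReal (ε * kk / (2 * C₀)) +
          ENNReal.ofReal (24 * ϑ) := by
          refine add_le_add (by gcongr) ?_
          rw [← ENNReal.ofReal_natCast, ← ENNReal.ofReal_mul (Nat.cast_nonneg _)]
          apply ENNReal.ofReal_le_ofReal
          have h3 : (S₀.card : ℝ) ≤ 4 ^ m₀ := by exact_mod_cast hcard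
          rw [four_pow_eq]
          calc (S₀.card : ℝ) * (24 * ϑ * (1 / 4 ^ m₀)) ≤ 4 ^ m₀ * (24 * ϑ * (1 / 4 ^ m₀)) := by
                gcongr
            _ = 24 * ϑ := by field_simp
      _ ≤ ENNReal.ofReal ε := by
          rw [← ENNReal.ofReal_mul (by positivity), ← ENNReal.ofReal_add (by positivity)
            (by positivity)]
          apply ENNReal.ofReal_le_ofReal
          have : C₀ / kk * (ε * kk / (2 * C₀)) = ε / 2 := by field_simp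
          rw [this]
          linarith
  · intro mt hmt δ hδ
    exact plateT_aux hΛ hκL0 le_rfl (by linarith) HP hd₁ (hN₁ _ hn₃1).1.le
      (fun k₀ hk₀ x hx y hy hxy => hosc k₀ hk₀ x hx y hy (hxy.trans (hN₁ _ hn₃1).2.le))
      (hN₁ _ hmt).1.le hδ hnε

/-- **[PLATE-T]** -/
theorem specPlateT : SpecPlateT := by
  intro C₀ ε hC₀ hε
  obtain ⟨κ, hκ, h⟩ := plateT_main C₀ ε hC₀ hε
  refine ⟨κ, hκ, fun Ω Λ f H v m₀ S₀ B hΩ hΛ hf hG hS hc hs => ?_⟩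
  obtain ⟨n₀, h⟩ := h Ω Λ f H v m₀ S₀ B hΩ hΛ hf hG hS hc hs
  refine ⟨n₀, fun n₃ hn₃ => ?_⟩
  obtain ⟨G, mt₀, K, hK, hKc, h1, h2, h3⟩ := h n₃ hn₃
  refine ⟨G, mt₀, h1, h2, fun mt hmt δ hδ => ?_⟩
  obtain ⟨T, r, hr, h4, h5, h6, h7, h8⟩ := h3 mt hmt δ hδ
  exact ⟨T, K, r, hr, hK, hKc, h4, h5, h6, h7, h8⟩

/-- **[PLATE-T]**, second version -/
theorem specPlateT2 : SpecPlateT2 := by
  intro C₀ ε hC₀ hε
  obtain ⟨κ, hκ, h⟩ := plateT_main C₀ ε hC₀ hε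
  refine ⟨κ, hκ, fun Ω Λ f H v m₀ S₀ B hΩ hΛ hf hG hS hc hs => ?_⟩
  obtain ⟨n₀, h⟩ := h Ω Λ f H v m₀ S₀ B hΩ hΛ hf hG hS hc hs
  refine ⟨n₀, fun n₃ hn₃ => ?_⟩
  obtain ⟨G, mt₀, K, hK, hKc, h1, h2, h3⟩ := h n₃ hn₃
  refine ⟨G, mt₀, K, hK, hKc, h1, h2, fun mt hmt δ hδ => ?_⟩
  obtain ⟨T, r, hr, h4, h5, -, h7, h8⟩ := h3 mt hmt δ hδ
  exact ⟨T, r, hr, h4, h5, h7, h8⟩

end Vale.Agent.P073.H407
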