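import Vale.Agent.P073.H235.PreParts
import Vale.Agent.P073.H471.TileSt

/-!
# P073, A16 (helper407): the weight near a grid plane (`H235.SpecTW`)
-/

open Set Metric Topology Filter MeasureTheory
open scoped ENNReal

namespace Vale.Agent.P073.H407

open Vale.Agent.P073.St (V)
open Vale.Agent.P073.H73 (ctr)
open Vale.Agent.P073.H333 (tw)
open Vale.Agent.P073.H235 (SpecTW)
open _root_.P073.Net (dyc dyo IsTile SizeFn)

/-- a point near a grid plane (any direction `l`) has a bounded weight -/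
theorem tw_le {Λ : Set V} {ρ : V → ℝ} {mt : ℕ} {c : ℕ → (Fin 3 → ℤ) → V} {y : V} {t : ℤ}
    (l : Fin 3) (hρ : SizeFn Λ ρ)
    (hc : ∀ m z, IsTile ρ 0 m z → ‖c m z - ctr 0 m z‖ ≤ 1 / 4 / 2 ^ m)
    (hm : ∀ m z, IsTile ρ 0 m z → y ∈ dyc 0 m z → m = mt)
    (hy : |y l - t / 2 ^ mt| ≤ 1 / 8 / 2 ^ mt) : tw ρ c y ≤ 33 := by
  classical
  have W := H471.cubes_tiles hρ 0
  have hf := W.finite_mem y
  have hz : ∀ i ∉ hf.toFinset, (closedBall (H471.zt ρ 0 i) (H471.st ρ 0 i)).indicator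
      (fun y => ENNReal.ofReal (H471.st ρ 0 i) / ENNReal.ofReal ‖y - c i.1.1 i.1.2‖) y = 0 :=
    fun i hi => by
      rw [Finite.mem_toFinset] at hi
      have hi' : y ∉ closedBall (H471.zt ρ 0 i) (H471.st ρ 0 i) := hi
      exact indicator_of_notMem hi' _
  have hcard : hf.toFinset.card ≤ 8 := W.overlap y _ fun i hi => by
    rwa [Finite.mem_toFinset] at hi
  have h2m : (0:ℝ) < 2 ^ mt := by positivity
  have key : ∀ i ∈ hf.toFinset, (closedBall (H471.zt ρ 0 i) (H471.st ρ 0 i)).indicator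
      (fun y => ENNReal.ofReal (H471.st ρ 0 i) / ENNReal.ofReal ‖y - c i.1.1 i.1.2‖) y ≤ 4 := by
    intro i hi
    rw [Finite.mem_toFinset] at hi
    have hi' : y ∈ closedBall (H471.zt ρ 0 i) (H471.st ρ 0 i) := hi
    rw [indicator_of_mem hi']
    have hyi : y ∈ dyc 0 i.1.1 i.1.2 := by rw [← H471.cB_eq i]; exact hi'
    have hmi : i.1.1 = mt := hm _ _ i.2 hyi
    have h1 := hc _ _ i.2
    have h2 : |c i.1.1 i.1.2 l - ctr 0 i.1.1 i.1.2 l| ≤ 1 / 4 / 2 ^ i.1.1 :=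
      (norm_le_pi_norm (c i.1.1 i.1.2 - ctr 0 i.1.1 i.1.2) l).trans h1
    have h3 : ctr 0 i.1.1 i.1.2 l = (i.1.2 l + 1 / 2) / 2 ^ i.1.1 := by
      simp [ctr]
    -- the distance of the plane to the centre
    have h4 : 1 / 2 / 2 ^ mt ≤ |(t : ℝ) / 2 ^ mt - ctr 0 i.1.1 i.1.2 l| := by
      rw [h3, hmi, ← sub_div, abs_div, abs_of_pos h2m]
      gcongr
      have h5 : (t : ℝ) - (i.1.2 l + 1 / 2) = ((t - i.1.2 l : ℤ) : ℝ) - 1 / 2 := by
        push_cast; ring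
      rw [h5]
      rcases le_or_gt (t - i.1.2 l) 0 with h | h
      · have : ((t - i.1.2 l : ℤ) : ℝ) ≤ 0 := by exact_mod_cast h
        rw [abs_of_nonpos (by linarith)]
        linarith
      · have : (1:ℝ) ≤ ((t - i.1.2 l : ℤ) : ℝ) := by exact_mod_cast h
        rw [abs_of_nonneg (by linarith)]
        linarith
    have h6 : 1 / 8 / 2 ^ mt ≤ ‖y - c i.1.1 i.1.2‖ := by
      refine le_trans ?_ (norm_le_pi_norm (y - c i.1.1 i.1.2) l)
      rw [Pi.sub_apply, Real.norm_eq_abs]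
      rw [hmi] at h2 h4 ⊢
      have e : (t : ℝ) / 2 ^ mt - ctr 0 mt i.1.2 l =
          -(y l - t / 2 ^ mt) + (y l - c mt i.1.2 l) + (c mt i.1.2 l - ctr 0 mt i.1.2 l) := by ring
      have h7 : |(t : ℝ) / 2 ^ mt - ctr 0 mt i.1.2 l| ≤ 1 / 8 / 2 ^ mt +
          |y l - c mt i.1.2 l| + 1 / 4 / 2 ^ mt := by
        rw [e]
        refine (abs_add_le _ _).trans (add_le_add ((abs_add_le _ _).trans
          (add_le_add ?_ le_rfl)) h2)
        rw [abs_neg]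
        exact hy
      have e1 : (1:ℝ) / 2 / 2 ^ mt = 1 / 8 / 2 ^ mt + 1 / 8 / 2 ^ mt + 1 / 4 / 2 ^ mt := by ring
      linarith
    have h8 : ENNReal.ofReal (H471.st ρ 0 i) ≤ 4 * ENNReal.ofReal ‖y - c i.1.1 i.1.2‖ := by
      rw [show (4:ℝ≥0∞) = ENNReal.ofReal 4 by norm_num, ← ENNReal.ofReal_mul (by norm_num)]
      refine ENNReal.ofReal_le_ofReal ?_
      show 1 / 2 / 2 ^ i.1.1 ≤ _
      rw [hmi] at h6 ⊢
      have e1 : (1:ℝ) / 2 / 2 ^ mt = 4 * (1 / 8 / 2 ^ mt) := by ring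
      rw [e1]
      gcongr
    have h9 : (0:ℝ) < ‖y - c i.1.1 i.1.2‖ := lt_of_lt_of_le (by positivity) h6
    exact (ENNReal.div_le_iff (by simpa using h9) ENNReal.ofReal_ne_top).2 h8
  unfold tw H471.wgt
  rw [tsum_eq_sum hz]
  have h1 := Finset.sum_le_sum key
  rw [Finset.sum_const, nsmul_eq_mul] at h1
  have h2 : ((hf.toFinset.card : ℕ) : ℝ≥0∞) * 4 ≤ 8 * 4 := by
    gcongr
    exact_mod_cast hcard
  calc _ ≤ 1 + 8 * 4 := add_le_add le_rfl (h1.trans h2)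
    _ = 33 := by norm_num

/-- **[TW]** -/
theorem specTW : SpecTW := fun _ _ _ _ _ _ hρ hc hm hy => tw_le 2 hρ hc hm hy

end Vale.Agent.P073.H407
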