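import Vale.Agent.P073.H407.PlateT2
import Vale.Agent.P073.H236.TZero2
import Vale.Agent.P073.H235.R2Parts

/-!
# P073, A16 rank two (helper407), [PLATE-T], third part: the collapse of the plates
-/

open Set Metric Topology Filter MeasureTheory
open scoped ENNReal

namespace Vale.Agent.P073.H407

open Vale.Agent.P073.St (V)
open Vale.Agent.P073.AB
open Vale.Agent.P073.H194 (sInt)
open Vale.Agent.P073.H235 (P2)
open Vale.Agent.P073.SQ (ev)
open _root_.P073 (ConHomeo)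
open _root_.P073.H236 (cor exists_squeeze)
open _root_.P073.Plate (pbox)
open _root_.P073.GBM (mem_squ)

theorem P2_two (x : V) : P2 x 2 = 0 := by
  simp [P2, ev]

theorem P2_ne (x : V) {j : Fin 3} (hj : j ≠ 2) : P2 x j = x j := by
  simp [P2, ev, hj]

theorem norm_P2 {x : V} (hx : x 2 = 0) : ‖P2 x‖ = ‖x‖ := by
  congr 1
  funext j
  by_cases hj : j = 2
  · subst hj; rw [P2_two, hx]
  · exact P2_ne x hj

theorem norm_P2_sub_le (x y : V) : ‖P2 x - P2 y‖ ≤ ‖x - y‖ := by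
  rw [pi_norm_le_iff_of_nonneg (norm_nonneg _)]
  intro j
  by_cases hj : j = 2
  · subst hj; rw [Pi.sub_apply, P2_two, P2_two, sub_self, norm_zero]; exact norm_nonneg _
  · rw [Pi.sub_apply, P2_ne x hj, P2_ne y hj]
    exact norm_le_pi_norm (x - y) j

/-- centre of the box of the plate `z`, height `t / 2 ^ mt` -/
noncomputable def pc (v : V) (n : ℕ) (a : (Fin 3 → ℤ) → V) (mt : ℕ) (t : (Fin 3 → ℤ) → ℤ)
    (z : Fin 3 → ℤ) : Fin 3 → ℝ := fun j =>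
  if j = 2 then t z / 2 ^ mt else v j + (z j + 1 / 2) / 2 ^ n + a z j

/-- half sides of the box -/
noncomputable def pa (n : ℕ) (κ ϑ : ℝ) : Fin 3 → ℝ := fun j =>
  if j = 2 then 5 * κ / 2 ^ n else (1 / 2 - 2 * ϑ + 4 * κ) / 2 ^ n

/-- a point of the large box is close to a point of the plate -/
theorem exists_plate_pt {v : V} {n : ℕ} {a : (Fin 3 → ℤ) → V} {mt : ℕ} {t : (Fin 3 → ℤ) → ℤ}
    {z : Fin 3 → ℤ} {κ ϑ : ℝ} (hκ : 0 < κ) (hκϑ : κ ≤ ϑ / 256)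
    (ht : |(t z : ℝ) / 2 ^ mt - a z 2| ≤ κ / 2 ^ n) {y : V}
    (hy : y ∈ cor (pc v n a mt t z) fun i => pa n κ ϑ i + 4 * (5 * κ / 2 ^ n)) :
    ∃ x ∈ pbox v ((n, z), 2) (ϑ / 2 ^ n) 0, ‖y - (P2 x + a z)‖ ≤ 26 * κ / 2 ^ n := by
  have hn : (0:ℝ) < 2 ^ n := by positivity
  have hi : (0:ℝ) < 1 / 2 ^ n := by positivity
  refine ⟨fun j => if j = 2 then v 2 + z 2 / 2 ^ n else y j - a z j, ⟨?_, fun j hj => ?_⟩, ?_⟩
  · show |(if (2 : Fin 3) = 2 then v 2 + (z 2 : ℝ) / 2 ^ n else _) - (v 2 + z 2 / 2 ^ n)| ≤ 0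
    rw [if_pos rfl, sub_self, abs_zero]
  · simp only at hj ⊢
    rw [if_neg hj]
    have h1 := hy j
    simp only [pc, pa, if_neg hj] at h1
    rw [abs_le] at h1
    have e1 : (1 / 2 - 2 * ϑ + 4 * κ) / 2 ^ n + 4 * (5 * κ / 2 ^ n) =
        (1 / 2) / 2 ^ n - (2 * ϑ - 24 * κ) / 2 ^ n := by ring
    have e2 : ((z j : ℝ) + 1 / 2) / 2 ^ n = z j / 2 ^ n + (1 / 2) / 2 ^ n := by ring
    have e3 : ((z j : ℝ) + 1) / 2 ^ n = z j / 2 ^ n + (1 / 2) / 2 ^ n + (1 / 2) / 2 ^ n := by ring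
    have h2 : ϑ / 2 ^ n ≤ (2 * ϑ - 24 * κ) / 2 ^ n := by
      gcongr; linarith
    rw [e1, e2] at h1
    rw [e3]
    constructor <;> linarith [h1.1, h1.2]
  · rw [pi_norm_le_iff_of_nonneg (by positivity)]
    intro j
    by_cases hj : j = 2
    · subst hj
      have h1 := hy 2
      simp only [pc, pa, if_true] at h1
      rw [Pi.sub_apply, Pi.add_apply, P2_two, zero_add, Real.norm_eq_abs]
      have h2 : y 2 - a z 2 = (y 2 - t z / 2 ^ mt) + (t z / 2 ^ mt - a z 2) := by ring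
      rw [h2]
      refine (abs_add_le _ _).trans ?_
      have e : 26 * κ / 2 ^ n = (5 * κ / 2 ^ n + 4 * (5 * κ / 2 ^ n)) + κ / 2 ^ n := by ring
      rw [e]
      exact add_le_add h1 ht
    · rw [Pi.sub_apply, Pi.add_apply, P2_ne _ hj, if_neg hj]
      have : y j - (y j - a z j + a z j) = 0 := by ring
      rw [this, norm_zero]
      positivity

/-- the closed `1 / 2 ^ n` neighbourhoods of the plates -/
def plK (v : V) (n : ℕ) (J : Finset (Fin 3 → ℤ)) (a : (Fin 3 → ℤ) → V) : Set V :=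
  ⋃ z ∈ J, (fun q : V × V => P2 q.1 + a z + q.2) ''
    (squ v ((n, z), 2) ×ˢ closedBall (0 : V) (1 / 2 ^ n))

theorem isCompact_plK (v : V) (n : ℕ) (J : Finset (Fin 3 → ℤ)) (a : (Fin 3 → ℤ) → V) :
    IsCompact (plK v n J a) := by
  refine J.isCompact_biUnion fun z _ => ?_
  refine ((isCompact_squ v n z 2).prod (isCompact_closedBall _ _)).image ?_
  exact ((P2.continuous.comp continuous_fst).add continuous_const).add continuous_snd

theorem mem_plK {v : V} {n : ℕ} {J : Finset (Fin 3 → ℤ)} {a : (Fin 3 → ℤ) → V} {z : Fin 3 → ℤ}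
    (hz : z ∈ J) {x y : V} (hx : x ∈ squ v ((n, z), 2)) (hxy : ‖y - (P2 x + a z)‖ ≤ 1 / 2 ^ n) :
    y ∈ plK v n J a := by
  refine mem_biUnion hz ⟨(x, y - (P2 x + a z)), ⟨hx, ?_⟩, ?_⟩
  · rw [mem_closedBall, dist_zero_right]; exact hxy
  · simp

theorem plK_sub {f : V → V} {κ ϑ : ℝ} {Λ : Set V} {v : V}
    {S0 : Finset (Idx × Fin 3)} {n : ℕ} {G : Set V} {J : Finset (Fin 3 → ℤ)}
    {a : (Fin 3 → ℤ) → V} (H : PlatesAt f P2 κ ϑ Λ v S0 2 n G J a) : plK v n J a ⊆ Λ := by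
  refine iUnion₂_subset fun z hz => ?_
  rintro _ ⟨⟨x, w⟩, ⟨hx, hw⟩, rfl⟩
  refine H.inside z hz x hx ?_
  rw [mem_closedBall, dist_eq_norm, add_sub_cancel_left]
  rwa [mem_closedBall, dist_zero_right] at hw

/-- **the collapse** -/
theorem exists_T {f : V → V} {κ ϑ : ℝ} {Λ : Set V} (hΛ : IsOpen Λ) {v : V}
    {S0 : Finset (Idx × Fin 3)} {n : ℕ} {G : Set V} {J : Finset (Fin 3 → ℤ)}
    {a : (Fin 3 → ℤ) → V} {κ' : ℝ} (H : PlatesAt f P2 κ' ϑ Λ v S0 2 n G J a) (hκ : 0 < κ)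
    (hκϑ : κ ≤ ϑ / 256) (hϑ1 : ϑ ≤ 1) {mt : ℕ} (hmt : 1 / 2 ^ mt ≤ κ / 2 ^ n) {δ : ℝ}
    (hδ : 0 < δ) :
    ∃ (T : ConHomeo Λ Λ), (∀ y ∈ Λ, y ∉ plK v n J a → T.toFun y = y) ∧
      (∀ y y', ‖T.toFun y - T.toFun y'‖ ≤ 2 * ‖y - y'‖) ∧
      (∀ y, ‖T.toFun y - y‖ ≤ 5 * κ / 2 ^ n) ∧
      (∀ y, ∀ j, j ≠ 2 → T.toFun y j = y j) ∧
      ∀ z ∈ J, ∃ t : ℤ, ∀ x ∈ pbox v ((n, z), 2) (2 * ϑ / 2 ^ n) 0, ∀ y,
        ‖y - (P2 x + a z)‖ ≤ 4 * κ / 2 ^ n → |T.toFun y 2 - t / 2 ^ mt| ≤ δ / 2 ^ mt := by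
  classical
  have hn : (0:ℝ) < 2 ^ n := by positivity
  have hm : (0:ℝ) < 2 ^ mt := by positivity
  have hϑ0 : 0 < ϑ := by linarith
  set t : (Fin 3 → ℤ) → ℤ := fun z => ⌊a z 2 * 2 ^ mt⌋ with ht
  have htz : ∀ z, |(t z : ℝ) / 2 ^ mt - a z 2| ≤ κ / 2 ^ n := by
    intro z
    refine le_trans ?_ hmt
    have h1 := Int.floor_le (a z 2 * 2 ^ mt)
    have h2 := Int.lt_floor_add_one (a z 2 * 2 ^ mt)
    have h3 : (t z : ℝ) / 2 ^ mt ≤ a z 2 := by rw [div_le_iff₀ hm]; exact h1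
    have h4 : a z 2 < (t z : ℝ) / 2 ^ mt + 1 / 2 ^ mt := by
      rw [← add_div, lt_div_iff₀ hm]; exact h2
    rw [abs_le]
    constructor <;> linarith
  set ρ : ℝ := 5 * κ / 2 ^ n with hρ
  have hρ0 : 0 < ρ := by positivity
  obtain ⟨lam, hl0, hl1, hlam⟩ : ∃ lam : ℝ, 0 < lam ∧ lam ≤ 1 ∧ lam * ρ ≤ δ / 2 ^ mt := by
    refine ⟨min 1 (δ / 2 ^ mt / ρ), lt_min one_pos (by positivity), min_le_left _ _, ?_⟩
    calc min 1 (δ / 2 ^ mt / ρ) * ρ ≤ δ / 2 ^ mt / ρ * ρ := by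
          gcongr; exact min_le_right _ _
      _ = δ / 2 ^ mt := by field_simp
  -- the boxes
  have hbig : ∀ z ∈ J, cor (pc v n a mt t z) (fun i => pa n κ ϑ i + 4 * ρ) ⊆ Λ := by
    intro z hz y hy
    obtain ⟨x, hx, hxy⟩ := exists_plate_pt hκ hκϑ (htz z) hy
    refine H.inside z hz x (pbox_subset_squ (by positivity) hx) ?_
    rw [mem_closedBall, dist_eq_norm]
    refine hxy.trans ?_
    gcongr
    linarith
  have hdis : ∀ z ∈ J, ∀ z' ∈ J, z ≠ z' →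
      Disjoint (cor (pc v n a mt t z) fun i => pa n κ ϑ i + 4 * ρ)
        (cor (pc v n a mt t z') fun i => pa n κ ϑ i + 4 * ρ) := by
    intro z hz z' hz' hne
    rw [Set.disjoint_left]
    intro y hy hy'
    obtain ⟨x, hx, hxy⟩ := exists_plate_pt hκ hκϑ (htz z) hy
    obtain ⟨x', hx', hxy'⟩ := exists_plate_pt hκ hκϑ (htz z') hy'
    have h1 := H.sep z hz z' hz' hne x hx x' hx'
    have h2 : ‖(P2 x + a z) - (P2 x' + a z')‖ ≤ 26 * κ / 2 ^ n + 26 * κ / 2 ^ n := by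
      have e : (P2 x + a z) - (P2 x' + a z') = (y - (P2 x' + a z')) - (y - (P2 x + a z)) := by
        abel
      rw [e]
      refine (norm_sub_le _ _).trans ?_
      linarith
    have h3 : 26 * κ / 2 ^ n + 26 * κ / 2 ^ n < ϑ / 2 / 2 ^ n := by
      rw [← add_div]
      gcongr
      have : 0 < ϑ := by linarith
      linarith
    linarith
  obtain ⟨T, hT1, hT2, hT3, hT4, hT5⟩ := exists_squeeze (ι := {z // z ∈ J}) hΛ ({2} : Finset (Fin 3))
    hl0 hl1 (R := 4) le_rfl (fun z => pc v n a mt t z.1) (fun _ => pa n κ ϑ) (fun _ => ρ)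
    (fun _ => hρ0) (fun _ j hj => by
      rw [Finset.mem_singleton] at hj
      subst hj
      simp only [pa, if_true]
      rw [hρ])
    (fun z => hbig z.1 z.2) (fun z z' hzz => hdis z.1 z.2 z'.1 z'.2 fun h => hzz (Subtype.ext h))
    (fun z _ => ⟨univ, univ_mem, Set.toFinite _⟩)
  refine ⟨T, ?_, ?_, ?_, ?_, ?_⟩
  · intro y _ hy
    refine hT3 y fun z hz => hy ?_
    obtain ⟨x, hx, hxy⟩ := exists_plate_pt hκ hκϑ (htz z.1) hz
    refine mem_plK z.2 (pbox_subset_squ (by positivity) hx) (hxy.trans ?_)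
    gcongr
    linarith
  · intro y y'
    rw [pi_norm_le_iff_of_nonneg (by positivity)]
    intro i
    have h1 := hT5 y y' i
    have h2 : |y i - y' i| ≤ ‖y - y'‖ := norm_le_pi_norm (y - y') i
    rw [Pi.sub_apply, Real.norm_eq_abs]
    linarith
  · intro y
    rw [pi_norm_le_iff_of_nonneg (by positivity)]
    intro i
    by_cases h : ∃ z : {z // z ∈ J}, y ∈ cor (pc v n a mt t z.1) fun i => pa n κ ϑ i + 4 * ρ
    · obtain ⟨z, hz⟩ := h
      exact (hT4 z y hz i).2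
    · push Not at h
      rw [hT3 y h, sub_self, Pi.zero_apply, norm_zero]
      positivity
  · intro y j hj
    exact hT2 y j (by rwa [Finset.mem_singleton])
  · intro z hz
    refine ⟨t z, fun x hx y hy => ?_⟩
    have hyc : y ∈ cor (pc v n a mt t z) (pa n κ ϑ) := by
      intro j
      have h1 : |y j - (P2 x j + a z j)| ≤ 4 * κ / 2 ^ n := (norm_le_pi_norm _ j).trans hy
      by_cases hj : j = 2
      · subst hj
        rw [P2_two, zero_add] at h1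
        simp only [pc, pa, if_true]
        have h2 := htz z
        rw [abs_le] at h1 h2 ⊢
        have e : 5 * κ / 2 ^ n = 4 * κ / 2 ^ n + κ / 2 ^ n := by ring
        rw [e]
        constructor <;> linarith [h1.1, h1.2, h2.1, h2.2]
      · rw [P2_ne x hj] at h1
        simp only [pc, pa, if_neg hj]
        have h2 := hx.2 j hj
        simp only at h2
        rw [abs_le] at h1 ⊢
        have e1 : (1 / 2 - 2 * ϑ + 4 * κ) / 2 ^ n =
          (1 / 2) / 2 ^ n - 2 * ϑ / 2 ^ n + 4 * κ / 2 ^ n := by ring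
        have e2 : ((z j : ℝ) + 1 / 2) / 2 ^ n = z j / 2 ^ n + (1 / 2) / 2 ^ n := by ring
        have e3 : ((z j : ℝ) + 1) / 2 ^ n = z j / 2 ^ n + (1 / 2) / 2 ^ n + (1 / 2) / 2 ^ n := by
          ring
        rw [e1, e2]
        rw [e3] at h2
        constructor <;> linarith [h1.1, h1.2, h2.1, h2.2]
    rw [hT1 ⟨z, hz⟩ y hyc 2 (Finset.mem_singleton_self _)]
    have h3 := hyc 2
    simp only [pc, pa, if_true] at h3 ⊢
    rw [add_sub_cancel_left, abs_mul, abs_of_pos hl0]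
    exact (mul_le_mul_of_nonneg_left h3 hl0.le).trans hlam

end Vale.Agent.P073.H407
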