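import Vale.Agent.P073.H407.MainE
import Vale.Agent.P073.H333.NetInDefs
import Vale.Agent.P073.GBM.CellFinal

/-!
# P073, GAP-CLOSE (helper407): `H333.SpecCellE` from the uniform collar
-/

open Set Metric Topology Filter MeasureTheory
open scoped ENNReal NNReal

namespace P073.Cell

open P073 P073.PR720 P073.GB73 P073.GBM P073.Gauge P073.GB1W
open Vale.Agent.P073.St (V)
open Vale.Agent.P073.AB
open Vale.Agent.P073.SQ (ev)
open P073.Net (dyc dyo)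

theorem cellHyp_mono {p θ M κ κ' : ℝ} {k₁ k₀ n₂ : ℕ} {Λ : Set V} {v : V} {I : Set Idx}
    {z : Fin 3 → ℤ} {A : V → V} {L : V →L[ℝ] V} {h : V → V} (hκ : κ' ≤ κ)
    (H : CellHyp p θ M κ' k₁ k₀ n₂ Λ v I z A L h) : CellHyp p θ M κ k₁ k₀ n₂ Λ v I z A L h := by
  refine ⟨H.aff, H.below, H.above, H.fine, fun e he hs => ⟨fun x hx => ?_, ?_⟩, H.foreign, H.inside⟩
  · exact ((H.own e he hs).1 x hx).trans (div_le_div_of_nonneg_right hκ (by positivity))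
  · refine (H.own e he hs).2.trans (ENNReal.ofReal_le_ofReal ?_)
    exact mul_le_mul_of_nonneg_right hκ (by positivity)

section cell

variable {Ω Λ : Set V} {v : V} {I : Set Idx} {n₂ k₁ k₀ : ℕ} {z : Fin 3 → ℤ}

/-- the boundary points of the cell are in cubes of the partition which are not in the cell -/
theorem exists_outer_cube {x : V} (hx : x ∈ dyc v n₂ z) (hxi : x ∉ interior (dyc v n₂ z)) :
    ∃ z', x ∈ dyc v (n₂ + k₁ + k₀) z' ∧ ¬ dyc v (n₂ + k₁ + k₀) z' ⊆ dyc v n₂ z := by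
  obtain ⟨w, hw, -⟩ := exists_descendant (k₁ + k₀) hx
  rw [← add_assoc] at hw
  have hd : (0:ℝ) < 1 / 2 ^ (gN n₂ k₁ k₀) := by positivity
  have e1 : (z : Fin 3 → ℤ) → ∀ k, v k + (z k : ℝ) / 2 ^ n₂ =
      v k + z k * 2 ^ (k₁ + k₀) * (1 / 2 ^ (gN n₂ k₁ k₀)) := by
    intro z k; rw [div_eq_mul_one_div, Dd n₂ k₁ k₀]; ring
  have e2 : ∀ k, v k + ((z k : ℝ) + 1) / 2 ^ n₂ =
      v k + (z k + 1) * 2 ^ (k₁ + k₀) * (1 / 2 ^ (gN n₂ k₁ k₀)) := by
    intro k; rw [div_eq_mul_one_div, Dd n₂ k₁ k₀]; ring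
  -- change one coordinate
  have key : ∀ (k : Fin 3) (m : ℤ), v k + m / 2 ^ (gN n₂ k₁ k₀) ≤ x k →
      x k ≤ v k + (m + 1) / 2 ^ (gN n₂ k₁ k₀) →
      (v k + (m + 1 / 2 : ℝ) / 2 ^ (gN n₂ k₁ k₀) < v k + (z k : ℝ) / 2 ^ n₂ ∨
        v k + ((z k : ℝ) + 1) / 2 ^ n₂ < v k + (m + 1 / 2 : ℝ) / 2 ^ (gN n₂ k₁ k₀)) →
      ∃ z', x ∈ dyc v (n₂ + k₁ + k₀) z' ∧ ¬ dyc v (n₂ + k₁ + k₀) z' ⊆ dyc v n₂ z := by
    intro k m h1 h2 h3
    refine ⟨Function.update w k m, fun j => ?_, fun hsub => ?_⟩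
    · by_cases hj : j = k
      · subst hj; rw [Function.update_self]; exact ⟨h1, h2⟩
      · rw [Function.update_of_ne hj]; exact hw j
    · have h4 : cc v (gN n₂ k₁ k₀) (Function.update w k m) ∈
          dyc v (n₂ + k₁ + k₀) (Function.update w k m) := by
        intro j
        simp only [cc]
        have hp : (0:ℝ) < 2 ^ (n₂ + k₁ + k₀) := by positivity
        constructor
        · rw [add_le_add_iff_left, div_le_div_iff_of_pos_right hp]; linarith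
        · rw [add_le_add_iff_left, div_le_div_iff_of_pos_right hp]; linarith
      have h5 := hsub h4 k
      simp only [cc, Function.update_self] at h5
      rcases h3 with h3 | h3 <;> linarith [h5.1, h5.2]
  rw [C110.interior_dyc] at hxi
  have hxi' : ∃ k, ¬ (v k + z k / 2 ^ n₂ < x k ∧ x k < v k + (z k + 1) / 2 ^ n₂) := by
    by_contra hcon
    push Not at hcon
    exact hxi hcon
  obtain ⟨k, hk⟩ := hxi'
  have hxk := hx k
  by_cases h1 : v k + z k / 2 ^ n₂ < x k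
  · have h2 : x k = v k + (z k + 1) / 2 ^ n₂ := by
      apply le_antisymm hxk.2
      by_contra h3
      exact hk ⟨h1, not_le.1 h3⟩
    refine key k ((z k + 1) * 2 ^ (k₁ + k₀)) ?_ ?_ (Or.inr ?_)
    · rw [h2, e2]; push_cast; exact le_of_eq (by ring)
    · rw [h2, e2]; push_cast
      have : ((z k : ℝ) + 1) * 2 ^ (k₁ + k₀) * (1 / 2 ^ (gN n₂ k₁ k₀)) ≤
        (((z k : ℝ) + 1) * 2 ^ (k₁ + k₀) + 1) * (1 / 2 ^ (gN n₂ k₁ k₀)) :=
        mul_le_mul_of_nonneg_right (by linarith) hd.le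
      rw [div_eq_mul_one_div (_ + 1 : ℝ)]; linarith
    · rw [e2]; push_cast
      have : ((z k : ℝ) + 1) * 2 ^ (k₁ + k₀) * (1 / 2 ^ (gN n₂ k₁ k₀)) <
        (((z k : ℝ) + 1) * 2 ^ (k₁ + k₀) + 1 / 2) * (1 / 2 ^ (gN n₂ k₁ k₀)) :=
        mul_lt_mul_of_pos_right (by linarith) hd
      rw [div_eq_mul_one_div (_ + 1 / 2 : ℝ)]; linarith
  · have h2 : x k = v k + z k / 2 ^ n₂ := le_antisymm (not_lt.1 h1) hxk.1
    refine key k (z k * 2 ^ (k₁ + k₀) - 1) ?_ ?_ (Or.inl ?_)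
    · rw [h2, e1]; push_cast
      have : ((z k : ℝ) * 2 ^ (k₁ + k₀) - 1) * (1 / 2 ^ (gN n₂ k₁ k₀)) ≤
        ((z k : ℝ) * 2 ^ (k₁ + k₀)) * (1 / 2 ^ (gN n₂ k₁ k₀)) :=
        mul_le_mul_of_nonneg_right (by linarith) hd.le
      rw [div_eq_mul_one_div (_ - 1 : ℝ)]; linarith
    · rw [h2, e1]; push_cast; exact le_of_eq (by ring)
    · rw [e1]; push_cast
      have : ((z k : ℝ) * 2 ^ (k₁ + k₀) - 1 + 1 / 2) * (1 / 2 ^ (gN n₂ k₁ k₀)) <
        ((z k : ℝ) * 2 ^ (k₁ + k₀)) * (1 / 2 ^ (gN n₂ k₁ k₀)) :=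
        mul_lt_mul_of_pos_right (by linarith) hd
      rw [div_eq_mul_one_div (_ + 1 / 2 : ℝ)]; linarith

/-- **connectedness**: `A(shrink)` is in the image of the interior of the cell -/
theorem not_mem_shrink {θ κ : ℝ} {A : V → V} {L : V →L[ℝ] V} {h : ConHomeo Ω Λ} (hθ : 0 < θ)
    (hκ : κ ≤ θ / 2) (hk₁ : 3 ≤ k₁) (hsub : dyc v n₂ z ⊆ Ω)
    (haff : ∀ x y, A y - A x = L (y - x)) (hbelow : ∀ w, θ * ‖w‖ ≤ ‖L w‖)
    (hins : A '' shrink v n₂ z (1 / 2 ^ (n₂ + k₁ + k₀)) ⊆ Λ)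
    (hcl : ∀ x ∈ dyc v n₂ z, ‖h.toFun x - A x‖ ≤ κ / 2 ^ (n₂ + k₁ + k₀)) {x : V} (hx : x ∈ Ω)
    (hxi : x ∉ interior (dyc v n₂ z)) :
    h.toFun x ∉ A '' shrink v n₂ z (1 / 2 ^ (n₂ + k₁ + k₀)) := by
  intro hmem
  obtain ⟨AL, hAL, hAs⟩ := exists_equiv hθ hbelow
  have hA : ∀ x, A x = A 0 + AL x := by
    intro x
    have := haff 0 x
    rw [hAL, ← sub_eq_iff_eq_add', this, sub_zero]
  have hd : (0:ℝ) < 1 / 2 ^ (n₂ + k₁ + k₀) := by positivity
  have hθκ : κ / 2 ^ (n₂ + k₁ + k₀) ≤ θ * (1 / 2 * (1 / 2 ^ (n₂ + k₁ + k₀))) := by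
    calc κ / 2 ^ (n₂ + k₁ + k₀) ≤ (θ / 2) / 2 ^ (n₂ + k₁ + k₀) :=
          div_le_div_of_nonneg_right hκ (by positivity)
      _ = _ := by ring
  have hcl' : ∀ y ∈ dyc v n₂ z, ∀ s, h.toFun y = A s →
      ‖s - y‖ ≤ 1 / 2 * (1 / 2 ^ (n₂ + k₁ + k₀)) := by
    intro y hy s hs
    have h1 := hcl y hy
    rw [hs, haff] at h1
    have h2 := hbelow (s - y)
    exact le_of_mul_le_mul_left (h2.trans (h1.trans hθκ)) hθ
  set S : Set V := A '' shrink v n₂ z (1 / 2 ^ (n₂ + k₁ + k₀)) with hS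
  have hAc : Continuous A := by
    have : A = fun x => A 0 + AL x := funext hA
    rw [this]
    exact continuous_const.add AL.continuous
  have hshr : shrink v n₂ z (1 / 2 ^ (n₂ + k₁ + k₀)) =
      Icc (fun k => v k + z k / 2 ^ n₂ + 1 / 2 ^ (n₂ + k₁ + k₀))
        (fun k => v k + (z k + 1) / 2 ^ n₂ - 1 / 2 ^ (n₂ + k₁ + k₀)) := by
    ext x
    simp only [mem_Icc, Pi.le_def]
    constructor
    · intro h; exact ⟨fun k => (h k).1, fun k => (h k).2⟩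
    · intro h k; exact ⟨h.1 k, h.2 k⟩
  have hSc : IsPreconnected S := by
    rw [hS, hshr]
    exact (convex_Icc _ _).isPreconnected.image _ hAc.continuousOn
  have hSi : IsPreconnected (h.invFun '' S) := hSc.image _ (h.cont_inv.mono hins)
  have hcov : h.invFun '' S ⊆ interior (dyc v n₂ z) ∪ (dyc v n₂ z)ᶜ := by
    rintro _ ⟨y, hy, rfl⟩
    obtain ⟨s, hs, rfl⟩ := id hy
    by_cases h1 : h.invFun (A s) ∈ dyc v n₂ z
    · left
      have h2 : h.toFun (h.invFun (A s)) = A s := h.right_inv (hins hy)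
      have h3 := hcl' _ h1 s h2
      rw [C110.interior_dyc]
      intro k
      have h4 := abs_le.1 ((norm_le_pi_norm _ k).trans h3)
      rw [Pi.sub_apply] at h4
      have h5 := hs k
      constructor <;> linarith [h4.1, h4.2, h5.1, h5.2]
    · exact Or.inr h1
  have hcl2 : IsClosed (dyc v n₂ z) := by
    rw [dyc_eq_Icc]; exact isClosed_Icc
  rcases (isPreconnected_iff_subset_of_disjoint.1 hSi) _ _ isOpen_interior hcl2.isOpen_compl hcov
    (by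
      rw [Set.eq_empty_iff_forall_notMem]
      rintro y ⟨-, hy1, hy2⟩
      exact hy2 (interior_subset hy1)) with h1 | h1
  · apply hxi
    have h2 := h1 (mem_image_of_mem _ hmem)
    rwa [h.left_inv hx] at h2
  · -- the centre
    have hc : cc v n₂ z ∈ dyc v n₂ z := by
      intro k
      simp only [cc]
      have hp : (0:ℝ) < 2 ^ n₂ := by positivity
      constructor
      · rw [add_le_add_iff_left, div_le_div_iff_of_pos_right hp]; linarith
      · rw [add_le_add_iff_left, div_le_div_iff_of_pos_right hp]; linarith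
    have h2 : h.toFun (cc v n₂ z) = A (AL.symm (h.toFun (cc v n₂ z) - A 0)) := by
      rw [hA, AL.apply_symm_apply]; abel
    have h3 := hcl' _ hc _ h2
    have h4 : h.toFun (cc v n₂ z) ∈ S := by
      rw [h2]
      refine mem_image_of_mem _ fun k => ?_
      have h5 := abs_le.1 ((norm_le_pi_norm _ k).trans h3)
      rw [Pi.sub_apply] at h5
      simp only [cc] at h5 ⊢
      have h6 : (8:ℝ) * (1 / 2 ^ (n₂ + k₁ + k₀)) ≤ 1 / 2 ^ n₂ := by
        have h7 : (2:ℝ) ^ (n₂ + k₁ + k₀) = 2 ^ n₂ * 2 ^ (k₁ + k₀) := by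
          rw [add_assoc, pow_add]
        have h8 : (8:ℝ) ≤ 2 ^ (k₁ + k₀) := by
          calc (8:ℝ) = 2 ^ 3 := by norm_num
            _ ≤ 2 ^ (k₁ + k₀) := pow_le_pow_right₀ (by norm_num) (by omega)
        rw [h7, mul_one_div, div_le_div_iff₀ (by positivity) (by positivity)]
        have h9 : (0:ℝ) < 2 ^ n₂ := by positivity
        nlinarith
      have e1 : ((z k : ℝ) + 1) / 2 ^ n₂ = z k / 2 ^ n₂ + 1 / 2 ^ n₂ := by ring
      have e2 : ((z k : ℝ) + 1 / 2) / 2 ^ n₂ = z k / 2 ^ n₂ + 1 / 2 * (1 / 2 ^ n₂) := by ring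
      rw [e2] at h5
      rw [e1]
      constructor <;> linarith [h5.1, h5.2]
    have h5 := h1 (mem_image_of_mem _ h4)
    rw [h.left_inv (hsub hc)] at h5
    exact h5 hc

end cell

/-- **(CELL-E)** -/
theorem specCellE_of (hUE : SpecUE) : Vale.Agent.P073.H333.SpecCellE := by
  intro p θ M hp hθ hM
  obtain ⟨C, hC, H⟩ := specCell2E_of hUE p θ M hp hθ hM
  refine ⟨C + 1, by linarith, fun k₁ hk₁ => ?_⟩
  obtain ⟨K₀, H⟩ := H k₁ hk₁
  obtain ⟨κ, hκ, H⟩ := H K₀ le_rfl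
  refine ⟨K₀, min κ (min 1 (θ / 2)), by positivity, ?_⟩
  set κ' : ℝ := min κ (min 1 (θ / 2)) with hκ'
  have hk1 : κ' ≤ κ := min_le_left _ _
  have hk2 : κ' ≤ 1 := (min_le_right _ _).trans (min_le_left _ _)
  have hk3 : κ' ≤ θ / 2 := (min_le_right _ _).trans (min_le_right _ _)
  intro Ω Λ v I n₂ z A L h hΩ hΛ hI hyp hcl
  obtain ⟨D⟩ := specCx Ω v I hΩ hI
  have hfine := hyp.fine
  have hcelΩ : dyc v n₂ z ⊆ Ω := by
    intro x hx
    obtain ⟨w, hw, -⟩ := exists_descendant (k₁ + K₀) hx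
    rw [← add_assoc] at hw
    exact hI.sub _ (hfine w ⟨x, hw, hx⟩) hw
  set I' : Set Idx := {q | q ∈ I ∧ ¬ dyc v q.1 q.2 ⊆ dyc v n₂ z} with hI'
  set Z : Set V := ⋃ q ∈ I', dyc v q.1 q.2 with hZ
  have hZi : Disjoint Z (interior (dyc v n₂ z)) := by
    rw [Set.disjoint_left]
    intro x hx hx'
    obtain ⟨q, hq, hxq⟩ := mem_iUnion₂.1 hx
    have hg := gen_eq hI hfine hq.1 hxq (interior_subset hx')
    apply hq.2
    rw [hg] at hxq ⊢
    exact dyc_subset_of_inter (k₁ := k₁) (k₀ := K₀) ⟨x, hxq, hx'⟩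
  have hZc : ∀ x ∈ Ω, x ∉ interior (dyc v n₂ z) → x ∈ Z := by
    intro x hx hxi
    by_cases hxc : x ∈ dyc v n₂ z
    · obtain ⟨z', h1, h2⟩ := exists_outer_cube (k₁ := k₁) (k₀ := K₀) hxc hxi
      exact mem_iUnion₂.2 ⟨(n₂ + k₁ + K₀, z'), ⟨hfine z' ⟨x, h1, hxc⟩, h2⟩, h1⟩
    · obtain ⟨q, hq, hxq⟩ := hI.cover x hx
      exact mem_iUnion₂.2 ⟨q, ⟨hq, fun hsub => hxc (hsub hxq)⟩, hxq⟩
  have hZΩ : Z ⊆ Ω := iUnion₂_subset fun q hq => hI.sub q hq.1
  obtain ⟨h', g1, g2, g3, g4, g5⟩ := H Ω Λ v I D n₂ z A L h hΩ hΛ hI (cellHyp_mono hk1 hyp)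
    (fun x hx => (hcl x hx).trans (div_le_div_of_nonneg_right hk1 (by positivity)))
    Z (specProt Ω v I hΩ hI D I' (fun q hq => hq.1)) hZi
    (fun x hx => not_mem_shrink hθ hk3 hk₁ hcelΩ hyp.aff hyp.below hyp.inside hcl (hZΩ hx)
      (fun hxi => Set.disjoint_left.1 hZi hx hxi))
  refine ⟨h', ⟨g1.box, fun e he hs1 hs2 => ?_⟩, fun x hx => ?_, fun x hx hxB => ?_,
    fun x hx hxi => g3 (hZc x hx hxi), fun e he x hx hxB => (g2 e he x hx).1 hxB⟩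
  · obtain ⟨a1, a2⟩ := g1.gap e he hs1 hs2
    refine ⟨a1, a2.trans (ENNReal.ofReal_le_ofReal ?_)⟩
    exact mul_le_mul_of_nonneg_right (by linarith) (by positivity)
  · exact (g4 x hx).trans (div_le_div_of_nonneg_right (by linarith) (by positivity))
  · by_cases hxi : x ∈ interior (dyc v n₂ z)
    · exact (g5 x hxi hxB).trans (div_le_div_of_nonneg_right (by linarith) (by positivity))
    · rw [g3 (hZc x (hcelΩ hx) hxi)]
      exact (hcl x hx).trans (div_le_div_of_nonneg_right (by linarith) (by positivity))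

end P073.Cell
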