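import Vale.Agent.P073.H407.Mid3

/-!
# P073, block A16, [POST-MID], part `mid` (helper407): the middle plane

`mid_of`: distance of `g` to `P2` on the middle plane.
-/

namespace Vale.Agent.P073.H407

open MeasureTheory Set Filter Topology Metric Vale.Agent.P073.St Vale.Agent.P073.AB
open Vale.Agent.P073.AB.P86
open Vale.Agent.P073.H235
open Vale.Agent.P073.SQ (ev cube)
open Vale.Agent.P073.H73 (MinEdge segP onSeg faceL)
open Vale.Agent.P073.H239 (Deep faceI)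
open Vale.Agent.P073.H687 (tsum_sqE)
open _root_.P073 (ConHomeo)
open scoped ENNReal

section

variable {p C θ ν τ ε δ : ℝ} {Λ : Set V} {f : V → V}

/-- the weight of one edge -/
noncomputable def wE (p : ℝ) (n : ℕ) (ℓ : Idx × Fin 3 → ℝ≥0∞) (e : Idx × Fin 3) : ℝ≥0∞ :=
  ENNReal.ofReal (1 / 2 ^ n) * (ENNReal.ofReal ((1 / 2 ^ n) ^ (1 - p)) * ℓ e ^ p)

theorem card_mul {A : Finset (Fin 3 → ℤ)} {n : ℕ} {ε₁ : ℝ} (hA : (A.card : ℝ) / 4 ^ n ≤ ε₁) :
    (A.card : ℝ≥0∞) * ENNReal.ofReal (1 / 4 ^ n) ≤ ENNReal.ofReal ε₁ := by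
  have h1 : (A.card : ℝ≥0∞) = ENNReal.ofReal A.card := (ENNReal.ofReal_natCast _).symm
  rw [h1, ← ENNReal.ofReal_mul (Nat.cast_nonneg _)]
  refine ENNReal.ofReal_le_ofReal ?_
  rwa [mul_one_div]

/-- the weights of the bad squares -/
theorem sum_wE (hp : 1 ≤ p) (P : PreFlat p C θ ν τ ε δ Λ f) (hC : 0 < C) {ε₁ : ℝ}
    {A : Finset (Fin 3 → ℤ)} (hAR : A ⊆ rect P.a P.b) (hA : (A.card : ℝ) / 4 ^ P.nS ≤ ε₁) :
    ∑ k ∈ A, ∑ e ∈ sqE ((P.nS, k), 2), wE p P.nS P.ℓ e ≤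
      ENNReal.ofReal ε + ENNReal.ofReal (C ^ p) * (2 ^ (p - 1) *
        (4 * ENNReal.ofReal ε₁ + 2 * ENNReal.ofReal ε)) := by
  classical
  have hp0 : 0 ≤ p := by linarith
  set n := P.nS with hn
  have h1 : ∑ k ∈ A \ P.G, ∑ e ∈ sqE ((n, k), 2), wE p n P.ℓ e ≤ ENNReal.ofReal ε := by
    refine le_trans ?_ P.bad
    calc ∑ k ∈ A \ P.G, ∑ e ∈ sqE ((n, k), 2), wE p n P.ℓ e
        ≤ ∑ k ∈ rect P.a P.b \ P.G, ∑ e ∈ sqE ((n, k), 2), wE p n P.ℓ e :=
          Finset.sum_le_sum_of_subset (Finset.sdiff_subset_sdiff hAR le_rfl)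
      _ = _ := by
          refine Finset.sum_congr rfl fun k _ => ?_
          exact (tsum_sqE ((n, k), 2) (wE p n P.ℓ)).symm
  have h2 : ∑ k ∈ A ∩ P.G, ∑ e ∈ sqE ((n, k), 2), wE p n P.ℓ e ≤
      ENNReal.ofReal (C ^ p) * (2 ^ (p - 1) *
        (4 * ENNReal.ofReal ε₁ + 2 * ENNReal.ofReal ε)) := by
    have h3 : ∀ k ∈ A ∩ P.G, ∀ e ∈ sqE ((n, k), 2), wE p n P.ℓ e ≤
        ENNReal.ofReal (C ^ p) * (2 ^ (p - 1) * (wE p n P.X e + ENNReal.ofReal (1 / 4 ^ n))) := by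
      intro k hk e he
      have h4 := P.good k (Finset.mem_inter.1 hk).2 e (mem_sqE.1 he)
      calc wE p n P.ℓ e ≤ ENNReal.ofReal (1 / 2 ^ n) * (ENNReal.ofReal ((1 / 2 ^ n) ^ (1 - p)) *
            (ENNReal.ofReal C * (ENNReal.ofReal (1 / 2 ^ n) + P.X e)) ^ p) := by
            unfold wE
            gcongr
        _ = ENNReal.ofReal (C ^ p) * (ENNReal.ofReal (1 / 2 ^ n) *
            (ENNReal.ofReal ((1 / 2 ^ n) ^ (1 - p)) *
              (P.X e + ENNReal.ofReal (1 / 2 ^ n)) ^ p)) := by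
            rw [ENNReal.mul_rpow_of_nonneg _ _ hp0, ENNReal.ofReal_rpow_of_pos hC, add_comm (P.X e)]
            ring
        _ ≤ _ := by
            exact mul_le_mul' le_rfl (term_add_le hp le_rfl)
    calc ∑ k ∈ A ∩ P.G, ∑ e ∈ sqE ((n, k), 2), wE p n P.ℓ e
        ≤ ∑ k ∈ A ∩ P.G, ∑ e ∈ sqE ((n, k), 2), ENNReal.ofReal (C ^ p) *
          (2 ^ (p - 1) * (wE p n P.X e + ENNReal.ofReal (1 / 4 ^ n))) :=
          Finset.sum_le_sum fun k hk => Finset.sum_le_sum fun e he => h3 k hk e he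
      _ = ENNReal.ofReal (C ^ p) * (2 ^ (p - 1) *
          (∑ k ∈ A ∩ P.G, ∑ e ∈ sqE ((n, k), 2), wE p n P.X e +
            ∑ k ∈ A ∩ P.G, ∑ e ∈ sqE ((n, k), 2), ENNReal.ofReal (1 / 4 ^ n))) := by
          simp only [← Finset.mul_sum, ← Finset.sum_add_distrib]
      _ ≤ _ := by
          refine mul_le_mul' le_rfl (mul_le_mul' le_rfl ?_)
          rw [add_comm (4 * _)]
          refine add_le_add ?_ ?_
          · refine (sum_edges_le (n := n) (Finset.inter_subset_left.trans hAR) _).trans ?_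
            exact mul_le_mul' le_rfl P.close
          · calc ∑ k ∈ A ∩ P.G, ∑ e ∈ sqE ((n, k), 2), ENNReal.ofReal (1 / 4 ^ n)
                ≤ ∑ k ∈ A ∩ P.G, 4 * ENNReal.ofReal (1 / 4 ^ n) := by
                  refine Finset.sum_le_sum fun k _ => ?_
                  rw [Finset.sum_const, nsmul_eq_mul]
                  gcongr
                  exact_mod_cast card_sqE_le _
              _ ≤ ∑ k ∈ A, 4 * ENNReal.ofReal (1 / 4 ^ n) :=
                  Finset.sum_le_sum_of_subset Finset.inter_subset_left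
              _ = 4 * (A.card * ENNReal.ofReal (1 / 4 ^ n)) := by
                  rw [Finset.sum_const, nsmul_eq_mul]; ring
              _ ≤ _ := mul_le_mul' le_rfl (card_mul hA)
  rw [← Finset.sum_sdiff (Finset.inter_subset_left : A ∩ P.G ⊆ A)]
  refine add_le_add (le_trans (le_of_eq ?_) h1) h2
  rw [Finset.sdiff_inter_self_left]

/-- energy of the bad squares -/
theorem sum_bad (hp : 1 ≤ p) (P : PreFlat p C θ ν τ ε δ Λ f) (hC : 0 < C) {D μ D' r c t ε₁ : ℝ}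
    {β : Idx × Fin 3 → ℝ} {Y : Set (Idx × Fin 3)} {g : ConHomeo (Bx (fl θ)) Λ}
    (hO : BoxOut P.toBoxData p D μ D' r c Y β g) (hD0 : 1 ≤ D') (hD : D ≤ D')
    (ht : 0 ≤ t) (ht1 : t ≤ 1) (hβ : ∀ s, β s ≤ t * (1 / 2 ^ s.1.1))
    {A : Finset (Fin 3 → ℤ)} (hAR : A ⊆ rect P.a P.b) (hA : (A.card : ℝ) / 4 ^ P.nS ≤ ε₁) :
    ∑ k ∈ A, 2 ^ P.nS * faceI p g.toFun (sc P.v ((P.nS, k), 2)) 2 (1 / 2 / 2 ^ P.nS) ≤
      ENNReal.ofReal (8 ^ p * D' * (1 + C ^ p) * (ε₁ + ε)) := by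
  classical
  have hp0 : 0 ≤ p := by linarith
  have hε : 0 < ε := lt_of_lt_of_le (by positivity) P.mtε
  have hε₁ : 0 ≤ ε₁ := le_trans (by positivity) hA
  set n := P.nS with hn
  set w : (Fin 3 → ℤ) → ℝ≥0∞ := fun k => ∑ e ∈ sqE ((n, k), 2), wE p n P.ℓ e with hw
  set a4 : ℝ≥0∞ := ENNReal.ofReal (1 / 4 ^ n) with ha4
  have h1 : ∀ k ∈ A, 2 ^ n * faceI p g.toFun (sc P.v ((n, k), 2)) 2 (1 / 2 / 2 ^ n) ≤
      2 ^ (p - 1) * (ENNReal.ofReal D' * (2 ^ (p - 1) * (w k + 4 * a4)) + 2 * a4) := by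
    intro k hk
    have h2 := energy_le hp P hO (by linarith) hD ht ht1 hβ (hAR hk)
    calc 2 ^ n * faceI p g.toFun (sc P.v ((n, k), 2)) 2 (1 / 2 / 2 ^ n)
        ≤ 2 ^ n * (2 ^ (p - 1) * (faceL p g.toFun (sc P.v ((n, k), 2)) 2 (1 / 2 / 2 ^ n) +
            2 * ENNReal.ofReal ((1 / 2 ^ n) ^ 3))) := mul_le_mul' le_rfl (faceI_le hp _ _ _ _)
      _ = 2 ^ (p - 1) * (2 ^ n * faceL p g.toFun (sc P.v ((n, k), 2)) 2 (1 / 2 / 2 ^ n) +
            2 * a4) := by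
          have h3 : (2:ℝ≥0∞) ^ n * ENNReal.ofReal ((1 / 2 ^ n) ^ 3) = a4 := by
            have : (2:ℝ≥0∞) ^ n = ENNReal.ofReal (2 ^ n) := by
              rw [ENNReal.ofReal_pow (by norm_num)]; norm_num
            rw [this, ← ENNReal.ofReal_mul (by positivity), ha4, pow_four]
            congr 1
            field_simp
          rw [← h3]
          ring
      _ ≤ _ := by
          refine mul_le_mul' le_rfl (add_le_add h2 le_rfl)
  have hq : (1:ℝ) ≤ 2 ^ (p - 1) := Real.one_le_rpow (by norm_num) (by linarith)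
  have hq' : (2:ℝ≥0∞) ^ (p - 1) = ENNReal.ofReal (2 ^ (p - 1)) := by
    rw [← ENNReal.ofReal_rpow_of_pos (by norm_num)]; norm_num
  have hcard : (A.card : ℝ≥0∞) * a4 ≤ ENNReal.ofReal ε₁ := card_mul hA
  calc ∑ k ∈ A, 2 ^ n * faceI p g.toFun (sc P.v ((n, k), 2)) 2 (1 / 2 / 2 ^ n)
      ≤ ∑ k ∈ A, 2 ^ (p - 1) * (ENNReal.ofReal D' * (2 ^ (p - 1) * (w k + 4 * a4)) + 2 * a4) :=
        Finset.sum_le_sum h1
    _ = 2 ^ (p - 1) * (ENNReal.ofReal D' * (2 ^ (p - 1) * (∑ k ∈ A, w k + 4 * (A.card * a4))) +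
          2 * (A.card * a4)) := by
        simp only [← Finset.mul_sum, Finset.sum_add_distrib, Finset.sum_const, nsmul_eq_mul]
    _ ≤ 2 ^ (p - 1) * (ENNReal.ofReal D' * (2 ^ (p - 1) * ((ENNReal.ofReal ε +
          ENNReal.ofReal (C ^ p) * (2 ^ (p - 1) *
            (4 * ENNReal.ofReal ε₁ + 2 * ENNReal.ofReal ε))) + 4 * ENNReal.ofReal ε₁)) +
          2 * ENNReal.ofReal ε₁) := by
        refine mul_le_mul' le_rfl (add_le_add (mul_le_mul' le_rfl (mul_le_mul' le_rfl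
          (add_le_add (sum_wE hp P hC hAR hA) (mul_le_mul' le_rfl hcard))))
          (mul_le_mul' le_rfl hcard))
    _ = ENNReal.ofReal (2 ^ (p - 1) * (D' * (2 ^ (p - 1) * ((ε + C ^ p * (2 ^ (p - 1) *
          (4 * ε₁ + 2 * ε))) + 4 * ε₁)) + 2 * ε₁)) := by
        have hCp : 0 ≤ C ^ p := by positivity
        have h4 : (4:ℝ≥0∞) = ENNReal.ofReal 4 := by norm_num
        have h2 : (2:ℝ≥0∞) = ENNReal.ofReal 2 := by norm_num
        rw [hq']
        rw [ENNReal.ofReal_mul (by positivity), ENNReal.ofReal_add (by positivity) (by positivity),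
          ENNReal.ofReal_mul (by linarith), ENNReal.ofReal_mul (by positivity),
          ENNReal.ofReal_add (by positivity) (by positivity),
          ENNReal.ofReal_add (by positivity) (by positivity),
          ENNReal.ofReal_mul hCp, ENNReal.ofReal_mul (by positivity),
          ENNReal.ofReal_add (by positivity) (by positivity),
          ENNReal.ofReal_mul (by norm_num), ENNReal.ofReal_mul (by norm_num),
          ENNReal.ofReal_mul (by norm_num), ← h4, ← h2]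
    _ ≤ _ := by
        refine ENNReal.ofReal_le_ofReal ?_
        have hCp : 0 ≤ C ^ p := by positivity
        have h8 : (8:ℝ) ^ p = 8 * (2 ^ (p - 1)) ^ 3 := by
          have e1 : (8:ℝ) ^ p = 8 * 8 ^ (p - 1) := by
            rw [Real.rpow_sub_one (by norm_num)]; field_simp
          have e2 : (8:ℝ) ^ (p - 1) = (2 ^ (p - 1)) ^ 3 := by
            rw [← Real.rpow_natCast, ← Real.rpow_mul (by norm_num), mul_comm, Real.rpow_mul (by norm_num)]
            norm_num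
          rw [e1, e2]
        rw [h8]
        set q : ℝ := 2 ^ (p - 1) with hqdef
        set Cp : ℝ := C ^ p with hCpdef
        have hqq : 1 ≤ q ^ 2 := by nlinarith
        have a1 : q * (D' * (q * ((ε + Cp * (q * (4 * ε₁ + 2 * ε))) + 4 * ε₁)) + 2 * ε₁) =
            q ^ 2 * D' * ε + q ^ 3 * D' * Cp * (4 * ε₁ + 2 * ε) + 4 * (q ^ 2 * D' * ε₁) +
              2 * (q * ε₁) := by ring
        have a2 : q ^ 2 ≤ q ^ 3 := pow_le_pow_right₀ hq (by norm_num)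
        have a3 : q ^ 1 ≤ q ^ 3 := pow_le_pow_right₀ hq (by norm_num)
        have b1 : q ^ 2 * D' * ε ≤ q ^ 3 * D' * ε := by gcongr
        have b2 : q ^ 2 * D' * ε₁ ≤ q ^ 3 * D' * ε₁ := by gcongr
        have b3 : q * ε₁ ≤ q ^ 3 * D' * ε₁ := by
          have : q * 1 ≤ q ^ 3 * D' := by
            rw [pow_one] at a3
            exact mul_le_mul a3 hD0 (by norm_num) (by positivity)
          have := mul_le_mul_of_nonneg_right this hε₁
          linarith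
        have b4 : q ^ 3 * D' * Cp * (4 * ε₁ + 2 * ε) ≤ q ^ 3 * D' * Cp * (8 * (ε₁ + ε)) := by
          gcongr
          linarith
        have b5 : 0 ≤ q ^ 3 * D' * ε := by positivity
        have b6 : 0 ≤ q ^ 3 * D' * ε₁ := by positivity
        rw [a1]
        have e : 8 * q ^ 3 * D' * (1 + Cp) * (ε₁ + ε) =
            8 * (q ^ 3 * D' * ε₁) + 8 * (q ^ 3 * D' * ε) + q ^ 3 * D' * Cp * (8 * (ε₁ + ε)) := by
          ring
        rw [e]
        linarith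

/-- **[POST-MID], `mid`: on the middle plane the derivative of `g` is close to `P2`.** -/
theorem mid_of (hp : 1 ≤ p) (P : PreFlat p C θ ν τ ε δ Λ f) (hC : 0 < C)
    {D μ D' r c t ε₁ : ℝ} {β : Idx × Fin 3 → ℝ} {g : ConHomeo (Bx (fl θ)) Λ}
    (hO : BoxOut P.toBoxData p D μ D' r c {s | ∃ k ∈ rect P.a P.b, s = ((P.nS, k), 2)} β g)
    (hδ : δ ≤ 1) (hc : 0 ≤ c) (hμ : 0 ≤ μ) (hD0 : 1 ≤ D') (hD : D ≤ D')
    (ht : 0 ≤ t) (ht1 : t ≤ 1) (hβ : ∀ s, β s ≤ t * (1 / 2 ^ s.1.1))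
    {B : Finset (Fin 3 → ℤ)} (hB : (B.card : ℝ) / 4 ^ P.nS ≤ ε₁)
    (hgood : ∀ k ∈ rect P.a P.b, k ∉ B → k ∈ P.G ∧ Free c P.v P.nS P.mt P.h.toFun k ∧
      NearMon r P.v P.nS g.toFun k ∧ ShortH r P.v P.nS P.h.toFun k) :
    ∑ j ∈ Finset.univ.erase (2 : Fin 3), ∫⁻ x in Bx 1 ∩ Co 1 (ν / 2) {0, 1},
      ENNReal.ofReal (‖lineDeriv ℝ g.toFun
        (Function.update x 2 (P.v 2 + P.a 2 / 2 ^ P.nS)) (ev j) - P2 (ev j)‖ ^ p) ≤
      ENNReal.ofReal (μ + t + 8 ^ p * D' * (1 + C ^ p) * (ε₁ + ε)) := by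
  classical
  set n := P.nS with hn
  set c₀ : ℝ := P.v 2 + P.a 2 / 2 ^ n with hc₀
  set E : Set V := Bx 1 ∩ Co 1 (ν / 2) {0, 1} with hE
  set R := rect P.a P.b with hRdef
  have hε : 0 < ε := lt_of_lt_of_le (by positivity) P.mtε
  have hε₁ : 0 ≤ ε₁ := le_trans (by positivity) hB
  have hσ : (0:ℝ) < 1 / 2 ^ n := by positivity
  have hR : ∀ k ∈ R, P.v 2 + k 2 / 2 ^ n = c₀ := fun k hk => by
    rw [hc₀, (mem_rect.1 hk).1]
  have hEE : ∀ x ∈ E, 0 < x 2 ∧ x 2 < 1 ∧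
      ∃ k ∈ R, Function.update x 2 c₀ ∈ squ P.v ((n, k), 2) := fun x hx =>
    ⟨(hx.1 2).1, (hx.1 2).2, P.cov x hx⟩
  have hP2 : ∀ j ∈ Finset.univ.erase (2 : Fin 3), P2 (ev j) = ev j := by
    intro j hj
    have hj2 := Finset.ne_of_mem_erase hj
    simp [P2, ev, Pi.single_eq_of_ne hj2.symm]
  have h1 : ∀ j ∈ Finset.univ.erase (2 : Fin 3), ∫⁻ x in E,
      ENNReal.ofReal (‖lineDeriv ℝ g.toFun (Function.update x 2 c₀) (ev j) - P2 (ev j)‖ ^ p) ≤
      2 ^ n * ∑ k ∈ R, ∫⁻ x in cube (sc P.v ((n, k), 2)) (1 / 2 / 2 ^ n),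
        ENNReal.ofReal (‖lineDeriv ℝ g.toFun (Function.update x 2 c₀) (ev j) - ev j‖ ^ p) := by
    intro j hj
    rw [hP2 j hj]
    exact cover_int hR hEE fun y => ENNReal.ofReal (‖lineDeriv ℝ g.toFun y (ev j) - ev j‖ ^ p)
  have h2 : ∑ j ∈ Finset.univ.erase (2 : Fin 3), ∫⁻ x in E,
      ENNReal.ofReal (‖lineDeriv ℝ g.toFun (Function.update x 2 c₀) (ev j) - P2 (ev j)‖ ^ p) ≤
      ∑ k ∈ R, 2 ^ n * faceI p g.toFun (sc P.v ((n, k), 2)) 2 (1 / 2 / 2 ^ n) := by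
    refine (Finset.sum_le_sum h1).trans (le_of_eq ?_)
    rw [← Finset.mul_sum, Finset.sum_comm, Finset.mul_sum]
    refine Finset.sum_congr rfl fun k hk => ?_
    have e : sc P.v ((n, k), 2) 2 = c₀ := by rw [← hR k hk]; simp [sc]
    unfold faceI
    rw [e]
  refine h2.trans ?_
  rw [← Finset.sum_sdiff (Finset.inter_subset_left : R ∩ B ⊆ R), Finset.sdiff_inter_self_left,
    ENNReal.ofReal_add (by positivity) (by positivity)]
  refine add_le_add ?_ ?_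
  · -- good squares
    have h3 : ∀ k ∈ R \ B, 2 ^ n * faceI p g.toFun (sc P.v ((n, k), 2)) 2 (1 / 2 / 2 ^ n) ≤
        ENNReal.ofReal ((μ + t) * (1 / 4 ^ n)) := by
      intro k hk
      obtain ⟨hkR, hkB⟩ := Finset.mem_sdiff.1 hk
      obtain ⟨hG, hF, hN, hS⟩ := hgood k hkR hkB
      obtain ⟨z, hz⟩ := deep_of_free P hδ hc hkR hG hF
      have h4 := hO.face ((n, k), 2) ⟨k, hkR, rfl⟩ (P.minS k hkR) P.mt z (hz _ le_rfl)
        fun e he => ⟨minEdge_of_rect P hkR he, (hN e he).1, (hN e he).2, hS e he⟩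
      have h5 : (2:ℝ≥0∞) ^ n = ENNReal.ofReal (2 ^ n) := by
        rw [ENNReal.ofReal_pow (by norm_num)]; norm_num
      calc 2 ^ n * faceI p g.toFun (sc P.v ((n, k), 2)) 2 (1 / 2 / 2 ^ n)
          ≤ 2 ^ n * ENNReal.ofReal ((μ + β ((n, k), 2)) * (1 / 2 ^ n) ^ 3) :=
            mul_le_mul' le_rfl h4
        _ ≤ 2 ^ n * ENNReal.ofReal ((μ + t) * (1 / 2 ^ n) ^ 3) := by
            refine mul_le_mul' le_rfl (ENNReal.ofReal_le_ofReal ?_)
            have h6 : β ((n, k), 2) ≤ t := by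
              refine (hβ _).trans ?_
              have : (1:ℝ) / 2 ^ n ≤ 1 := by
                rw [div_le_one (by positivity)]; exact one_le_pow₀ (by norm_num)
              show t * (1 / 2 ^ n) ≤ t
              nlinarith
            gcongr
        _ = _ := by
            rw [h5, ← ENNReal.ofReal_mul (by positivity), pow_four]
            congr 1
            field_simp
    calc ∑ k ∈ R \ B, 2 ^ n * faceI p g.toFun (sc P.v ((n, k), 2)) 2 (1 / 2 / 2 ^ n)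
        ≤ ∑ k ∈ R \ B, ENNReal.ofReal ((μ + t) * (1 / 4 ^ n)) := Finset.sum_le_sum h3
      _ ≤ ∑ k ∈ R, ENNReal.ofReal ((μ + t) * (1 / 4 ^ n)) :=
          Finset.sum_le_sum_of_subset Finset.sdiff_subset
      _ = ENNReal.ofReal (R.card * ((μ + t) * (1 / 4 ^ n))) := by
          rw [Finset.sum_const, nsmul_eq_mul, ENNReal.ofReal_mul (Nat.cast_nonneg _),
            ENNReal.ofReal_natCast]
      _ ≤ _ := by
          refine ENNReal.ofReal_le_ofReal ?_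
          have h6 := card_rect P
          have h7 : (0:ℝ) < 4 ^ n := by positivity
          calc (R.card : ℝ) * ((μ + t) * (1 / 4 ^ n)) ≤ 4 ^ n * ((μ + t) * (1 / 4 ^ n)) := by
                gcongr
            _ = μ + t := by field_simp
  · refine sum_bad hp P hC hO hD0 hD ht ht1 hβ Finset.inter_subset_left (le_trans ?_ hB)
    gcongr
    exact Finset.inter_subset_right

end

end Vale.Agent.P073.H407
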