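import Vale.Agent.P073.H407.Mid3

/-!
# P073, the middle plane without the structure `PreFlat` (helper407), for B10 (`p ≥ 3`) too

`mid_abs`: from the bounds on the good squares and the sum over the bad squares to the integral;
`faceI_sum_le`: `faceI` against `faceL` on the bad squares.
-/

namespace Vale.Agent.P073.H407

open MeasureTheory Set Filter Topology Metric Vale.Agent.P073.St Vale.Agent.P073.AB
open Vale.Agent.P073.AB.P86
open Vale.Agent.P073.H235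
open Vale.Agent.P073.SQ (ev cube)
open Vale.Agent.P073.H73 (faceL)
open Vale.Agent.P073.H239 (faceI)
open scoped ENNReal

/-- **the middle plane** -/
theorem mid_abs {p : ℝ} {n : ℕ} {v : V} {a b : Fin 3 → ℤ} {E : Set V} {g : V → V}
    (hcard : ((rect a b).card : ℝ) ≤ 4 ^ n)
    (hE : ∀ x ∈ E, 0 < x 2 ∧ x 2 < 1 ∧ ∃ k ∈ rect a b,
      Function.update x 2 (v 2 + a 2 / 2 ^ n) ∈ squ v ((n, k), 2))
    {B : Finset (Fin 3 → ℤ)} {μ : ℝ} (hμ : 0 ≤ μ) {η : ℝ≥0∞}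
    (good : ∀ k ∈ rect a b, k ∉ B →
      faceI p g (sc v ((n, k), 2)) 2 (1 / 2 / 2 ^ n) ≤ ENNReal.ofReal (μ * (1 / 2 ^ n) ^ 3))
    (bad : ∑ k ∈ rect a b ∩ B, 2 ^ n * faceI p g (sc v ((n, k), 2)) 2 (1 / 2 / 2 ^ n) ≤ η) :
    ∑ j ∈ Finset.univ.erase (2 : Fin 3), ∫⁻ x in E,
      ENNReal.ofReal (‖lineDeriv ℝ g
        (Function.update x 2 (v 2 + a 2 / 2 ^ n)) (ev j) - P2 (ev j)‖ ^ p) ≤
      ENNReal.ofReal μ + η := by
  classical
  set c₀ : ℝ := v 2 + a 2 / 2 ^ n with hc₀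
  set R := rect a b with hRdef
  have hσ : (0:ℝ) < 1 / 2 ^ n := by positivity
  have hR : ∀ k ∈ R, v 2 + k 2 / 2 ^ n = c₀ := fun k hk => by
    rw [hc₀, (mem_rect.1 hk).1]
  have hP2 : ∀ j ∈ Finset.univ.erase (2 : Fin 3), P2 (ev j) = ev j := by
    intro j hj
    have hj2 := Finset.ne_of_mem_erase hj
    simp [P2, ev, Pi.single_eq_of_ne hj2.symm]
  have h1 : ∀ j ∈ Finset.univ.erase (2 : Fin 3), ∫⁻ x in E,
      ENNReal.ofReal (‖lineDeriv ℝ g (Function.update x 2 c₀) (ev j) - P2 (ev j)‖ ^ p) ≤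
      2 ^ n * ∑ k ∈ R, ∫⁻ x in cube (sc v ((n, k), 2)) (1 / 2 / 2 ^ n),
        ENNReal.ofReal (‖lineDeriv ℝ g (Function.update x 2 c₀) (ev j) - ev j‖ ^ p) := by
    intro j hj
    rw [hP2 j hj]
    exact cover_int hR hE fun y => ENNReal.ofReal (‖lineDeriv ℝ g y (ev j) - ev j‖ ^ p)
  have h2 : ∑ j ∈ Finset.univ.erase (2 : Fin 3), ∫⁻ x in E,
      ENNReal.ofReal (‖lineDeriv ℝ g (Function.update x 2 c₀) (ev j) - P2 (ev j)‖ ^ p) ≤
      ∑ k ∈ R, 2 ^ n * faceI p g (sc v ((n, k), 2)) 2 (1 / 2 / 2 ^ n) := by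
    refine (Finset.sum_le_sum h1).trans (le_of_eq ?_)
    rw [← Finset.mul_sum, Finset.sum_comm, Finset.mul_sum]
    refine Finset.sum_congr rfl fun k hk => ?_
    have e : sc v ((n, k), 2) 2 = c₀ := by rw [← hR k hk]; simp [sc]
    unfold faceI
    rw [e]
  refine h2.trans ?_
  rw [← Finset.sum_sdiff (Finset.inter_subset_left : R ∩ B ⊆ R), Finset.sdiff_inter_self_left]
  refine add_le_add ?_ bad
  have h5 : (2:ℝ≥0∞) ^ n = ENNReal.ofReal (2 ^ n) := by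
    rw [ENNReal.ofReal_pow (by norm_num)]; norm_num
  have h3 : ∀ k ∈ R \ B, 2 ^ n * faceI p g (sc v ((n, k), 2)) 2 (1 / 2 / 2 ^ n) ≤
      ENNReal.ofReal (μ * (1 / 4 ^ n)) := by
    intro k hk
    obtain ⟨hkR, hkB⟩ := Finset.mem_sdiff.1 hk
    refine (mul_le_mul' le_rfl (good k hkR hkB)).trans (le_of_eq ?_)
    rw [h5, ← ENNReal.ofReal_mul (by positivity), pow_four]
    congr 1
    field_simp
  calc ∑ k ∈ R \ B, 2 ^ n * faceI p g (sc v ((n, k), 2)) 2 (1 / 2 / 2 ^ n)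
      ≤ ∑ k ∈ R \ B, ENNReal.ofReal (μ * (1 / 4 ^ n)) := Finset.sum_le_sum h3
    _ ≤ ∑ k ∈ R, ENNReal.ofReal (μ * (1 / 4 ^ n)) :=
        Finset.sum_le_sum_of_subset Finset.sdiff_subset
    _ = ENNReal.ofReal (R.card * (μ * (1 / 4 ^ n))) := by
        rw [Finset.sum_const, nsmul_eq_mul, ENNReal.ofReal_mul (Nat.cast_nonneg _),
          ENNReal.ofReal_natCast]
    _ ≤ _ := by
        refine ENNReal.ofReal_le_ofReal ?_
        have h7 : (0:ℝ) < 4 ^ n := by positivity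
        calc (R.card : ℝ) * (μ * (1 / 4 ^ n)) ≤ 4 ^ n * (μ * (1 / 4 ^ n)) := by gcongr
          _ = μ := by field_simp

/-- `faceI` against `faceL` on a family of squares of small area -/
theorem faceI_sum_le {p : ℝ} (hp : 1 ≤ p) {n : ℕ} {v : V} {A : Finset (Fin 3 → ℤ)} {g : V → V}
    {ε₁ : ℝ} (hA : (A.card : ℝ) / 4 ^ n ≤ ε₁) {η : ℝ≥0∞}
    (h : ∑ k ∈ A, 2 ^ n * faceL p g (sc v ((n, k), 2)) 2 (1 / 2 / 2 ^ n) ≤ η) :
    ∑ k ∈ A, 2 ^ n * faceI p g (sc v ((n, k), 2)) 2 (1 / 2 / 2 ^ n) ≤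
      2 ^ (p - 1) * (η + 2 * ENNReal.ofReal ε₁) := by
  have h5 : (2:ℝ≥0∞) ^ n = ENNReal.ofReal (2 ^ n) := by
    rw [ENNReal.ofReal_pow (by norm_num)]; norm_num
  have h3 : (2:ℝ≥0∞) ^ n * ENNReal.ofReal ((1 / 2 ^ n) ^ 3) = ENNReal.ofReal (1 / 4 ^ n) := by
    rw [h5, ← ENNReal.ofReal_mul (by positivity), pow_four]
    congr 1
    field_simp
  have h1 : ∀ k ∈ A, 2 ^ n * faceI p g (sc v ((n, k), 2)) 2 (1 / 2 / 2 ^ n) ≤
      2 ^ (p - 1) * (2 ^ n * faceL p g (sc v ((n, k), 2)) 2 (1 / 2 / 2 ^ n) +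
        2 * ENNReal.ofReal (1 / 4 ^ n)) := by
    intro k _
    refine (mul_le_mul' le_rfl (faceI_le hp _ _ _ _)).trans (le_of_eq ?_)
    rw [← h3]
    ring
  have hc : (A.card : ℝ≥0∞) * ENNReal.ofReal (1 / 4 ^ n) ≤ ENNReal.ofReal ε₁ := by
    rw [← ENNReal.ofReal_natCast, ← ENNReal.ofReal_mul (Nat.cast_nonneg _)]
    refine ENNReal.ofReal_le_ofReal ?_
    rwa [mul_one_div]
  calc ∑ k ∈ A, 2 ^ n * faceI p g (sc v ((n, k), 2)) 2 (1 / 2 / 2 ^ n)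
      ≤ ∑ k ∈ A, 2 ^ (p - 1) * (2 ^ n * faceL p g (sc v ((n, k), 2)) 2 (1 / 2 / 2 ^ n) +
        2 * ENNReal.ofReal (1 / 4 ^ n)) := Finset.sum_le_sum h1
    _ = 2 ^ (p - 1) * (∑ k ∈ A, 2 ^ n * faceL p g (sc v ((n, k), 2)) 2 (1 / 2 / 2 ^ n) +
          2 * (A.card * ENNReal.ofReal (1 / 4 ^ n))) := by
        rw [← Finset.mul_sum, Finset.sum_add_distrib, Finset.sum_const, nsmul_eq_mul]
        ring
    _ ≤ _ := mul_le_mul' le_rfl (add_le_add h (mul_le_mul' le_rfl hc))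

end Vale.Agent.P073.H407
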