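import Vale.Agent.P073.H239.FSpec
import Vale.Agent.P073.H407.MidAbs
import Vale.Agent.P073.H407.Mid4

/-!
# P073, block B10, rank two (helper407): from `FOut` and the rows to `ConFlatB`

* `en_le`: the energies;
* `mid_le`: the middle plane.
-/

open Set Metric Topology Filter MeasureTheory Matrix WithLp
open scoped ENNReal NNReal

namespace Vale.Agent.P073.H407

open Vale.Agent.P073
open Vale.Agent.P073.St (V Mat)
open Vale.Agent.P073.SQ (ev)
open Vale.Agent.P073.AB (Idx squ EdgeOfSq sqE mem_sqE card_sqE_le)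
open Vale.Agent.P073.AB.P86 (sc)
open Vale.Agent.P073.H73 (segP faceL)
open Vale.Agent.P073.H235 (Bx Fr Co P2 En rect redge Free NearMon ShortH)
open Vale.Agent.P073.H239 (FData FOut enX enP faceI)
open Vale.Agent.P073.H687 (tsum_sqE)
open Vale.Agent.P073.H851 (M3)
open _root_.P073 (ConHomeo)

section

variable {p Cu : ℝ} {Lc : M3 → ℝ} {δ : ℝ} {j : ℕ} {C θ ν τ ε c : ℝ} {Λ : Set V} {f : V → V}
  {F : V → Mat} {v : V}

/-- energy of all directions against the norm of the derivative -/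
theorem En_le {p : ℝ} (hp : 0 ≤ p) (g : V → V) (S : Set V) :
    En p g Finset.univ S ≤ 3 * ∫⁻ x in S, ENNReal.ofReal (‖fderiv ℝ g x‖ ^ p) := by
  unfold En
  calc ∑ j ∈ Finset.univ, ∫⁻ x in S, ENNReal.ofReal (‖fderiv ℝ g x (ev j)‖ ^ p)
      ≤ ∑ _j ∈ (Finset.univ : Finset (Fin 3)), ∫⁻ x in S, ENNReal.ofReal (‖fderiv ℝ g x‖ ^ p) := by
        refine Finset.sum_le_sum fun j _ => lintegral_mono fun x => ?_
        refine ENNReal.ofReal_le_ofReal (Real.rpow_le_rpow (norm_nonneg _) ?_ hp)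
        have h1 : ‖ev j‖ = 1 := by simp [ev, Pi.norm_single]
        calc ‖fderiv ℝ g x (ev j)‖ ≤ ‖fderiv ℝ g x‖ * ‖ev j‖ := ContinuousLinearMap.le_opNorm _ _
          _ = ‖fderiv ℝ g x‖ := by rw [h1, mul_one]
    _ = _ := by simp

/-- number of squares -/
theorem card_rectF (X : FData p Cu Lc δ j C θ ν τ ε c Λ f F v) :
    ((rect X.a X.b).card : ℝ) ≤ 4 ^ X.nS := by
  have h0 := X.pl.size.1
  have h1 := X.pl.quad
  have h2 := X.pl.alt
  have e : ((rect X.a X.b).card : ℤ) = (X.b 0 - X.a 0) * (X.b 1 - X.a 1) := by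
    unfold rect
    rw [Fintype.card_piFinset, Fin.prod_univ_three]
    rw [if_neg (by decide), if_neg (by decide), if_pos rfl, Finset.card_singleton, mul_one,
      Int.card_Ico, Int.card_Ico]
    push_cast
    rw [Int.toNat_of_nonneg (by omega), Int.toNat_of_nonneg (by omega)]
  have e2 : ((rect X.a X.b).card : ℤ) ≤ 2 ^ X.nS * 2 ^ X.nS := by
    rw [e, h1]
    exact mul_le_mul h0 h0 (by omega) (by positivity)
  have e3 : (4:ℝ) ^ X.nS = 2 ^ X.nS * 2 ^ X.nS := by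
    rw [← mul_pow]; norm_num
  rw [e3]
  exact_mod_cast e2

/-- one term, with `2` units -/
theorem term_add_le2 {p : ℝ} (hp : 1 ≤ p) {n : ℕ} {x l b : ℝ≥0∞}
    (hx : x ≤ ENNReal.ofReal (1 / 2 ^ n) + l) (hb : b ≤ ENNReal.ofReal (1 / 2 ^ n)) :
    ENNReal.ofReal (1 / 2 ^ n) * (ENNReal.ofReal ((1 / 2 ^ n) ^ (1 - p)) * (x + b) ^ p) ≤
      2 ^ p * (2 ^ (p - 1) * (ENNReal.ofReal (1 / 2 ^ n) *
        (ENNReal.ofReal ((1 / 2 ^ n) ^ (1 - p)) * l ^ p) + ENNReal.ofReal (1 / 4 ^ n))) := by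
  have hp0 : 0 ≤ p := by linarith
  have h1 : x + b ≤ 2 * (l + ENNReal.ofReal (1 / 2 ^ n)) := by
    calc x + b ≤ (ENNReal.ofReal (1 / 2 ^ n) + l) + ENNReal.ofReal (1 / 2 ^ n) := add_le_add hx hb
      _ ≤ (ENNReal.ofReal (1 / 2 ^ n) + l) + ENNReal.ofReal (1 / 2 ^ n) + l := le_self_add
      _ = _ := by ring
  calc ENNReal.ofReal (1 / 2 ^ n) * (ENNReal.ofReal ((1 / 2 ^ n) ^ (1 - p)) * (x + b) ^ p)
      ≤ ENNReal.ofReal (1 / 2 ^ n) * (ENNReal.ofReal ((1 / 2 ^ n) ^ (1 - p)) *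
          (2 * (l + ENNReal.ofReal (1 / 2 ^ n))) ^ p) := by gcongr
    _ = 2 ^ p * (ENNReal.ofReal (1 / 2 ^ n) * (ENNReal.ofReal ((1 / 2 ^ n) ^ (1 - p)) *
          (l + ENNReal.ofReal (1 / 2 ^ n)) ^ p)) := by
        rw [ENNReal.mul_rpow_of_nonneg _ _ hp0]; ring
    _ ≤ _ := mul_le_mul' le_rfl (term_add_le hp le_rfl)

/-- the energy of the squares of a family of small area -/
theorem face_sum_le (hp : 1 ≤ p) (X : FData p Cu Lc δ j C θ ν τ ε c Λ f F v)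
    {K D D' μ r c₀ β ε₁ : ℝ} {g : ConHomeo (Bx (H235.fl θ)) Λ} (O : FOut X K D D' μ r c₀ β g)
    (hK : 0 ≤ K * D') (hβ : β ≤ 1) {A : Finset (Fin 3 → ℤ)}
    (hAR : A ⊆ rect X.a X.b) (hA : (A.card : ℝ) / 4 ^ X.nS ≤ ε₁) :
    ∑ k ∈ A, 2 ^ X.nS * faceL p g.toFun (sc v ((X.nS, k), 2)) 2 (1 / 2 / 2 ^ X.nS) ≤
      ENNReal.ofReal (K * D') * (2 ^ p * (2 ^ (p - 1) *
        (2 * ENNReal.ofReal ε + 4 * ENNReal.ofReal ε₁))) := by
  classical
  set n := X.nS with hn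
  have hσ : (0:ℝ) < 1 / 2 ^ n := by positivity
  have hpw : (2:ℝ≥0∞) ^ n * ENNReal.ofReal (K * D' * (1 / 2 ^ n) ^ 2) =
      ENNReal.ofReal (K * D') * ENNReal.ofReal (1 / 2 ^ n) := by
    have : (2:ℝ≥0∞) ^ n = ENNReal.ofReal (2 ^ n) := by
      rw [ENNReal.ofReal_pow (by norm_num)]; norm_num
    rw [this, ← ENNReal.ofReal_mul (by positivity), ← ENNReal.ofReal_mul hK]
    congr 1
    field_simp
  have hb : ENNReal.ofReal (β / 2 ^ n) ≤ ENNReal.ofReal (1 / 2 ^ n) := by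
    refine ENNReal.ofReal_le_ofReal ?_
    gcongr
  have h1 : ∀ k ∈ A, 2 ^ n * faceL p g.toFun (sc v ((n, k), 2)) 2 (1 / 2 / 2 ^ n) ≤
      ENNReal.ofReal (K * D') * (2 ^ p * (2 ^ (p - 1) *
        (∑ e ∈ sqE ((n, k), 2), wE p n X.Xe e + 4 * ENNReal.ofReal (1 / 4 ^ n)))) := by
    intro k hk
    have h2 := O.face k (hAR hk)
    rw [tsum_sqE ((n, k), 2) fun e => ENNReal.ofReal ((1 / 2 ^ n) ^ (1 - p)) *
      (H239.len2 X.h₁.toFun (segP v e) + ENNReal.ofReal (β / 2 ^ n)) ^ p] at h2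
    calc 2 ^ n * faceL p g.toFun (sc v ((n, k), 2)) 2 (1 / 2 / 2 ^ n)
        ≤ 2 ^ n * (ENNReal.ofReal (K * D' * (1 / 2 ^ n) ^ 2) * ∑ e ∈ sqE ((n, k), 2),
          ENNReal.ofReal ((1 / 2 ^ n) ^ (1 - p)) *
            (H239.len2 X.h₁.toFun (segP v e) + ENNReal.ofReal (β / 2 ^ n)) ^ p) :=
          mul_le_mul' le_rfl h2
      _ = ENNReal.ofReal (K * D') * ∑ e ∈ sqE ((n, k), 2), ENNReal.ofReal (1 / 2 ^ n) *
          (ENNReal.ofReal ((1 / 2 ^ n) ^ (1 - p)) *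
            (H239.len2 X.h₁.toFun (segP v e) + ENNReal.ofReal (β / 2 ^ n)) ^ p) := by
          rw [← mul_assoc, hpw, mul_assoc, Finset.mul_sum]
      _ ≤ ENNReal.ofReal (K * D') * ∑ e ∈ sqE ((n, k), 2), 2 ^ p * (2 ^ (p - 1) *
          (wE p n X.Xe e + ENNReal.ofReal (1 / 4 ^ n))) := by
          refine mul_le_mul' le_rfl (Finset.sum_le_sum fun e he => ?_)
          obtain ⟨h3, h4, h5⟩ := edgeOfSq_redge (hAR hk) (mem_sqE.1 he)
          have h6 := X.ed.len e.2 h4 e.1.2 h5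
          have h7 : e = ((X.nS, e.1.2), e.2) := by
            rw [← hn, ← h3]
          rw [← h7] at h6
          exact term_add_le2 hp h6 hb
      _ ≤ _ := by
          rw [← Finset.mul_sum, ← Finset.mul_sum, Finset.sum_add_distrib, Finset.sum_const,
            nsmul_eq_mul]
          gcongr
          exact_mod_cast card_sqE_le _
  calc ∑ k ∈ A, 2 ^ n * faceL p g.toFun (sc v ((n, k), 2)) 2 (1 / 2 / 2 ^ n)
      ≤ ∑ k ∈ A, ENNReal.ofReal (K * D') * (2 ^ p * (2 ^ (p - 1) *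
        (∑ e ∈ sqE ((n, k), 2), wE p n X.Xe e + 4 * ENNReal.ofReal (1 / 4 ^ n)))) :=
        Finset.sum_le_sum h1
    _ = ENNReal.ofReal (K * D') * (2 ^ p * (2 ^ (p - 1) *
        (∑ k ∈ A, ∑ e ∈ sqE ((n, k), 2), wE p n X.Xe e +
          4 * (A.card * ENNReal.ofReal (1 / 4 ^ n))))) := by
        rw [← Finset.mul_sum, ← Finset.mul_sum, ← Finset.mul_sum, Finset.sum_add_distrib,
          Finset.sum_const, nsmul_eq_mul]
        ring
    _ ≤ _ := by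
        refine mul_le_mul' le_rfl (mul_le_mul' le_rfl (mul_le_mul' le_rfl (add_le_add ?_
          (mul_le_mul' le_rfl (card_mul hA)))))
        exact (sum_edges_le hAR _).trans (mul_le_mul' le_rfl X.ed.close)

end

end Vale.Agent.P073.H407
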