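import Vale.Agent.P073.H239.FSpec1
import Vale.Agent.P073.H716.PB1
import Vale.Agent.P073.H407.PostF1

/-!
# P073, block B10, rank one (helper407): **[POST-B]** (`H239.SpecPostBAsm`)
-/

open Set Metric Topology Filter MeasureTheory Matrix WithLp
open scoped ENNReal NNReal

namespace Vale.Agent.P073.H407

open Vale.Agent.P073
open Vale.Agent.P073.St (V Mat)
open Vale.Agent.P073.SQ (ev)
open Vale.Agent.P073.LOC (Q1)
open Vale.Agent.P073.AB (Idx squ edge EdgeOfSq)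
open Vale.Agent.P073.AB.P86 (sc)
open Vale.Agent.P073.H194 (RgN)
open Vale.Agent.P073.H235 (Bx bm Fr Co En cmp cmpD P1)
open Vale.Agent.P073.H253 (rectN redgeN ledge lpt LineOK LineData SpecLineOK SpecPlaneSum)
open Vale.Agent.P073.H239 (BData FOut1 enX enP ll SpecPostBAsm)
open Vale.Agent.P073.H851 (M3)
open Vale.Agent.P073.H716 (fin3_cases bm_pos mem_rect1)
open _root_.P073 (ConHomeo)

section

variable {p Cu : ℝ} {Lc : M3 → ℝ} {δ : ℝ} {j : ℕ} {C θ₁ θ₂ ν₁ ν τ ε c : ℝ} {Λ : Set V} {f : V → V}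
  {F : V → Mat} {v : V}

/-- the width of the plane rectangle -/
theorem unit_B (X : BData p Cu Lc δ j C θ₁ θ₂ ν₁ ν τ ε c Λ f F v) (hθ₂ : θ₂ ≤ 1 / 4) :
    ∀ j, j ≠ (1 : Fin 3) → (X.b j - X.a j : ℝ) / 2 ^ X.nS ≤ 1 := by
  intro j hj
  rcases fin3_cases hj with rfl | rfl
  · exact X.pl.unit
  · have h0 : (X.a 0 : ℝ) ≤ X.b 0 := by exact_mod_cast (X.pl.alt 0 (by decide)).le
    have h2 : (X.a 2 : ℝ) ≤ X.b 2 := by exact_mod_cast (X.pl.alt 2 (by decide)).le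
    have hpt : ∀ t : ℝ, (X.a 2 : ℝ) ≤ t → t ≤ X.b 2 →
        (![v 0 + X.a 0 / 2 ^ X.nS, v 1 + X.a 1 / 2 ^ X.nS, v 2 + t / 2 ^ X.nS] : V) ∈
          Bx (bm θ₁ θ₂) := by
      intro t h3 h4
      refine X.pl.sub ⟨rfl, fun l hl => ?_⟩
      rcases fin3_cases hl with rfl | rfl
      · refine ⟨le_rfl, ?_⟩
        show v 0 + (X.a 0 : ℝ) / 2 ^ X.nS ≤ v 0 + X.b 0 / 2 ^ X.nS
        gcongr
      · constructor
        · show v 2 + (X.a 2 : ℝ) / 2 ^ X.nS ≤ v 2 + t / 2 ^ X.nS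
          gcongr
        · show v 2 + t / 2 ^ X.nS ≤ v 2 + (X.b 2 : ℝ) / 2 ^ X.nS
          gcongr
    have c1 : 0 < v 2 + (X.a 2 : ℝ) / 2 ^ X.nS := (hpt _ le_rfl h2 2).1
    have c2 : v 2 + (X.b 2 : ℝ) / 2 ^ X.nS < 2 * θ₂ := (hpt _ h2 le_rfl 2).2
    rw [sub_div]
    linarith

/-- the core rectangle covers -/
theorem cov_B (X : BData p Cu Lc δ j C θ₁ θ₂ ν₁ ν τ ε c Λ f F v) (hθ₂ : 0 < θ₂) (hν₁ : 0 < ν₁)
    (hν₁4 : ν₁ ≤ ν / 4) (hν4 : ν ≤ 1 / 4) {t : ℝ} (h1 : ν / 8 ≤ t) (h2 : t ≤ 1 - ν / 8) :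
    v 0 + X.a 0 / 2 ^ X.nS ≤ t ∧ t ≤ v 0 + X.b 0 / 2 ^ X.nS := by
  have hν : 0 < ν := by linarith
  have hx : (![t, 1 / 2, θ₂] : V) ∈ Bx (H235.fl θ₂) ∩ Co (H235.fl θ₂) (ν₁ / 2) {0, 2} := by
    constructor
    · intro i
      fin_cases i
      · show 0 < t ∧ t < (1:ℝ)
        constructor <;> linarith
      · show (0:ℝ) < 1 / 2 ∧ (1 / 2 : ℝ) < 1
        norm_num
      · show 0 < θ₂ ∧ θ₂ < 2 * θ₂
        constructor <;> linarith
    · intro i hi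
      rw [Finset.mem_insert, Finset.mem_singleton] at hi
      rcases hi with rfl | rfl
      · show ν₁ / 2 / 4 * 1 ≤ t ∧ t ≤ (1 - ν₁ / 2 / 4) * 1
        constructor <;> linarith
      · show ν₁ / 2 / 4 * (2 * θ₂) ≤ θ₂ ∧ θ₂ ≤ (1 - ν₁ / 2 / 4) * (2 * θ₂)
        constructor <;> nlinarith
  obtain ⟨k, hk, hkx⟩ := X.pl.cov _ hx
  obtain ⟨-, ⟨h3, h4⟩, -⟩ := mem_rect1.1 hk
  obtain ⟨h5, h6⟩ := hkx.2 0 (by decide : (0 : Fin 3) ≠ 1)
  have e1 : Function.update (![t, 1 / 2, θ₂] : V) 1 (v 1 + X.a 1 / 2 ^ X.nS) 0 = t := by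
    rw [Function.update_of_ne (by decide)]; rfl
  rw [e1] at h5 h6
  have h3' : (X.a 0 : ℝ) ≤ k 0 := by exact_mod_cast h3
  have h4' : (k 0 : ℝ) + 1 ≤ X.b 0 := by exact_mod_cast h4
  constructor
  · refine le_trans ?_ h5
    show v 0 + X.a 0 / 2 ^ X.nS ≤ v 0 + (k 0 : ℝ) / 2 ^ X.nS
    gcongr
  · refine h6.trans ?_
    show v 0 + ((k 0 : ℝ) + 1) / 2 ^ X.nS ≤ v 0 + X.b 0 / 2 ^ X.nS
    gcongr

/-- the margin may be enlarged -/
theorem fout1_mono {X : BData p Cu Lc δ j C θ₁ θ₂ ν₁ ν τ ε c Λ f F v} {K D c₀ c₀' β : ℝ}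
    {g : ConHomeo (Bx (bm θ₁ θ₂)) Λ} (h : c₀ ≤ c₀') (O : FOut1 X K D c₀ β g) :
    FOut1 X K D c₀' β g where
  bd := O.bd
  en := O.en
  close := O.close
  face := O.face
  elip := O.elip
  tv k hk hz := by
    obtain ⟨z, hz⟩ := hz
    refine (O.tv k hk ⟨z, fun x hx => ⟨le_trans ?_ (hz x hx).1, (hz x hx).2.trans ?_⟩⟩).trans ?_
    · gcongr
    · gcongr
    · gcongr

end

/-- **[POST-B]** the assembly -/
theorem specPostBAsm {p : ℝ} (hp : 2 ≤ p) : SpecPostBAsm p := by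
  classical
  intro hR2 hLn hL hPl hK Cu hCu
  have hp1 : 1 ≤ p := by linarith
  have hp0 : 0 ≤ p := by linarith
  obtain ⟨D₀, hD₀, hR2⟩ := hR2 hK
  obtain ⟨K, hK0, hR2⟩ := hR2 Cu hCu
  obtain ⟨K₂, hK₂, HP⟩ := hPl p hp1
  obtain ⟨C', D', hC', hD', hLn⟩ := hLn p Cu D₀ K hp hCu hD₀ hK0
  have hD0 : 0 < D₀ := by linarith
  have hKD : 0 < K * D₀ := by positivity
  refine ⟨6 * (K * D₀) + 2 * (K₂ * (K * D₀)), by positivity, fun C hC ε hε => ?_⟩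
  obtain ⟨M, hM, c₁', hc₁', HL⟩ := hL p C' D' ε hp hC' hD' hε
  set c₁ := min c₁' (1 / 64) with hc₁
  have hc₁0 : 0 < c₁ := by positivity
  have hc₁1 : c₁ ≤ 1 / 64 := min_le_right _ _
  refine ⟨M, hM, fun θ₁ θ₂ ν₁ ν hθ₁ hθ₁4 hθ₂ hθ₂4 hν₁ hν₁4 hν4 τ hτ => ?_⟩
  have hν : 0 < ν := by linarith
  obtain ⟨εL, hεL, HL⟩ := HL c₁ hc₁0 (min_le_left _ _) τ hτ
  obtain ⟨ε₀, hε₀, hLn⟩ := hLn c₁ hc₁0 hc₁1 εL hεL
  obtain ⟨j, δ, hj, hδ, hδc, hR2⟩ := hR2 (c₁ / 4) (by positivity) (by linarith)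
  set t₀ : ℝ := min (C * ν₁ * θ₁ * θ₂) (min 1 (C * ν * θ₂)) with ht₀
  have ht₀0 : 0 < t₀ := by positivity
  set ε' : ℝ := min (min ε₀ (c₁ / 4)) (min ν (t₀ / 2)) with hε'
  have hε'0 : 0 < ε' := by positivity
  have a1 : ε' ≤ ε₀ := (min_le_left _ _).trans (min_le_left _ _)
  have a2 : ε' ≤ c₁ / 4 := (min_le_left _ _).trans (min_le_right _ _)
  have a3 : 2 * ε' ≤ t₀ := by
    have : ε' ≤ t₀ / 2 := (min_le_right _ _).trans (min_le_right _ _)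
    linarith
  have a7 : ε' ≤ ν := (min_le_right _ _).trans (min_le_left _ _)
  have a4 : 2 * ε' ≤ C * ν₁ * θ₁ * θ₂ := a3.trans (min_le_left _ _)
  have a5 : 2 * ε' ≤ 1 := a3.trans ((min_le_right _ _).trans (min_le_left _ _))
  have a6 : 2 * ε' ≤ C * ν * θ₂ := a3.trans ((min_le_right _ _).trans (min_le_right _ _))
  have hs₀p : (2 * ε') ^ p ≤ C * ν * θ₂ := by
    calc (2 * ε') ^ p ≤ (2 * ε') ^ (1:ℝ) :=
          Real.rpow_le_rpow_of_exponent_ge (by positivity) a5 hp1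
      _ = 2 * ε' := Real.rpow_one _
      _ ≤ _ := a6
  refine ⟨j, δ, c₁ / 8, ε', hj, hδ, by positivity, hε'0, by linarith,
    fun Lc τ' Λ f F v hN hτ' h1' h2' X => ?_⟩
  obtain ⟨g, O⟩ := hR2 Lc C θ₁ θ₂ ν₁ ν τ' ε' (c₁ / 8) Λ f F v hθ₁ hθ₂ hN.cont X a2 (by linarith)
  -- energies
  have hen : ∀ A : Set V, ∀ x : ℝ, 0 ≤ x → enX X.toR2 A ≤ ENNReal.ofReal x →
      C * ν₁ * θ₁ * θ₂ ≤ x → En p g.toFun Finset.univ (Bx (bm θ₁ θ₂) ∩ A) ≤
        ENNReal.ofReal ((6 * (K * D₀) + 2 * (K₂ * (K * D₀))) * x) := by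
    intro A x hx hA hxt
    refine (En_le hp0 _ _).trans ?_
    have e3 : (3:ℝ≥0∞) = ENNReal.ofReal 3 := by norm_num
    calc 3 * ∫⁻ y in Bx (bm θ₁ θ₂) ∩ A, ENNReal.ofReal (‖fderiv ℝ g.toFun y‖ ^ p)
        ≤ 3 * (ENNReal.ofReal (K * D₀) * ENNReal.ofReal x + ENNReal.ofReal (K * D₀ * (2 * ε'))) := by
          refine mul_le_mul' le_rfl ((O.en A).trans ?_)
          gcongr
      _ = ENNReal.ofReal (3 * (K * D₀ * x + K * D₀ * (2 * ε'))) := by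
          rw [e3, ← ENNReal.ofReal_mul hKD.le, ← ENNReal.ofReal_add (by positivity) (by positivity),
            ← ENNReal.ofReal_mul (by norm_num)]
      _ ≤ _ := by
          refine ENNReal.ofReal_le_ofReal ?_
          have h2 : K * D₀ * (2 * ε') ≤ K * D₀ * x :=
            mul_le_mul_of_nonneg_left (a4.trans hxt) hKD.le
          have h3 : 0 ≤ K₂ * (K * D₀) * x := by positivity
          nlinarith
  -- the plane
  have hpl := HP 1 (Bx (bm θ₁ θ₂)) Λ v X.I₁ X.nS X.a X.b g (ll v X.h₁.toFun) (K * D₀) (2 * ε')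
    hKD (by positivity) (H761.isOpen_box _) X.st.part (unit_B X hθ₂4) X.pl.minS X.pl.minE O.face
  have hAx : ∀ A : Set V, A ⊆ Bx (H235.fl θ₂) →
      ∃ t₀ t₁ : ℝ, t₁ ≤ t₀ + 1 ∧ ∀ x ∈ A, x 1 ∈ Set.Icc t₀ t₁ :=
    fun A hA => ⟨0, 1, by norm_num, fun x hx => ⟨((hA hx) 1).1.le, ((hA hx) 1).2.le⟩⟩
  have hadd : ∀ x : ℝ, 0 ≤ x → C * ν * θ₂ ≤ x →
      ENNReal.ofReal (K₂ * (K * D₀)) * ENNReal.ofReal x +
        ENNReal.ofReal (K₂ * (K * D₀) * (2 * ε') ^ p) ≤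
        ENNReal.ofReal ((6 * (K * D₀) + 2 * (K₂ * (K * D₀))) * x) := by
    intro x hx hxt
    rw [← ENNReal.ofReal_mul (by positivity), ← ENNReal.ofReal_add (by positivity)
      (by positivity)]
    refine ENNReal.ofReal_le_ofReal ?_
    have h2 : K₂ * (K * D₀) * (2 * ε') ^ p ≤ K₂ * (K * D₀) * x := by
      have := hs₀p.trans hxt
      gcongr
    have h3 : 0 ≤ K * D₀ * x := by positivity
    linarith
  refine ⟨v 1 + X.a 1 / 2 ^ X.nS, v 2 + X.m₂ / 2 ^ X.nS, g, X.pl.mid₁.trans hτ',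
    X.pl.mid₂.trans hτ', O.bd, ?_, ?_, ?_, ?_, ?_⟩
  · have h1 := hen univ (C * θ₁ * θ₂) (by positivity) X.en.bulk (by
      have : ν₁ ≤ 1 := by linarith
      calc C * ν₁ * θ₁ * θ₂ ≤ C * 1 * θ₁ * θ₂ := by gcongr
        _ = _ := by ring)
    rw [inter_univ] at h1
    refine h1.trans (le_of_eq ?_)
    congr 1; ring
  · refine (hen _ (C * ν₁ * θ₁ * θ₂) (by positivity) X.en.frame le_rfl).trans (le_of_eq ?_)
    congr 1; ring
  · have h1 := hpl (rectN 1 X.a X.b) (Bx (H235.fl θ₂) ∩ Co (H235.fl θ₂) (ν₁ / 2) {0, 2})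
      subset_rfl (fun x hx => X.pl.cov x hx) (hAx _ inter_subset_left)
    refine h1.trans ?_
    have h2 : ∑ i ∈ Finset.univ.erase (1 : Fin 3), ∑ k ∈ redgeN 1 X.a X.b i with
        ∃ k' ∈ rectN 1 X.a X.b, EdgeOfSq ((X.nS, k), i) ((X.nS, k'), 1),
          ENNReal.ofReal (1 / 2 ^ X.nS) * (ENNReal.ofReal ((1 / 2 ^ X.nS) ^ (1 - p)) *
            ll v X.h₁.toFun ((X.nS, k), i) ^ p) ≤ ENNReal.ofReal (C * θ₂) := by
      refine le_trans ?_ X.ep.plBulk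
      exact Finset.sum_le_sum fun i _ => Finset.sum_le_sum_of_subset (Finset.filter_subset _ _)
    refine (add_le_add (mul_le_mul_right h2 _) le_rfl).trans ?_
    refine (hadd (C * θ₂) (by positivity) ?_).trans (le_of_eq ?_)
    · have : ν ≤ 1 := by linarith
      calc C * ν * θ₂ ≤ C * 1 * θ₂ := by gcongr
        _ = _ := by ring
    · congr 1; ring
  · set S₂ := (rectN 1 X.a X.b).filter fun k => v 0 + k 0 / 2 ^ X.nS ≤ 3 * ν ∨
      1 - 3 * ν ≤ v 0 + (k 0 + 1) / 2 ^ X.nS with hS₂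
    have hfine : 1 / 2 ^ X.nS ≤ ν := X.pl.fine.trans a7
    have h1 := hpl S₂ (Bx (H235.fl θ₂) ∩ Co (H235.fl θ₂) (ν₁ / 2) {0, 2} ∩
        Fr (H235.fl θ₂) (3 * ν) {0})
      (Finset.filter_subset _ _) (by
        rintro x ⟨hx, hxF⟩
        obtain ⟨k, hk, hkx⟩ := X.pl.cov _ hx
        refine ⟨k, Finset.mem_filter.2 ⟨hk, ?_⟩, hkx⟩
        obtain ⟨i, hi, hxi⟩ := hxF
        rw [Finset.mem_singleton] at hi
        subst hi
        obtain ⟨h5, h6⟩ := hkx.2 0 (by decide : (0 : Fin 3) ≠ 1)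
        have e1 : Function.update x 1 (v 1 + X.a 1 / 2 ^ X.nS) 0 = x 0 := by
          rw [Function.update_of_ne (by decide)]
        rw [e1] at h5 h6
        have e2 : H235.fl θ₂ 0 = 1 := rfl
        rw [e2] at hxi
        rcases hxi with h7 | h7
        · left; exact h5.trans (by linarith)
        · right; exact le_trans (by linarith) h6) (hAx _ fun x hx => hx.1.1)
    refine h1.trans ?_
    have h2 : ∑ i ∈ Finset.univ.erase (1 : Fin 3), ∑ k ∈ redgeN 1 X.a X.b i with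
        ∃ k' ∈ S₂, EdgeOfSq ((X.nS, k), i) ((X.nS, k'), 1),
          ENNReal.ofReal (1 / 2 ^ X.nS) * (ENNReal.ofReal ((1 / 2 ^ X.nS) ^ (1 - p)) *
            ll v X.h₁.toFun ((X.nS, k), i) ^ p) ≤ ENNReal.ofReal (C * ν * θ₂) := by
      refine le_trans ?_ X.ep.plFrame
      refine Finset.sum_le_sum fun i hi => Finset.sum_le_sum_of_subset fun k hk => ?_
      obtain ⟨hk1, k', hk', he⟩ := Finset.mem_filter.1 hk
      refine Finset.mem_filter.2 ⟨hk1, ?_⟩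
      obtain ⟨-, hk'2⟩ := Finset.mem_filter.1 hk'
      have hi1 : i ≠ 1 := (Finset.mem_erase.1 hi).1
      have hk0 : k 0 = k' 0 ∨ k 0 = k' 0 + 1 := by
        rcases fin3_cases hi1 with rfl | rfl
        · exact Or.inl he.2.2.1
        · exact he.2.2.2.2 0 (by decide : (0 : Fin 3) ≠ 2) (by decide : (0 : Fin 3) ≠ 1)
      have hpow : (0:ℝ) < 1 / 2 ^ X.nS := by positivity
      have e1 : ((k' 0 : ℝ) + 1) / 2 ^ X.nS = k' 0 / 2 ^ X.nS + 1 / 2 ^ X.nS := by ring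
      have h0 : (k' 0 : ℝ) / 2 ^ X.nS ≤ k 0 / 2 ^ X.nS ∧
          (k 0 : ℝ) / 2 ^ X.nS ≤ k' 0 / 2 ^ X.nS + 1 / 2 ^ X.nS := by
        rcases hk0 with h0 | h0
        · rw [h0]; constructor <;> linarith
        · rw [h0]; push_cast; rw [e1]; constructor <;> linarith
      rw [e1] at hk'2
      rcases hk'2 with h3 | h3
      · left; linarith [h0.1, h0.2]
      · right; linarith [h0.1, h0.2]
    refine (add_le_add (mul_le_mul_right h2 _) le_rfl).trans ?_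
    refine (hadd (C * ν * θ₂) (by positivity) le_rfl).trans (le_of_eq ?_)
    congr 1; ring
  · obtain ⟨ℓ, X', hld⟩ := hLn δ j Lc C θ₁ θ₂ ν₁ ν τ' ε' (c₁ / 8) Λ f F v X g a1 (by linarith) hδc
      hθ₁ hθ₂ (fout1_mono (by linarith) O)
    have h1 := HL (Bx (bm θ₁ θ₂)) Λ v X.nS X.mt (X.a 1) X.m₂ (X.a 0) (X.b 0) X.G _ g _ _ hld
      (ν / 8) (1 - ν / 8) (by linarith)
      (cov_B X hθ₂ hν₁ hν₁4 hν4 le_rfl (by linarith)).1
      (cov_B X hθ₂ hν₁ hν₁4 hν4 (by linarith) le_rfl).2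
    have e1 : P1 (ev 0) = ev 0 := by
      simp [P1, ev]
    rw [e1]
    exact h1

end Vale.Agent.P073.H407
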