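import Vale.Agent.P073.H407.PostF1

/-!
# P073, block B10, rank two (helper407): **[POST-F]** (`H239.SpecPostFOf`)
-/

open Set Metric Topology Filter MeasureTheory Matrix WithLp
open scoped ENNReal NNReal

namespace Vale.Agent.P073.H407

open Vale.Agent.P073
open Vale.Agent.P073.St (V Mat)
open Vale.Agent.P073.SQ (ev)
open Vale.Agent.P073.AB (Idx squ EdgeOfSq)
open Vale.Agent.P073.AB.P86 (sc)
open Vale.Agent.P073.H235 (Bx Fr Co P2 En rect redge Free NearMon ShortH)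
open Vale.Agent.P073.H239 (FData FOut enX enP faceI SpecPostFOf)
open Vale.Agent.P073.H851 (M3)
open _root_.P073 (ConHomeo)

section

variable {p Cu : ℝ} {Lc : M3 → ℝ} {δ : ℝ} {j : ℕ} {C θ ν τ ε c : ℝ} {Λ : Set V} {f : V → V}
  {F : V → Mat} {v : V}

/-- **the middle plane** -/
theorem mid_leF (hp : 1 ≤ p) (X : FData p Cu Lc δ j C θ ν τ ε c Λ f F v)
    {K D D' μ r c₀ β ε₁ : ℝ} {g : ConHomeo (Bx (H235.fl θ)) Λ} (O : FOut X K D D' μ r c₀ β g)
    (hK : 0 ≤ K * D') (hμ : 0 ≤ μ) (hβ0 : 0 ≤ β) (hβ : β ≤ 1) (hε : 0 ≤ ε)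
    {B : Finset (Fin 3 → ℤ)} (hB : (B.card : ℝ) / 4 ^ X.nS ≤ ε₁)
    (hgood : ∀ k ∈ rect X.a X.b, k ∉ B →
      H239.faceI p g.toFun (sc v ((X.nS, k), 2)) 2 (1 / 2 / 2 ^ X.nS) ≤
        ENNReal.ofReal ((μ + β) * (1 / 2 ^ X.nS) ^ 3)) :
    ∑ j ∈ Finset.univ.erase (2 : Fin 3), ∫⁻ x in Bx 1 ∩ Co 1 (ν / 2) {0, 1},
      ENNReal.ofReal (‖lineDeriv ℝ g.toFun
        (Function.update x 2 (v 2 + X.a 2 / 2 ^ X.nS)) (ev j) - P2 (ev j)‖ ^ p) ≤
      ENNReal.ofReal (μ + β + 2 ^ (p - 1) * (K * D' * (2 ^ p * (2 ^ (p - 1) *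
        (2 * ε + 4 * ε₁))) + 2 * ε₁)) := by
  classical
  have hε₁ : 0 ≤ ε₁ := le_trans (by positivity) hB
  have hA : (((rect X.a X.b ∩ B).card : ℕ) : ℝ) / 4 ^ X.nS ≤ ε₁ := by
    refine le_trans ?_ hB
    gcongr
    exact Finset.inter_subset_right
  have h1 := face_sum_le hp X O hK hβ (Finset.inter_subset_left : rect X.a X.b ∩ B ⊆ _) hA
  have h2 := faceI_sum_le hp hA h1
  have h3 := mid_abs (p := p) (E := Bx 1 ∩ Co 1 (ν / 2) {0, 1}) (g := g.toFun) (card_rectF X)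
    (fun x hx => ⟨(hx.1 2).1, (hx.1 2).2, X.pl.cov x hx⟩) (add_nonneg hμ hβ0)
    hgood h2
  refine h3.trans (le_of_eq ?_)
  have e1 : (2:ℝ≥0∞) ^ (p - 1) = ENNReal.ofReal (2 ^ (p - 1)) := by
    rw [← ENNReal.ofReal_rpow_of_pos (by norm_num)]; norm_num
  have e2 : (2:ℝ≥0∞) ^ p = ENNReal.ofReal (2 ^ p) := by
    rw [← ENNReal.ofReal_rpow_of_pos (by norm_num)]; norm_num
  have e3 : (2:ℝ≥0∞) = ENNReal.ofReal 2 := by norm_num
  have e4 : (4:ℝ≥0∞) = ENNReal.ofReal 4 := by norm_num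
  have e5 : ENNReal.ofReal (2 ^ (p - 1) * (K * D' * (2 ^ p * (2 ^ (p - 1) *
      (2 * ε + 4 * ε₁))) + 2 * ε₁)) = 2 ^ (p - 1) * (ENNReal.ofReal (K * D') *
      (2 ^ p * (2 ^ (p - 1) * (2 * ENNReal.ofReal ε + 4 * ENNReal.ofReal ε₁))) +
        2 * ENNReal.ofReal ε₁) := by
    rw [ENNReal.ofReal_mul (p := 2 ^ (p - 1)) (by positivity),
      ENNReal.ofReal_add (by positivity) (by positivity), ENNReal.ofReal_mul (p := K * D') hK,
      ENNReal.ofReal_mul (p := 2 ^ p) (by positivity),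
      ENNReal.ofReal_mul (p := 2 ^ (p - 1)) (by positivity),
      ENNReal.ofReal_add (by positivity) (by positivity),
      ENNReal.ofReal_mul (p := 2) (q := ε) (by norm_num),
      ENNReal.ofReal_mul (p := 4) (by norm_num),
      ENNReal.ofReal_mul (p := 2) (q := ε₁) (by norm_num), ← e1, ← e2, ← e3, ← e4]
  rw [ENNReal.ofReal_add (add_nonneg hμ hβ0) (by positivity), e5]

/-- the energies -/
theorem en_leF (hp : 0 ≤ p) (X : FData p Cu Lc δ j C θ ν τ ε c Λ f F v)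
    {K D D' μ r c₀ β : ℝ} {g : ConHomeo (Bx (H235.fl θ)) Λ} (O : FOut X K D D' μ r c₀ β g)
    (hKD : 0 ≤ K * D) (hK : 0 ≤ K * D') (hβ0 : 0 ≤ β) (hε : 0 ≤ ε) {A : Set V} {e : ℝ}
    (he : 0 ≤ e) (hA : enX X.toR2 A ≤ ENNReal.ofReal e) :
    En p g.toFun Finset.univ (Bx (H235.fl θ) ∩ A) ≤
      ENNReal.ofReal (3 * (K * D * e + K * D' * ε + K * D * β)) := by
  refine (En_le hp _ _).trans ?_
  have e3 : (3:ℝ≥0∞) = ENNReal.ofReal 3 := by norm_num
  rw [ENNReal.ofReal_mul (by norm_num), ← e3, ENNReal.ofReal_add (by positivity) (by positivity),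
    ENNReal.ofReal_add (by positivity) (by positivity), ENNReal.ofReal_mul hKD,
    ENNReal.ofReal_mul hK]
  refine mul_le_mul' le_rfl ((O.en A).trans ?_)
  gcongr
  exact X.en.layer

end

/-- **[POST-F]** the assembly -/
theorem specPostFOf {p : ℝ} (hp : 1 ≤ p) : SpecPostFOf p := by
  intro hR2 hRows hK Cu hCu
  obtain ⟨D, hD, hR2⟩ := hR2 hK
  obtain ⟨K, hK0, hR2⟩ := hR2 Cu hCu
  have hD0 : 0 < D := by linarith
  refine ⟨9 * K * D, by positivity, fun C θ ν hC hθ hθ2 hν hν4 ε hε => ?_⟩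
  obtain ⟨D', hDD, r, hr, hr1, hR2⟩ := hR2 (ε / 4) (by positivity)
  have hD'1 : 1 ≤ D' := hD.trans hDD
  have hD'0 : 0 < D' := by linarith
  set q : ℝ := 2 ^ (p - 1) with hq
  have hq0 : 0 < q := by positivity
  set T : ℝ := K * D' * (2 ^ p * q) with hT
  have hT0 : 0 < T := by positivity
  set ε₁ : ℝ := ε / (4 * (q * (4 * T + 2))) with hε₁
  have hε₁0 : 0 < ε₁ := by positivity
  obtain ⟨c₁, hc₁, hRows⟩ := hRows p Cu D C θ r (ε₁ / 2) hp hCu hD hC hθ hr hr1 (half_pos hε₁0)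
  set c₀ : ℝ := min c₁ (1 / 64) with hc₀
  have hc₀0 : 0 < c₀ := lt_min hc₁ (by norm_num)
  have hc₀1 : c₀ ≤ 1 / 64 := min_le_right _ _
  obtain ⟨j, δ, hj, hδ, hδc, hR2⟩ := hR2 c₀ hc₀0 hc₀1
  obtain ⟨ε₀, hε₀, hRows⟩ := hRows c₀ hc₀0 (min_le_left _ _)
  set ε' : ℝ := min (min ε₀ c₀) (min (ε / 8) (min (ε / (8 * (q * T)))
    (C * ν * θ / (2 * D')))) with hε'
  have hε'0 : 0 < ε' := by positivity
  have a1 : ε' ≤ ε₀ := (min_le_left _ _).trans (min_le_left _ _)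
  have a2 : ε' ≤ c₀ := (min_le_left _ _).trans (min_le_right _ _)
  have a3 : ε' ≤ ε / 8 := (min_le_right _ _).trans (min_le_left _ _)
  have a4 : ε' ≤ ε / (8 * (q * T)) :=
    (min_le_right _ _).trans ((min_le_right _ _).trans (min_le_left _ _))
  have a5 : ε' ≤ C * ν * θ / (2 * D') :=
    (min_le_right _ _).trans ((min_le_right _ _).trans (min_le_right _ _))
  have a6 : ε' ≤ 1 / 64 := a2.trans hc₀1
  refine ⟨j, δ, c₀ / 2, ε', hj, hδ, by positivity, hε'0, by linarith,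
    fun Lc τ Λ f F v hN hτ X => ?_⟩
  obtain ⟨g, O⟩ := hR2 Lc C θ ν τ ε' (c₀ / 2) Λ f F v hθ hN.cont X a2 le_rfl
  obtain ⟨q', hq', hface⟩ := O.aux
  obtain ⟨B₁, hB₁, hgood₁⟩ :=
    hRows δ j Lc ν τ ε' (c₀ / 2) Λ f F v X g.toFun a1 le_rfl hδc O.toAux
  obtain ⟨B₂, hB₂, hgood₂⟩ := hRows δ j Lc ν τ ε' (c₀ / 2) Λ f F v X q' a1 le_rfl hδc hq'
  -- the union of the two exceptional sets
  have hB : ((B₁ ∪ B₂).card : ℝ) / 4 ^ X.nS ≤ ε₁ := by
    have h1 : ((B₁ ∪ B₂).card : ℝ) ≤ B₁.card + B₂.card := by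
      exact_mod_cast Finset.card_union_le B₁ B₂
    calc ((B₁ ∪ B₂).card : ℝ) / 4 ^ X.nS ≤ (B₁.card + B₂.card) / 4 ^ X.nS := by gcongr
      _ = B₁.card / 4 ^ X.nS + B₂.card / 4 ^ X.nS := add_div _ _ _
      _ ≤ ε₁ / 2 + ε₁ / 2 := add_le_add hB₁ hB₂
      _ = ε₁ := add_halves _
  have hgood : ∀ k ∈ rect X.a X.b, k ∉ B₁ ∪ B₂ →
      H239.faceI p g.toFun (sc v ((X.nS, k), 2)) 2 (1 / 2 / 2 ^ X.nS) ≤
        ENNReal.ofReal ((ε / 4 + 2 * ε') * (1 / 2 ^ X.nS) ^ 3) := by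
    intro k hk hkB
    rw [Finset.notMem_union] at hkB
    obtain ⟨g1, g2, g3, g4⟩ := hgood₁ k hk hkB.1
    exact hface k g1 g2 g3 (hgood₂ k hk hkB.2).2.2.1 g4
  have hKD : 0 < K * D := by positivity
  have hKD' : 0 < K * D' := by positivity
  -- the errors of the energies
  have b1 : K * D' * ε' ≤ K * D * (C * ν * θ) := by
    have h1 : D' * ε' ≤ C * ν * θ / 2 := by
      calc D' * ε' ≤ D' * (C * ν * θ / (2 * D')) := by gcongr
        _ = C * ν * θ / 2 := by field_simp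
    have h2 : C * ν * θ / 2 ≤ D * (C * ν * θ) := by
      have : 0 < C * ν * θ := by positivity
      nlinarith
    calc K * D' * ε' = K * (D' * ε') := by ring
      _ ≤ K * (D * (C * ν * θ)) := mul_le_mul_of_nonneg_left (h1.trans h2) (by positivity)
      _ = _ := by ring
  have b2 : K * D * (2 * ε') ≤ K * D * (C * ν * θ) := by
    have h1 : 2 * ε' ≤ C * ν * θ := by
      calc 2 * ε' ≤ 2 * (C * ν * θ / (2 * D')) := by gcongr
        _ = C * ν * θ / D' := by field_simp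
        _ ≤ C * ν * θ := div_le_self (by positivity) hD'1
    gcongr
  have b3 : C * ν * θ ≤ C * θ := by
    have : 0 < C * θ := by positivity
    nlinarith
  refine ⟨v 2 + X.a 2 / 2 ^ X.nS, g, X.pl.mid, O.bd, ?_, ?_, ?_⟩
  · have h1 := en_leF (by linarith) X O hKD.le hKD'.le (by positivity) hε'0.le (A := univ)
      (e := C * θ) (by positivity) X.en.bulk
    rw [inter_univ] at h1
    refine h1.trans (ENNReal.ofReal_le_ofReal ?_)
    have : K * D * (C * ν * θ) ≤ K * D * (C * θ) := by gcongr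
    linarith
  · have h1 := en_leF (by linarith) X O hKD.le hKD'.le (by positivity) hε'0.le
      (A := Fr (H235.fl θ) (2 * ν) {0, 1}) (e := C * ν * θ) (by positivity) X.en.frame
    refine h1.trans (ENNReal.ofReal_le_ofReal ?_)
    linarith
  · refine (mid_leF hp X O hKD'.le (by positivity) (by positivity) (by linarith) hε'0.le hB
      hgood).trans (ENNReal.ofReal_le_ofReal ?_)
    have d1 : q * ((4 * T + 2) * ε₁) = ε / 4 := by
      rw [hε₁]; field_simp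
    have d2 : q * (T * (2 * ε')) ≤ ε / 4 := by
      calc q * (T * (2 * ε')) ≤ q * (T * (2 * (ε / (8 * (q * T))))) := by gcongr
        _ = ε / 4 := by field_simp; ring
    have d3 : q * (K * D' * (2 ^ p * (q * (2 * ε' + 4 * ε₁))) + 2 * ε₁) =
        q * (T * (2 * ε')) + q * ((4 * T + 2) * ε₁) := by rw [hT]; ring
    rw [d3, d1]
    linarith

end Vale.Agent.P073.H407
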