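import Vale.Agent.P073.H235.R2Parts
import Vale.Agent.P073.H687.MinSum
import Vale.Agent.P073.H194.Local

/-!
# P073, block A16, [POST-MID], part `mid` (helper407), first part: the squares of the middle plane

* `edgeOfSq_of_minEdge`: a minimal square whose four sides are minimal edges contains no other
  minimal edge;
* `minEdge_of_rect`: the sides of the squares of the core rectangle are minimal edges;
* `deep_of_free`: a good free square is deep;
* `rect_size`: at most `2 ^ nS` squares in each direction.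
-/

namespace Vale.Agent.P073.H407

open MeasureTheory Set Filter Topology Metric Vale.Agent.P073.St Vale.Agent.P073.AB
open Vale.Agent.P073.AB.P86
open Vale.Agent.P073.H235
open Vale.Agent.P073.SQ (ev cube)
open Vale.Agent.P073.H73 (MinEdge segP onSeg faceL)
open Vale.Agent.P073.H239 (Deep faceI)
open Vale.Agent.P073.H687 (minEdge_sub)
open _root_.P073 (ConHomeo)
open _root_.P073.Net (len dyc dyo IsTile SizeFn)
open scoped ENNReal

/-- minimal edges do not contain each other -/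
theorem minEdge_eq {Ω : Set V} {v : V} {I : Set Idx} (hI : Part Ω v I) {e e₀ : Idx × Fin 3}
    (he : MinEdge v I e) (he₀ : MinEdge v I e₀) (h : edge v e ⊆ edge v e₀) : e = e₀ := by
  by_contra hne
  have hm := Gr.mid_spec v e
  exact Gr.not_inner hI he he₀ hne hm.1 (h hm.1) hm.2

/-- a minimal square whose sides are minimal edges contains no other minimal edge -/
theorem edgeOfSq_of_minEdge {Ω : Set V} {v : V} {I : Set Idx} (hΩ : IsOpen Ω) (hI : Part Ω v I)
    {s e : Idx × Fin 3} (hs : MinSq v I s) (hall : ∀ e, EdgeOfSq e s → MinEdge v I e)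
    (he : MinEdge v I e) (hes : edge v e ⊆ squ v s) : EdgeOfSq e s := by
  obtain ⟨e₀, h0, h1⟩ := minEdge_sub hΩ hI hs he hes
  rw [minEdge_eq hI he (hall e₀ h0) h1]
  exact h0

theorem mem_rect {a b k : Fin 3 → ℤ} : k ∈ rect a b ↔
    k 2 = a 2 ∧ ∀ j, j ≠ 2 → a j ≤ k j ∧ k j < b j := by
  unfold rect
  rw [Fintype.mem_piFinset]
  constructor
  · intro h
    refine ⟨by simpa using h 2, fun j hj => ?_⟩
    have := h j
    rwa [if_neg hj, Finset.mem_Ico] at this
  · rintro ⟨h1, h2⟩ j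
    by_cases hj : j = 2
    · subst hj; simpa using h1
    · rw [if_neg hj, Finset.mem_Ico]; exact h2 j hj

theorem mem_redge {a b k : Fin 3 → ℤ} {i : Fin 3} (hi : i ≠ 2) : k ∈ redge a b i ↔
    k 2 = a 2 ∧ (a i ≤ k i ∧ k i < b i) ∧ ∀ j, j ≠ 2 → j ≠ i → a j ≤ k j ∧ k j ≤ b j := by
  unfold redge
  rw [Fintype.mem_piFinset]
  constructor
  · intro h
    refine ⟨by simpa using h 2, ?_, fun j hj hji => ?_⟩
    · have := h i
      rwa [if_neg hi, if_pos rfl, Finset.mem_Ico] at this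
    · have := h j
      rwa [if_neg hj, if_neg hji, Finset.mem_Icc] at this
  · rintro ⟨h1, h2, h3⟩ j
    by_cases hj : j = 2
    · subst hj; simpa using h1
    · rw [if_neg hj]
      by_cases hji : j = i
      · subst hji; rw [if_pos rfl, Finset.mem_Ico]; exact h2
      · rw [if_neg hji, Finset.mem_Icc]; exact h3 j hj hji

/-- the sides of the squares of the rectangle -/
theorem edgeOfSq_redge {a b k : Fin 3 → ℤ} (hk : k ∈ rect a b) {nS : ℕ} {e : Idx × Fin 3}
    (he : EdgeOfSq e ((nS, k), 2)) : e.1.1 = nS ∧ e.2 ≠ 2 ∧ e.1.2 ∈ redge a b e.2 := by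
  obtain ⟨h1, h2, h3, h4, h5⟩ := he
  simp only at h1 h2 h3 h4 h5
  refine ⟨h1, h2, (mem_redge h2).2 ⟨?_, ?_, fun j hj hji => ?_⟩⟩
  · rw [h4]; exact (mem_rect.1 hk).1
  · rw [h3]; exact (mem_rect.1 hk).2 _ h2
  · have := (mem_rect.1 hk).2 j hj
    rcases h5 j hji hj with h | h <;> rw [h] <;> omega

section

variable {p C θ ν τ ε δ : ℝ} {Λ : Set V} {f : V → V}

/-- the sides of the squares of the core rectangle are minimal edges -/
theorem minEdge_of_rect (P : PreFlat p C θ ν τ ε δ Λ f) {k : Fin 3 → ℤ} (hk : k ∈ rect P.a P.b)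
    {e : Idx × Fin 3} (he : EdgeOfSq e ((P.nS, k), 2)) : MinEdge P.v P.I e := by
  obtain ⟨h1, h2, h3⟩ := edgeOfSq_redge hk he
  have h4 := P.minE e.2 h2 e.1.2 h3
  have : e = ((P.nS, e.1.2), e.2) := by rw [← h1]
  rw [this]
  exact h4

/-- a good free square is deep -/
theorem deep_of_free (P : PreFlat p C θ ν τ ε δ Λ f) (hδ : δ ≤ 1) {c : ℝ} (hc : 0 ≤ c)
    {k : Fin 3 → ℤ} (hk : k ∈ rect P.a P.b) (hG : k ∈ P.G)
    (hF : Free c P.v P.nS P.mt P.h.toFun k) :
    ∃ z, ∀ S ⊆ squ P.v ((P.nS, k), 2),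
      Deep c δ 0 P.ρ univ (Finset.univ.erase 2) P.mt z (P.h.toFun '' S) := by
  obtain ⟨t, ht⟩ := P.plate k hG
  obtain ⟨z₀, hz₀⟩ := hF
  have hm : (0:ℝ) < 2 ^ P.mt := by positivity
  refine ⟨Function.update z₀ 2 t, fun S hS => ⟨?_, fun _ _ _ => mem_univ _, ?_, ?_⟩⟩
  · intro z' hz'
    -- a point of the square
    set x : V := pt P.v P.nS k with hx
    have hxs : x ∈ squ P.v ((P.nS, k), 2) := by
      refine ⟨rfl, fun j _ => ⟨le_rfl, ?_⟩⟩
      show P.v j + (k j : ℝ) / 2 ^ P.nS ≤ P.v j + (k j + 1) / 2 ^ P.nS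
      gcongr
      linarith
    refine P.tile k hk x hxs z' ⟨fun j => (z' j : ℝ) / 2 ^ P.mt, fun j => ⟨?_, ?_⟩, ?_⟩
    · simp
    · simp only [Pi.zero_apply, zero_add]
      gcongr
      linarith
    · rw [pi_norm_le_iff_of_nonneg (by positivity)]
      intro j
      rw [Pi.sub_apply, Real.norm_eq_abs]
      obtain ⟨h1, h2⟩ := hz' j
      by_cases hj : j = 2
      · subst hj
        rw [Function.update_self] at h1 h2
        have h3 := ht x hxs
        have e : P.h.toFun x 2 - (z' 2 : ℝ) / 2 ^ P.mt =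
            (P.h.toFun x 2 - t / 2 ^ P.mt) + (t - z' 2) / 2 ^ P.mt := by ring
        rw [e]
        have h4 : |((t : ℝ) - z' 2) / 2 ^ P.mt| ≤ 2 / 2 ^ P.mt := by
          rw [abs_div, abs_of_pos hm]
          gcongr
          rw [abs_le]
          have h1' : (t : ℝ) - 2 ≤ z' 2 := by exact_mod_cast h1
          have h2' : (z' 2 : ℝ) ≤ t + 1 := by exact_mod_cast h2
          constructor <;> linarith
        refine (abs_add_le _ _).trans ((add_le_add h3 h4).trans ?_)
        rw [← add_div]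
        gcongr
        linarith
      · rw [Function.update_of_ne hj] at h1 h2
        have h3 := hz₀ x hxs j hj
        have h1' : (z₀ j : ℝ) - 2 ≤ z' j := by exact_mod_cast h1
        have h2' : (z' j : ℝ) ≤ z₀ j + 1 := by exact_mod_cast h2
        rw [div_le_iff₀ hm, le_div_iff₀ hm] at h3
        have e : P.h.toFun x j - (z' j : ℝ) / 2 ^ P.mt =
            (P.h.toFun x j * 2 ^ P.mt - z' j) / 2 ^ P.mt := by field_simp
        rw [e, abs_div, abs_of_pos hm]
        gcongr
        rw [abs_le]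
        constructor <;> linarith [h3.1, h3.2]
  · rintro _ ⟨x, hx, rfl⟩ j hj
    have hj2 : j = 2 := by simpa using hj
    subst hj2
    rw [Function.update_self, Pi.zero_apply, zero_add]
    exact ht x (hS hx)
  · rintro _ ⟨x, hx, rfl⟩ j hj
    have hj2 : j ≠ 2 := Finset.ne_of_mem_erase hj
    rw [Function.update_of_ne hj2, Pi.zero_apply, zero_add, zero_add]
    exact hz₀ x (hS hx) j hj2

/-- the squares of the rectangle are in the domain -/
theorem rect_sub (P : PreFlat p C θ ν τ ε δ Λ f) {k : Fin 3 → ℤ} (hk : k ∈ rect P.a P.b) :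
    squ P.v ((P.nS, k), 2) ⊆ Bx (fl θ) := by
  obtain ⟨⟨q, hq, hf⟩, -⟩ := P.minS k hk
  exact (Vale.Agent.P073.H194.face_sub hf).trans (P.part.sub q hq)

/-- the size of the rectangle -/
theorem rect_size (P : PreFlat p C θ ν τ ε δ Λ f) {i : Fin 3} (hi : i ≠ 2) :
    P.b i - P.a i ≤ 2 ^ P.nS := by
  have hm : (0:ℝ) < 2 ^ P.nS := by positivity
  have h1 : P.a ∈ rect P.a P.b := mem_rect.2 ⟨rfl, fun j hj => ⟨le_rfl, P.alt j hj⟩⟩
  have h2 : (fun j => if j = 2 then P.a 2 else P.b j - 1) ∈ rect P.a P.b := by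
    refine mem_rect.2 ⟨by simp, fun j hj => ?_⟩
    simp only [if_neg hj]
    have := P.alt j hj
    omega
  have hfl : fl θ i = 1 := by
    fin_cases i
    · rfl
    · rfl
    · exact absurd rfl hi
  have hx1 : pt P.v P.nS P.a ∈ squ P.v ((P.nS, P.a), 2) := by
    refine ⟨rfl, fun j _ => ⟨le_rfl, ?_⟩⟩
    show P.v j + (P.a j : ℝ) / 2 ^ P.nS ≤ P.v j + (P.a j + 1) / 2 ^ P.nS
    gcongr
    linarith
  have hx2 : (fun j => if j = 2 then P.v 2 + P.a 2 / 2 ^ P.nS else P.v j + P.b j / 2 ^ P.nS) ∈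
      squ P.v ((P.nS, fun j => if j = 2 then P.a 2 else P.b j - 1), 2) := by
    refine ⟨by simp, fun j hj => ?_⟩
    simp only at hj ⊢
    rw [if_neg hj, if_neg hj]
    push_cast
    constructor
    · gcongr; linarith
    · rw [sub_add_cancel]
  have h3 := (rect_sub P h1 hx1 i).1
  have h4 := (rect_sub P h2 hx2 i).2
  rw [if_neg hi, hfl] at h4
  have h5 : P.v i + (P.a i : ℝ) / 2 ^ P.nS > 0 := h3
  have h6 : ((P.b i : ℝ) - P.a i) / 2 ^ P.nS < 1 := by
    rw [sub_div]; linarith
  rw [div_lt_one hm] at h6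
  have h7 : P.b i - P.a i < 2 ^ P.nS := by exact_mod_cast h6
  exact h7.le

end

end Vale.Agent.P073.H407
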