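import Vale.Agent.P073.H340.PEa
import Vale.Agent.P073.H333.Nums

/-!
# P073, [PRE-2] (helper407): **[NUMS2]** (`H340.SpecNums2`, `H340.SpecEpsc2`)
-/

namespace Vale.Agent.P073.H407

open Filter Topology Set
open Vale.Agent.P073.H333 (small1 exists_smallE ev_div_le tendsto_ofReal_div)
open Vale.Agent.P073.H340 (cK Nums2 SpecNums2 SpecEpsc2)
open scoped ENNReal

theorem cK_rpow_ne_top {p : ℝ} (hp : 0 ≤ p) (a₁ : ℝ) : cK a₁ ^ p ≠ ⊤ :=
  ENNReal.rpow_ne_top_of_nonneg hp (ENNReal.mul_ne_top (by norm_num) ENNReal.ofReal_ne_top)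

/-- **[NUMS2]**, the energy outside of the good cells -/
theorem specEpsc2 : SpecEpsc2 := by
  intro p ε a₁ hp hε _ CC hCC
  have h2p : (2:ℝ≥0∞) ^ (p - 1) ≠ ⊤ := ENNReal.rpow_ne_top_of_nonneg (by linarith) (by norm_num)
  have h4p : cK a₁ ^ p ≠ ⊤ := cK_rpow_ne_top (by linarith) a₁
  have e1 : (3 * (1 + 2 ^ (p - 1)) : ℝ≥0∞) ≠ ⊤ :=
    ENNReal.mul_ne_top (by norm_num) (ENNReal.add_ne_top.2 ⟨by norm_num, h2p⟩)
  have e2 : (2 ^ (p - 1) * (cK a₁ ^ p * (36 * CC)) : ℝ≥0∞) ≠ ⊤ :=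
    ENNReal.mul_ne_top h2p (ENNReal.mul_ne_top h4p (ENNReal.mul_ne_top (by norm_num) hCC))
  obtain ⟨x, hx0, hxt, h1, h2, h3, h4⟩ := exists_smallE ((small1 (a := 3) (by norm_num) hε).and
    ((small1 e1 (half_pos hε)).and ((small1 e2 (b := ε / 8) (by positivity)).and
      (small1 (a := 1) (by norm_num) hε))))
  refine ⟨x, hx0, hxt, h1, ?_, ?_, by simpa using h4⟩
  · refine le_trans (le_of_eq ?_) h2
    ring
  · refine le_trans (le_of_eq ?_) h3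
    ring

/-- **[NUMS2]** -/
theorem specNums2 : SpecNums2 := by
  intro p ε δ θ M C a₁ hp hε hδ hθ ha0 _ vol CC cs hvol hCC hcs
  have h2p : (2:ℝ≥0∞) ^ (p - 1) ≠ ⊤ := ENNReal.rpow_ne_top_of_nonneg (by linarith) (by norm_num)
  have h4p : cK a₁ ^ p ≠ ⊤ := cK_rpow_ne_top (by linarith) a₁
  have hR : ∀ a : ℝ, ENNReal.ofReal a ^ p ≠ ⊤ := fun a =>
    ENNReal.rpow_ne_top_of_nonneg (by linarith) ENNReal.ofReal_ne_top
  have h8 : (0:ℝ) < ε / 8 := by positivity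
  -- fill
  have e1 : (3 * (2 ^ (p - 1) * (ENNReal.ofReal M ^ p * vol)) : ℝ≥0∞) ≠ ⊤ :=
    ENNReal.mul_ne_top (by norm_num) (ENNReal.mul_ne_top h2p (ENNReal.mul_ne_top (hR M) hvol))
  have e2 : (2 ^ (p - 1) * (cK a₁ ^ p * (36 * (CC * (ENNReal.ofReal M ^ p * vol)))) : ℝ≥0∞) ≠ ⊤ :=
    ENNReal.mul_ne_top h2p (ENNReal.mul_ne_top h4p (ENNReal.mul_ne_top (by norm_num)
      (ENNReal.mul_ne_top hCC (ENNReal.mul_ne_top (hR M) hvol))))
  obtain ⟨x, hx0, hxt, h1, h2⟩ := exists_smallE ((small1 e1 (half_pos hε)).and (small1 e2 h8))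
  have hx : 0 < x.toReal := ENNReal.toReal_pos hx0 hxt
  obtain ⟨ks, hks, hks2⟩ := ((ev_div_le (24 / θ) (b := x.toReal / 3) (by positivity)).and
    (ev_div_le 32 hθ)).exists
  obtain ⟨kt, hkt, hkt2⟩ := ((ev_div_le 6 (b := x.toReal / 3) (by positivity)).and
    (eventually_ge_atTop 2)).exists
  have hb : 0 < a₁ / 2 ^ ks / 2 := by positivity
  -- errors
  obtain ⟨εe, hεe0, -, hεe⟩ := exists_smallE (small1 (ENNReal.mul_ne_top h2p h4p) h8)
  have e3 : (2 ^ (p - 1) * (24 * vol) : ℝ≥0∞) ≠ ⊤ :=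
    ENNReal.mul_ne_top h2p (ENNReal.mul_ne_top (by norm_num) hvol)
  obtain ⟨y, hy0, hyt, hy⟩ := exists_smallE (small1 e3 h8)
  -- the layers
  have q1 : (2 ^ (p - 1) * (cK a₁ ^ p * (36 * (CC * cs + ENNReal.ofReal (1 + 4 * (2 / a₁)) ^ p *
      (ENNReal.ofReal M ^ p * (6 * (12 * vol)))))) : ℝ≥0∞) ≠ ⊤ :=
    ENNReal.mul_ne_top h2p (ENNReal.mul_ne_top h4p (ENNReal.mul_ne_top (by norm_num)
      (ENNReal.add_ne_top.2 ⟨ENNReal.mul_ne_top hCC hcs, ENNReal.mul_ne_top (hR _)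
        (ENNReal.mul_ne_top (hR M) (ENNReal.mul_ne_top (by norm_num)
          (ENNReal.mul_ne_top (by norm_num) hvol)))⟩)))
  have q2 : (24 * (ENNReal.ofReal (16 * (2 / a₁ * (2178 * (1 + 4 * (2 / a₁))))) ^ p *
      (2 ^ (p - 1) * (ENNReal.ofReal (M ^ p + 1) + ENNReal.ofReal (M + C + 1) ^ p))) *
        (24 * vol) : ℝ≥0∞) ≠ ⊤ :=
    ENNReal.mul_ne_top (ENNReal.mul_ne_top (by norm_num) (ENNReal.mul_ne_top (hR _)
      (ENNReal.mul_ne_top h2p (ENNReal.add_ne_top.2 ⟨ENNReal.ofReal_ne_top, hR _⟩))))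
      (ENNReal.mul_ne_top (by norm_num) hvol)
  have hlim := tendsto_ofReal_div 1
  obtain ⟨k₁, l1, l2, l3, l4, l5, l6, l7, l8⟩ := ((ev_div_le 12 (b := x.toReal / 3)
    (by positivity)).and ((ev_div_le (288000 * M) (b := 1 / 2 ^ ks) (by positivity)).and
    ((ev_div_le C hb).and ((ev_div_le (2 * C + M) (b := δ * (a₁ / 2 ^ ks / 2))
      (by positivity)).and ((hlim.eventually (small1 q1 h8)).and
      ((hlim.eventually (small1 q2 h8)).and ((eventually_ge_atTop 3).and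
        (ev_div_le (32 * (M + 1)) hθ)))))))).exists
  have hsum : (ENNReal.ofReal (12 / 2 ^ k₁ + 24 / (θ * 2 ^ ks) + 6 / 2 ^ kt)) ≤ x := by
    rw [← ENNReal.ofReal_toReal hxt]
    apply ENNReal.ofReal_le_ofReal
    have : 24 / (θ * 2 ^ ks) = 24 / θ / 2 ^ ks := by rw [div_div]
    rw [this]
    linarith
  have e12 : ENNReal.ofReal (12 / 2 ^ k₁) = 12 * ENNReal.ofReal (1 / 2 ^ k₁) := by
    rw [show (12:ℝ≥0∞) = ENNReal.ofReal 12 by simp, ← ENNReal.ofReal_mul (by norm_num)]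
    congr 1; ring
  have e24 : ENNReal.ofReal (24 / 2 ^ k₁) = 24 * ENNReal.ofReal (1 / 2 ^ k₁) := by
    rw [show (24:ℝ≥0∞) = ENNReal.ofReal 24 by simp, ← ENNReal.ofReal_mul (by norm_num)]
    congr 1; ring
  refine ⟨ks, kt, k₁, (y.toReal) ^ (1 / p), εe, ⟨hkt2, l7,
    Real.rpow_pos_of_pos (ENNReal.toReal_pos hy0 hyt) _, hεe0, hks2, ?_, l8, l3, ?_, ?_, ?_, ?_, ?_,
    ?_, ?_⟩⟩
  · rw [← mul_div_assoc]; exact l2
  · refine le_trans (le_of_eq ?_) l4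
    ring
  · refine le_trans ?_ h1
    calc 3 * (2 ^ (p - 1) * (ENNReal.ofReal M ^ p *
        (ENNReal.ofReal (12 / 2 ^ k₁ + 24 / (θ * 2 ^ ks) + 6 / 2 ^ kt) * vol)))
        ≤ 3 * (2 ^ (p - 1) * (ENNReal.ofReal M ^ p * (x * vol))) := by gcongr
      _ = _ := by ring
  · refine le_trans ?_ h2
    calc 2 ^ (p - 1) * (cK a₁ ^ p * (36 * (CC * (ENNReal.ofReal M ^ p *
        (ENNReal.ofReal (12 / 2 ^ k₁ + 24 / (θ * 2 ^ ks) + 6 / 2 ^ kt) * vol)))))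
        ≤ 2 ^ (p - 1) * (cK a₁ ^ p * (36 * (CC * (ENNReal.ofReal M ^ p * (x * vol))))) := by
          gcongr
      _ = _ := by ring
  · refine le_trans (le_of_eq ?_) hεe
    ring
  · have h : ENNReal.ofReal (y.toReal ^ (1 / p)) ^ p = y := by
      rw [← ENNReal.ofReal_rpow_of_nonneg ENNReal.toReal_nonneg (by positivity),
        ENNReal.ofReal_toReal hyt, ← ENNReal.rpow_mul, one_div,
        inv_mul_cancel₀ (by linarith), ENNReal.rpow_one]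
    rw [h]
    refine le_trans (le_of_eq ?_) hy
    ring
  · refine le_trans (le_of_eq ?_) l5
    rw [e12]
    ring
  · refine le_trans (le_of_eq ?_) l6
    rw [e24]
    ring

end Vale.Agent.P073.H407
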