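import Vale.Agent.P073.GBM.S371

/-!
# P073, CLEAN-E (helper407): the sets `Obox` around the fine cubes and the bodies
-/

open Set Metric Topology Filter

namespace P073.Cell

open P073 P073.PR720 P073.GB73 P073.GBM P073.Gauge P073.GB1W
open Vale.Agent.P073.St (V)
open Vale.Agent.P073.AB
open Vale.Agent.P073.SQ (ev)
open P073.Net (dyc dyo)

/-- the affine image of a box around the cube `(N, z)` -/
noncomputable def Obox (v : V) (N : ℕ) (o : V) (A : V ≃L[ℝ] V) (z : Fin 3 → ℤ) : Set V :=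
  aff o A '' Icc (fun k => cc v N z k - 69 / 32 / 2 ^ N) (fun k => cc v N z k + 69 / 32 / 2 ^ N)

variable {Vx B J I : Type} {e0 e1 : B → Vx} {inc : B → J → Prop} {qC : J → I → Prop} {Ω : Set V}
  {K : Cx3 e0 e1 inc qC Ω} {Λ : Set V} {h : V → V} {v : V} {N : ℕ} {q0 q1 o : V}
  {A : V ≃L[ℝ] V} {μ η : ℝ} {α β : Fin 3 → ℤ}

theorem mem_Obox {z : Fin 3 → ℤ} {y : V} :
    y ∈ Obox v N o A z ↔ ∀ k, |A.symm (y - o) k - cc v N z k| ≤ 69 / 32 / 2 ^ N := by
  rw [Obox, mem_aff_image]
  simp only [mem_Icc, Pi.le_def, abs_le]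
  constructor
  · intro h k
    exact ⟨by linarith [h.1 k], by linarith [h.2 k]⟩
  · intro h
    exact ⟨fun k => by linarith [(h k).1], fun k => by linarith [(h k).2]⟩

theorem convex_Obox (z : Fin 3 → ℤ) : Convex ℝ (Obox v N o A z) := by
  intro x hx y hy a b ha hb hab
  rw [mem_Obox] at hx hy ⊢
  intro k
  have h1 : A.symm (a • x + b • y - o) k - cc v N z k =
      a * (A.symm (x - o) k - cc v N z k) + b * (A.symm (y - o) k - cc v N z k) := by
    have h2 : a • x + b • y - o = a • (x - o) + b • (y - o) := by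
      have : o = (a + b) • o := by rw [hab, one_smul]
      conv_lhs => rw [this]
      module
    rw [h2, map_add, map_smul, map_smul, Pi.add_apply, Pi.smul_apply, Pi.smul_apply, smul_eq_mul,
      smul_eq_mul]
    have : cc v N z k = (a + b) * cc v N z k := by rw [hab, one_mul]
    conv_lhs => rw [this]
    ring
  rw [h1]
  calc |a * (A.symm (x - o) k - cc v N z k) + b * (A.symm (y - o) k - cc v N z k)|
      ≤ |a * (A.symm (x - o) k - cc v N z k)| + |b * (A.symm (y - o) k - cc v N z k)| :=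
        abs_add_le _ _
    _ = a * |A.symm (x - o) k - cc v N z k| + b * |A.symm (y - o) k - cc v N z k| := by
        rw [abs_mul, abs_mul, abs_of_nonneg ha, abs_of_nonneg hb]
    _ ≤ a * (69 / 32 / 2 ^ N) + b * (69 / 32 / 2 ^ N) :=
        add_le_add (mul_le_mul_of_nonneg_left (hx k) ha) (mul_le_mul_of_nonneg_left (hy k) hb)
    _ = 69 / 32 / 2 ^ N := by rw [← add_mul, hab, one_mul]

theorem isClosed_Obox (z : Fin 3 → ℤ) : IsClosed (Obox v N o A z) :=
  (aff o A).isClosedMap _ isClosed_Icc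

/-- points of the cube are close to all points of the box, in affine coordinates -/
theorem Obox_close {z : Fin 3 → ℤ} {x y : V} (hx : x ∈ dyc v N z) (hy : y ∈ Obox v N o A z) :
    ‖A.symm (y - o) - x‖ ≤ 3 / 2 ^ N := by
  have hε : (0:ℝ) < 1 / 2 ^ N := by positivity
  rw [mem_Obox] at hy
  rw [pi_norm_le_iff_of_nonneg (by positivity)]
  intro k
  have h1 := abs_le.1 (hy k)
  have h2 := hx k
  have e1 : (69 / 32 / 2 ^ N : ℝ) = 69 / 32 * (1 / 2 ^ N) := by ring
  have e2 : (3 / 2 ^ N : ℝ) = 3 * (1 / 2 ^ N) := by ring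
  have e3 : cc v N z k = v k + (z k + 1 / 2) * (1 / 2 ^ N) := by simp only [cc]; ring
  have e4 : (z k : ℝ) / 2 ^ N = z k * (1 / 2 ^ N) := by ring
  have e5 : ((z k : ℝ) + 1) / 2 ^ N = (z k + 1) * (1 / 2 ^ N) := by ring
  rw [e1, e3] at h1
  rw [e4, e5] at h2
  rw [Pi.sub_apply, Real.norm_eq_abs, abs_le, e2]
  constructor <;> linarith [h1.1, h1.2, h2.1, h2.2]

/-- a small neighbourhood of the image of the cube is in the box -/
theorem mem_Obox_of_close {z : Fin 3 → ℤ} {x y : V} (hx : x ∈ dyc v N z)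
    (hy : ‖A.symm (y - o) - x‖ ≤ 1 / 8 / 2 ^ N) : y ∈ Obox v N o A z := by
  have hε : (0:ℝ) < 1 / 2 ^ N := by positivity
  rw [mem_Obox]
  intro k
  have h1 := abs_le.1 ((norm_le_pi_norm _ k).trans hy)
  have h2 := hx k
  have e1 : (69 / 32 / 2 ^ N : ℝ) = 69 / 32 * (1 / 2 ^ N) := by ring
  have e2 : (1 / 8 / 2 ^ N : ℝ) = 1 / 8 * (1 / 2 ^ N) := by ring
  have e3 : cc v N z k = v k + (z k + 1 / 2) * (1 / 2 ^ N) := by simp only [cc]; ring
  have e4 : (z k : ℝ) / 2 ^ N = z k * (1 / 2 ^ N) := by ring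
  have e5 : ((z k : ℝ) + 1) / 2 ^ N = (z k + 1) * (1 / 2 ^ N) := by ring
  rw [Pi.sub_apply, e2] at h1
  rw [e4, e5] at h2
  rw [abs_le, e1, e3]
  constructor <;> linarith [h1.1, h1.2, h2.1, h2.2]

/-- **[BOXSEP]**, face bodies -/
theorem boxsep_face (hN : Near K Λ h v N q0 q1 o A μ η) {w : Fin 3 → ℤ} {l : Fin 3} {T : Set ℝ}
    {y : ℝ → B → V} (hT : T ⊆ Ioo (35 / 36) (37 / 36))
    (hU : frontier (hbox v N (fa w l) (fb w)) ⊆ interior (Icc q0 q1))
    (hpos : PosY K h v N o A μ (sc v N w l) (fw N) (fa w l) (fb w) T y) (z' : Fin 3 → ℤ)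
    {s : ℝ} (hs : s ∈ T) :
    IsPreconnected (frontier ((fBody v N o A w l T).at s) \ Obox v N o A z') ∧
      ∃ b ∈ crossed K (hbox v N (fa w l) (fb w)), y s b ∉ Obox v N o A z' := by
  have hε : (0:ℝ) < 1 / 2 ^ N := by positivity
  obtain ⟨hs1, hs2⟩ := hT hs
  have hs0 : 0 < s := by linarith
  have hsc : ∀ k, sc v N w l k = v k + (w k + if k = l then 0 else 1 / 2) * (1 / 2 ^ N) :=
    fun k => by simp only [sc]; ring
  have hcc : ∀ k, cc v N z' k = v k + (z' k + 1 / 2) * (1 / 2 ^ N) := fun k => by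
    simp only [cc]; ring
  have hfw : ∀ k, fw N k = 9 / 4 * (1 / 2 ^ N) := fun k => by simp only [fw]; ring
  have hρ : (69 / 32 / 2 ^ N : ℝ) = 69 / 32 * (1 / 2 ^ N) := by ring
  have hmO : ∀ y, y ∈ Obox v N o A z' → ∀ k, |A.symm (y - o) k - cc v N z' k| ≤
      69 / 32 * (1 / 2 ^ N) := fun y hy k => by rw [← hρ]; exact mem_Obox.1 hy k
  have hαβ : ∀ k, fa w l k < fb w k := fun k => by
    simp only [fa, fb]; split_ifs <;> omega
  have hX : (fBody v N o A w l T).at s = aff o A ''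
      Icc (fun k => sc v N w l k - s * fw N k) (fun k => sc v N w l k + s * fw N k) :=
    at_Icc hs0
  set ε : ℝ := 1 / 2 ^ N with hεd
  have hst : s * (9 / 4 * ε) ≤ 37 / 16 * ε := by nlinarith
  have hst' : 35 / 16 * ε ≤ s * (9 / 4 * ε) := by nlinarith
  -- half-integer difference of the centres
  have hd : ∀ k, ∃ m : ℤ, sc v N w l k - cc v N z' k = m / 2 * ε := by
    intro k
    by_cases hk : k = l
    · refine ⟨2 * w k - 2 * z' k - 1, ?_⟩
      rw [hsc, hcc, if_pos hk]; push_cast; ring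
    · refine ⟨2 * w k - 2 * z' k, ?_⟩
      rw [hsc, hcc, if_neg hk]; push_cast; ring
  choose m hm using hd
  -- a crossing point in direction `k` outside
  have htop : ∀ k, 0 ≤ m k → ∃ b ∈ crossed K (hbox v N (fa w l) (fb w)),
      y s b ∉ Obox v N o A z' := by
    intro k hk
    obtain ⟨b, a, hb, hc, hai, hbc⟩ := exists_top hN.lat hαβ hU k
    refine ⟨b, hbc, fun hy => ?_⟩
    have h1 := (hpos s hs b a k hb hc).2.1
    rw [if_pos hai, hfw] at h1
    have h2 := (abs_le.1 (hmO _ hy k)).2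
    rw [h1] at h2
    have h3 := hm k
    have h4 : (0:ℝ) ≤ m k / 2 * ε := by
      have : (0:ℝ) ≤ m k := by exact_mod_cast hk
      positivity
    linarith
  have hbot : ∀ k, m k ≤ 0 → ∃ b ∈ crossed K (hbox v N (fa w l) (fb w)),
      y s b ∉ Obox v N o A z' := by
    intro k hk
    obtain ⟨b, a, hb, hc, hai, hbc⟩ := exists_bot hN.lat hαβ hU k
    refine ⟨b, hbc, fun hy => ?_⟩
    have h1 := (hpos s hs b a k hb hc).2.1
    rw [if_neg (by rw [hai]; exact (hαβ k).ne), hfw] at h1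
    have h2 := (abs_le.1 (hmO _ hy k)).1
    rw [h1] at h2
    have h3 := hm k
    have h4 : m k / 2 * ε ≤ (0:ℝ) := by
      have : (m k : ℝ) ≤ 0 := by exact_mod_cast hk
      nlinarith
    linarith
  refine ⟨?_, ?_⟩
  · rw [hX, Obox, hρ]
    have hab : ∀ k, sc v N w l k - s * fw N k < sc v N w l k + s * fw N k := by
      intro k
      rw [hfw]
      have : 0 < s * (9 / 4 * ε) := by positivity
      linarith
    rw [← Homeomorph.image_frontier, ← image_sdiff (aff o A).injective]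
    refine IsPreconnected.image (specSep _ _ _ _ hab ?_).1 _ (aff o A).continuous.continuousOn
    by_cases h0 : ∀ k, m k = 0
    · left
      intro k
      have h3 := hm k
      rw [h0 k] at h3
      simp only [hfw]
      push_cast at h3
      constructor <;> linarith
    · right
      push Not at h0
      obtain ⟨i, hi⟩ := h0
      refine ⟨i, ?_⟩
      have h3 := hm i
      simp only [hfw]
      rcases lt_or_gt_of_ne hi with hi | hi
      · right
        have h4 : (m i : ℝ) ≤ -1 := by exact_mod_cast (by omega : m i ≤ -1)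
        have h5 : (m i : ℝ) / 2 * ε ≤ -1 / 2 * ε := by nlinarith
        constructor <;> linarith
      · left
        have h4 : (1:ℝ) ≤ m i := by exact_mod_cast hi
        have h5 : 1 / 2 * ε ≤ (m i : ℝ) / 2 * ε := by nlinarith
        constructor <;> linarith
  · rcases le_total 0 (m 0) with h0 | h0
    · exact htop 0 h0
    · exact hbot 0 h0

/-- **[BOXSEP]**, the big body -/
theorem boxsep_big (hN : Near K Λ h v N q0 q1 o A μ η) (h8 : ∀ j, α j + 8 ≤ β j) {T0 : Set ℝ}
    {y0 : ℝ → B → V} (hT0 : ∀ t ∈ T0, 0 < t ∧ ∀ j, |t - 1| * (β j - α j) ≤ 1 / 4)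
    (hU : frontier (hbox v N α β) ⊆ interior (Icc q0 q1))
    (hpos : PosY K h v N o A μ (bc v N α β) (bw N α β) α β T0 y0) (z' : Fin 3 → ℤ)
    {s : ℝ} (hs : s ∈ T0) :
    IsPreconnected (frontier ((bigBody v N o A α β T0).at s) \ Obox v N o A z') ∧
      ∃ b ∈ crossed K (hbox v N α β), y0 s b ∉ Obox v N o A z' := by
  have hε : (0:ℝ) < 1 / 2 ^ N := by positivity
  have hαβ : ∀ j, α j < β j := fun j => by have := h8 j; omega
  have hcc : ∀ k, cc v N z' k = v k + (z' k + 1 / 2) * (1 / 2 ^ N) := fun k => by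
    simp only [cc]; ring
  have hbc : ∀ k, bc v N α β k = v k + (α k + β k + 1) / 2 * (1 / 2 ^ N) := fun k => by
    simp only [bc]; ring
  have hρ : (69 / 32 / 2 ^ N : ℝ) = 69 / 32 * (1 / 2 ^ N) := by ring
  have hmO : ∀ y, y ∈ Obox v N o A z' → ∀ k, |A.symm (y - o) k - cc v N z' k| ≤
      69 / 32 * (1 / 2 ^ N) := fun y hy k => by rw [← hρ]; exact mem_Obox.1 hy k
  have hs0 := (hT0 s hs).1
  have hwall := fun j => big_wall (N := N) hαβ (hT0 s hs) j
  have hX : (bigBody v N o A α β T0).at s = aff o A ''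
      Icc (fun k => bc v N α β k - s * bw N α β k) (fun k => bc v N α β k + s * bw N α β k) :=
    at_Icc hs0
  set ε : ℝ := 1 / 2 ^ N with hεd
  -- the ends of the body
  have hlo : ∀ k, |(bc v N α β k - s * bw N α β k) - (v k + (α k + 1 / 2) * ε)| ≤ 1 / 8 * ε := by
    intro k
    have h1 := abs_le.1 (hwall k)
    rw [hbc, abs_le]
    constructor <;> linarith [h1.1, h1.2]
  have hhi : ∀ k, |(bc v N α β k + s * bw N α β k) - (v k + (β k + 1 / 2) * ε)| ≤ 1 / 8 * ε := by
    intro k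
    have h1 := abs_le.1 (hwall k)
    rw [hbc, abs_le]
    constructor <;> linarith [h1.1, h1.2]
  have htop : ∀ k, z' k + 3 ≤ β k → cc v N z' k + 69 / 32 * ε < bc v N α β k + s * bw N α β k := by
    intro k hk
    have h1 := abs_le.1 (hhi k)
    have h2 : (z' k : ℝ) + 3 ≤ β k := by exact_mod_cast hk
    have h3 : ((z' k : ℝ) + 3) * ε ≤ β k * ε := mul_le_mul_of_nonneg_right h2 hε.le
    rw [hcc]
    linarith [h1.1]
  have hbot : ∀ k, α k + 3 ≤ z' k → bc v N α β k - s * bw N α β k < cc v N z' k - 69 / 32 * ε := by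
    intro k hk
    have h1 := abs_le.1 (hlo k)
    have h2 : (α k : ℝ) + 3 ≤ z' k := by exact_mod_cast hk
    have h3 : ((α k : ℝ) + 3) * ε ≤ z' k * ε := mul_le_mul_of_nonneg_right h2 hε.le
    rw [hcc]
    linarith [h1.2]
  have htop' : ∀ k, β k ≤ z' k + 2 → bc v N α β k + s * bw N α β k < cc v N z' k + 69 / 32 * ε := by
    intro k hk
    have h1 := abs_le.1 (hhi k)
    have h2 : (β k : ℝ) ≤ z' k + 2 := by exact_mod_cast hk
    have h3 : (β k : ℝ) * ε ≤ (z' k + 2) * ε := mul_le_mul_of_nonneg_right h2 hε.le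
    rw [hcc]
    linarith [h1.2]
  have hbot' : ∀ k, z' k ≤ α k + 2 → cc v N z' k - 69 / 32 * ε < bc v N α β k - s * bw N α β k := by
    intro k hk
    have h1 := abs_le.1 (hlo k)
    have h2 : (z' k : ℝ) ≤ α k + 2 := by exact_mod_cast hk
    have h3 : (z' k : ℝ) * ε ≤ (α k + 2) * ε := mul_le_mul_of_nonneg_right h2 hε.le
    rw [hcc]
    linarith [h1.1]
  have hab : ∀ k, bc v N α β k - s * bw N α β k < bc v N α β k + s * bw N α β k := by
    intro k
    have h1 := abs_le.1 (hlo k)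
    have h2 := abs_le.1 (hhi k)
    have h3 : (α k : ℝ) + 8 ≤ β k := by exact_mod_cast h8 k
    have h4 : ((α k : ℝ) + 8) * ε ≤ β k * ε := mul_le_mul_of_nonneg_right h3 hε.le
    linarith [h1.2, h2.1]
  refine ⟨?_, ?_⟩
  · rw [hX, Obox, hρ, ← Homeomorph.image_frontier, ← image_sdiff (aff o A).injective]
    refine IsPreconnected.image (specSep _ _ _ _ hab ?_).1 _ (aff o A).continuous.continuousOn
    by_cases h0 : ∀ k, α k + 3 ≤ z' k ∧ z' k + 3 ≤ β k
    · left
      exact fun k => ⟨hbot k (h0 k).1, htop k (h0 k).2⟩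
    · right
      push Not at h0
      obtain ⟨i, hi⟩ := h0
      have h8i := h8 i
      refine ⟨i, ?_⟩
      by_cases hi1 : α i + 3 ≤ z' i
      · right
        have := hi hi1
        exact ⟨hbot i hi1, htop' i (by omega)⟩
      · left
        exact ⟨hbot' i (by omega), htop i (by omega)⟩
  · have h80 := h8 0
    by_cases h0 : z' 0 + 3 ≤ β 0
    · obtain ⟨b, a, hb, hc, hai, hbc'⟩ := exists_top hN.lat hαβ hU 0
      refine ⟨b, hbc', fun hy => ?_⟩
      have h1 := (hpos s hs b a 0 hb hc).2.1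
      rw [if_pos hai] at h1
      have h2 := (abs_le.1 (hmO _ hy 0)).2
      have h3 := htop 0 h0
      rw [h1] at h2
      linarith
    · obtain ⟨b, a, hb, hc, hai, hbc'⟩ := exists_bot hN.lat hαβ hU 0
      refine ⟨b, hbc', fun hy => ?_⟩
      have h1 := (hpos s hs b a 0 hb hc).2.1
      rw [if_neg (by rw [hai]; exact (hαβ 0).ne)] at h1
      have h2 := (abs_le.1 (hmO _ hy 0)).1
      have h3 := hbot 0 (by omega)
      rw [h1] at h2
      linarith

end P073.Cell
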