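import Vale.Agent.P073.PL.S200

/-!
# P073, PLATE-E (helper407): the sets `Obox2` around the fine squares and the bodies
-/

open Set Metric Topology Filter

namespace P073.PL

open P073 P073.PR720 P073.GB73 P073.GBM P073.Gauge P073.GB1W P073.Cell P073.Plate
open Vale.Agent.P073.St (V)
open Vale.Agent.P073.AB
open Vale.Agent.P073.SQ (ev)
open P073.Net (dyc dyo)
open S200

/-- half sides of `Obox2` -/
noncomputable def ow2 (N : ℕ) (k : Fin 3) : V := fun i => if i = k then 1 / 2 / 2 ^ N else 69 / 32 / 2 ^ N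

/-- the affine image of a box around the square `((N, z), k)` -/
noncomputable def Obox2 (v : V) (N : ℕ) (k : Fin 3) (o : V) (A : V ≃L[ℝ] V) (z : Fin 3 → ℤ) :
    Set V :=
  aff o A '' Icc (fun i => sc v N z k i - ow2 N k i) (fun i => sc v N z k i + ow2 N k i)

variable {Vx B J I : Type} {e0 e1 : B → Vx} {inc : B → J → Prop} {qC : J → I → Prop} {Ω : Set V}
  {K : Cx3 e0 e1 inc qC Ω} {Λ : Set V} {h : V → V} {v : V} {N : ℕ} {k : Fin 3} {ζ : ℤ}
  {q0 q1 o : V} {A : V ≃L[ℝ] V} {μ η : ℝ} {cu cd : I} {α β : Fin 3 → ℤ}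

theorem mem_Obox2 {z : Fin 3 → ℤ} {y : V} :
    y ∈ Obox2 v N k o A z ↔ ∀ i, |A.symm (y - o) i - sc v N z k i| ≤ ow2 N k i := by
  rw [Obox2, mem_aff_image]
  simp only [mem_Icc, Pi.le_def, abs_le]
  constructor
  · intro h i
    exact ⟨by linarith [h.1 i], by linarith [h.2 i]⟩
  · intro h
    exact ⟨fun i => by linarith [(h i).1], fun i => by linarith [(h i).2]⟩

theorem convex_Obox2 (z : Fin 3 → ℤ) : Convex ℝ (Obox2 v N k o A z) := by
  intro x hx y hy a b ha hb hab
  rw [mem_Obox2] at hx hy ⊢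
  intro i
  have h1 : A.symm (a • x + b • y - o) i - sc v N z k i =
      a * (A.symm (x - o) i - sc v N z k i) + b * (A.symm (y - o) i - sc v N z k i) := by
    have h2 : a • x + b • y - o = a • (x - o) + b • (y - o) := by
      have : o = (a + b) • o := by rw [hab, one_smul]
      conv_lhs => rw [this]
      module
    rw [h2, map_add, map_smul, map_smul, Pi.add_apply, Pi.smul_apply, Pi.smul_apply, smul_eq_mul,
      smul_eq_mul]
    have : sc v N z k i = (a + b) * sc v N z k i := by rw [hab, one_mul]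
    conv_lhs => rw [this]
    ring
  rw [h1]
  calc |a * (A.symm (x - o) i - sc v N z k i) + b * (A.symm (y - o) i - sc v N z k i)|
      ≤ |a * (A.symm (x - o) i - sc v N z k i)| + |b * (A.symm (y - o) i - sc v N z k i)| :=
        abs_add_le _ _
    _ = a * |A.symm (x - o) i - sc v N z k i| + b * |A.symm (y - o) i - sc v N z k i| := by
        rw [abs_mul, abs_mul, abs_of_nonneg ha, abs_of_nonneg hb]
    _ ≤ a * ow2 N k i + b * ow2 N k i :=
        add_le_add (mul_le_mul_of_nonneg_left (hx i) ha) (mul_le_mul_of_nonneg_left (hy i) hb)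
    _ = ow2 N k i := by rw [← add_mul, hab, one_mul]

theorem isClosed_Obox2 (z : Fin 3 → ℤ) : IsClosed (Obox2 v N k o A z) :=
  (aff o A).isClosedMap _ isClosed_Icc

/-- points of the square are close to all points of the box, in affine coordinates -/
theorem Obox2_close {z : Fin 3 → ℤ} {x y : V} (hx : x ∈ squ v ((N, z), k))
    (hy : y ∈ Obox2 v N k o A z) : ‖A.symm (y - o) - x‖ ≤ 3 / 2 ^ N := by
  have hε : (0:ℝ) < 1 / 2 ^ N := by positivity
  rw [mem_Obox2] at hy
  rw [mem_squ] at hx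
  obtain ⟨hx1, hx2⟩ := hx
  rw [pi_norm_le_iff_of_nonneg (by positivity)]
  intro i
  have h1 := abs_le.1 (hy i)
  have hpt : pt v N z i = v i + z i * (1 / 2 ^ N) := by simp only [pt]; ring
  have e2 : (3 / 2 ^ N : ℝ) = 3 * (1 / 2 ^ N) := by ring
  rw [Pi.sub_apply, Real.norm_eq_abs, abs_le, e2]
  by_cases hik : i = k
  · subst hik
    have e1 : ow2 N i i = 1 / 2 * (1 / 2 ^ N) := by simp only [ow2, if_true]; ring
    have e3 : sc v N z i i = v i + z i * (1 / 2 ^ N) := by simp only [sc, if_true]; ring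
    rw [e1, e3] at h1
    rw [hpt] at hx1
    constructor <;> linarith [h1.1, h1.2]
  · have e1 : ow2 N k i = 69 / 32 * (1 / 2 ^ N) := by simp only [ow2, if_neg hik]; ring
    have e3 : sc v N z k i = v i + (z i + 1 / 2) * (1 / 2 ^ N) := by
      simp only [sc, if_neg hik]; ring
    have h2 := hx2 i hik
    rw [e1, e3] at h1
    rw [hpt] at h2
    constructor <;> linarith [h1.1, h1.2, h2.1, h2.2]

/-- a small neighbourhood of the image of the square is in the box -/
theorem mem_Obox2_of_close {z : Fin 3 → ℤ} {x y : V} (hx : x ∈ squ v ((N, z), k))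
    (hy : ‖A.symm (y - o) - x‖ ≤ 1 / 8 / 2 ^ N) : y ∈ Obox2 v N k o A z := by
  have hε : (0:ℝ) < 1 / 2 ^ N := by positivity
  rw [mem_Obox2]
  rw [mem_squ] at hx
  obtain ⟨hx1, hx2⟩ := hx
  intro i
  have h1 := abs_le.1 ((norm_le_pi_norm _ i).trans hy)
  have hpt : pt v N z i = v i + z i * (1 / 2 ^ N) := by simp only [pt]; ring
  have e2 : (1 / 8 / 2 ^ N : ℝ) = 1 / 8 * (1 / 2 ^ N) := by ring
  rw [Pi.sub_apply, e2] at h1
  by_cases hik : i = k
  · subst hik
    have e1 : ow2 N i i = 1 / 2 * (1 / 2 ^ N) := by simp only [ow2, if_true]; ring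
    have e3 : sc v N z i i = v i + z i * (1 / 2 ^ N) := by simp only [sc, if_true]; ring
    rw [hpt] at hx1
    rw [abs_le, e1, e3]
    constructor <;> linarith [h1.1, h1.2]
  · have e1 : ow2 N k i = 69 / 32 * (1 / 2 ^ N) := by simp only [ow2, if_neg hik]; ring
    have e3 : sc v N z k i = v i + (z i + 1 / 2) * (1 / 2 ^ N) := by
      simp only [sc, if_neg hik]; ring
    have h2 := hx2 i hik
    rw [hpt] at h2
    rw [abs_le, e1, e3]
    constructor <;> linarith [h1.1, h1.2, h2.1, h2.2]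

theorem exists_ne3 : ∀ k : Fin 3, ∃ j : Fin 3, j ≠ k := by decide

/-- **[BOXSEP2]**, face bodies -/
theorem boxsep2_face (hN : Near2 K Λ h v N k ζ q0 q1 o A μ η cu cd) {w : Fin 3 → ℤ} {T : Set ℝ}
    {y : ℝ → B → V} (hwk : w k = ζ) (hT : T ⊆ Ioo (35 / 36) (37 / 36))
    (hR : RectIn v N k q0 q1 (fa w k) (fb w))
    (hpos : PosY2 K h v N k ζ o A μ (sc v N w k) (fw2 N k) (fa w k) (fb w) T y) (z' : Fin 3 → ℤ)
    (hz' : z' k = ζ) {s : ℝ} (hs : s ∈ T) :
    IsPreconnected (frontier ((fBody2 v N k o A w T).at s) \ Obox2 v N k o A z') ∧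
      ∃ b ∈ cr2 K v N k ζ (fa w k) (fb w), y s b ∉ Obox2 v N k o A z' := by
  have hε : (0:ℝ) < 1 / 2 ^ N := by positivity
  obtain ⟨hs1, hs2⟩ := hT hs
  have hs0 : 0 < s := by linarith
  set ε : ℝ := 1 / 2 ^ N with hεd
  have hsc : ∀ (w : Fin 3 → ℤ) (j : Fin 3), j ≠ k → sc v N w k j = v j + (w j + 1 / 2) * ε :=
    fun w j hj => by simp only [sc, if_neg hj, hεd]; ring
  have hsck : ∀ (w : Fin 3 → ℤ), sc v N w k k = v k + w k * ε :=
    fun w => by simp only [sc, if_true, hεd]; ring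
  have hfw : ∀ j, j ≠ k → fw2 N k j = 9 / 4 * ε := fun j hj => by
    simp only [fw2, if_neg hj, hεd]; ring
  have hfwk : fw2 N k k = 3 / 4 * ε := by simp only [fw2, if_true, hεd]; ring
  have how : ∀ j, j ≠ k → ow2 N k j = 69 / 32 * ε := fun j hj => by
    simp only [ow2, if_neg hj, hεd]; ring
  have howk : ow2 N k k = 1 / 2 * ε := by simp only [ow2, if_true, hεd]; ring
  have hmO : ∀ y, y ∈ Obox2 v N k o A z' → ∀ j, j ≠ k → |A.symm (y - o) j - sc v N z' k j| ≤
      69 / 32 * ε := fun y hy j hj => by rw [← how j hj]; exact mem_Obox2.1 hy j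
  have hαβ : ∀ j, fa w k j < fb w j := fun j => by
    simp only [fa, fb]; split_ifs <;> omega
  have hX : (fBody2 v N k o A w T).at s = aff o A ''
      Icc (fun j => sc v N w k j - s * fw2 N k j) (fun j => sc v N w k j + s * fw2 N k j) :=
    at_Icc hs0
  have hst : s * (9 / 4 * ε) ≤ 37 / 16 * ε := by nlinarith
  have hst' : 35 / 16 * ε ≤ s * (9 / 4 * ε) := by nlinarith
  have hstk : 35 / 48 * ε ≤ s * (3 / 4 * ε) := by nlinarith
  -- integer difference of the centres
  have hm : ∀ j, j ≠ k → sc v N w k j - sc v N z' k j = ((w j - z' j : ℤ) : ℝ) * ε := by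
    intro j hj
    rw [hsc w j hj, hsc z' j hj]; push_cast; ring
  -- a crossing point in direction `j` outside
  have htop : ∀ j, j ≠ k → 0 ≤ w j - z' j → ∃ b ∈ cr2 K v N k ζ (fa w k) (fb w),
      y s b ∉ Obox2 v N k o A z' := by
    intro j hj h0
    obtain ⟨b, a, hb, hc, hai, hbc⟩ := exists_top2 hN.lat hR hj
    refine ⟨b, hbc, fun hy => ?_⟩
    have h1 := (hpos s hs b a j hb hc).2.1
    rw [if_pos hai, hfw j hj] at h1
    have h2 := (abs_le.1 (hmO _ hy j hj)).2
    rw [h1] at h2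
    have h3 := hm j hj
    have h4 : (0:ℝ) ≤ ((w j - z' j : ℤ) : ℝ) * ε := by
      have : (0:ℝ) ≤ ((w j - z' j : ℤ) : ℝ) := by exact_mod_cast h0
      positivity
    linarith
  have hbot : ∀ j, j ≠ k → w j - z' j ≤ 0 → ∃ b ∈ cr2 K v N k ζ (fa w k) (fb w),
      y s b ∉ Obox2 v N k o A z' := by
    intro j hj h0
    obtain ⟨b, a, hb, hc, hai, hbc⟩ := exists_bot2 hN.lat hR hj
    refine ⟨b, hbc, fun hy => ?_⟩
    have h1 := (hpos s hs b a j hb hc).2.1
    rw [if_neg (by rw [hai]; exact (hαβ j).ne), hfw j hj] at h1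
    have h2 := (abs_le.1 (hmO _ hy j hj)).1
    rw [h1] at h2
    have h3 := hm j hj
    have h4 : ((w j - z' j : ℤ) : ℝ) * ε ≤ (0:ℝ) := by
      have : ((w j - z' j : ℤ) : ℝ) ≤ 0 := by exact_mod_cast h0
      nlinarith
    linarith
  refine ⟨?_, ?_⟩
  · rw [hX, Obox2]
    have hab : ∀ j, sc v N w k j - s * fw2 N k j < sc v N w k j + s * fw2 N k j := by
      intro j
      have := mul_pos hs0 (fw2_pos N k j)
      linarith
    rw [← Homeomorph.image_frontier, ← image_sdiff (aff o A).injective]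
    refine IsPreconnected.image (specSep _ _ _ _ hab ?_).1 _ (aff o A).continuous.continuousOn
    by_cases h0 : ∀ j, j ≠ k → w j = z' j
    · left
      intro j
      by_cases hjk : j = k
      · subst hjk
        simp only [hsck, hfwk, howk]
        rw [hwk, hz']
        constructor <;> linarith
      · have h3 := hm j hjk
        rw [h0 j hjk, sub_self] at h3
        simp only [hfw j hjk, how j hjk]
        push_cast at h3
        constructor <;> linarith
    · right
      push Not at h0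
      obtain ⟨i, hik, hi⟩ := h0
      refine ⟨i, ?_⟩
      have h3 := hm i hik
      simp only [hfw i hik, how i hik]
      rcases lt_or_gt_of_ne hi with hi | hi
      · right
        have h4 : ((w i - z' i : ℤ) : ℝ) ≤ -1 := by
          have : w i - z' i ≤ -1 := by omega
          exact_mod_cast this
        have h5 : ((w i - z' i : ℤ) : ℝ) * ε ≤ -1 * ε := by nlinarith
        constructor <;> linarith
      · left
        have h4 : (1:ℝ) ≤ ((w i - z' i : ℤ) : ℝ) := by
          have : 1 ≤ w i - z' i := by omega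
          exact_mod_cast this
        have h5 : 1 * ε ≤ ((w i - z' i : ℤ) : ℝ) * ε := by nlinarith
        constructor <;> linarith
  · obtain ⟨j, hj⟩ := exists_ne3 k
    rcases le_total 0 (w j - z' j) with h0 | h0
    · exact htop j hj h0
    · exact hbot j hj h0

/-- **[BOXSEP2]**, the big body -/
theorem boxsep2_big (hN : Near2 K Λ h v N k ζ q0 q1 o A μ η cu cd)
    (h8 : ∀ j, j ≠ k → α j + 8 ≤ β j) {T0 : Set ℝ} {y0 : ℝ → B → V} (hT0 : BigT k α β T0)
    (hR : RectIn v N k q0 q1 α β)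
    (hpos : PosY2 K h v N k ζ o A μ (bc2 v N k ζ α β) (bw2 N k α β) α β T0 y0) (z' : Fin 3 → ℤ)
    (hz' : z' k = ζ) {s : ℝ} (hs : s ∈ T0) :
    IsPreconnected (frontier ((bigBody2 v N k ζ o A α β T0).at s) \ Obox2 v N k o A z') ∧
      ∃ b ∈ cr2 K v N k ζ α β, y0 s b ∉ Obox2 v N k o A z' := by
  have hε : (0:ℝ) < 1 / 2 ^ N := by positivity
  have hs0 := (hT0 s hs).1
  have hwall := fun j (hj : j ≠ k) => big_wall2 (N := N) hT0 hs hj (hR j hj).1
  set ε : ℝ := 1 / 2 ^ N with hεd
  have hsc : ∀ (w : Fin 3 → ℤ) (j : Fin 3), j ≠ k → sc v N w k j = v j + (w j + 1 / 2) * ε :=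
    fun w j hj => by simp only [sc, if_neg hj, hεd]; ring
  have hsck : sc v N z' k k = v k + ζ * ε := by simp only [sc, if_true, hεd, hz']; ring
  have how : ∀ j, j ≠ k → ow2 N k j = 69 / 32 * ε := fun j hj => by
    simp only [ow2, if_neg hj, hεd]; ring
  have howk : ow2 N k k = 1 / 2 * ε := by simp only [ow2, if_true, hεd]; ring
  have hmO : ∀ y, y ∈ Obox2 v N k o A z' → ∀ j, j ≠ k → |A.symm (y - o) j - sc v N z' k j| ≤
      69 / 32 * ε := fun y hy j hj => by rw [← how j hj]; exact mem_Obox2.1 hy j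
  have hbc : ∀ j, j ≠ k → bc2 v N k ζ α β j = v j + (α j + β j + 1) / 2 * ε := fun j hj => by
    simp only [bc2, if_neg hj, hεd]; ring
  have hbck : bc2 v N k ζ α β k = v k + ζ * ε := by simp only [bc2, if_true, ht, hεd]; ring
  have hbwk : bw2 N k α β k = 3 / 4 * ε := by simp only [bw2, if_true, hεd]; ring
  have hX : (bigBody2 v N k ζ o A α β T0).at s = aff o A ''
      Icc (fun j => bc2 v N k ζ α β j - s * bw2 N k α β j)
        (fun j => bc2 v N k ζ α β j + s * bw2 N k α β j) := at_Icc hs0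
  -- the level
  obtain ⟨i0, hi0⟩ := exists_ne3 k
  have hs1 : 31 / 32 ≤ s := by
    have h1 := (hT0 s hs).2 i0 hi0
    have h2 : (8:ℝ) ≤ (β i0 : ℝ) - α i0 := by
      have : (α i0 : ℝ) + 8 ≤ β i0 := by exact_mod_cast h8 i0 hi0
      linarith
    have h3 : |s - 1| * 8 ≤ 1 / 4 := (mul_le_mul_of_nonneg_left h2 (abs_nonneg _)).trans h1
    have h4 := (abs_le.1 (le_refl |s - 1|)).1
    linarith
  have hstk : 93 / 128 * ε ≤ s * (3 / 4 * ε) := by nlinarith
  -- the ends of the body
  have hlo : ∀ j, j ≠ k →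
      |(bc2 v N k ζ α β j - s * bw2 N k α β j) - (v j + (α j + 1 / 2) * ε)| ≤ 1 / 8 * ε := by
    intro j hj
    have h1 := abs_le.1 (hwall j hj)
    rw [hbc j hj, abs_le]
    constructor <;> linarith [h1.1, h1.2]
  have hhi : ∀ j, j ≠ k →
      |(bc2 v N k ζ α β j + s * bw2 N k α β j) - (v j + (β j + 1 / 2) * ε)| ≤ 1 / 8 * ε := by
    intro j hj
    have h1 := abs_le.1 (hwall j hj)
    rw [hbc j hj, abs_le]
    constructor <;> linarith [h1.1, h1.2]
  have htop : ∀ j, j ≠ k → z' j + 3 ≤ β j →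
      sc v N z' k j + 69 / 32 * ε < bc2 v N k ζ α β j + s * bw2 N k α β j := by
    intro j hj h0
    have h1 := abs_le.1 (hhi j hj)
    have h2 : (z' j : ℝ) + 3 ≤ β j := by exact_mod_cast h0
    have h3 : ((z' j : ℝ) + 3) * ε ≤ β j * ε := mul_le_mul_of_nonneg_right h2 hε.le
    rw [hsc z' j hj]
    linarith [h1.1]
  have hbot : ∀ j, j ≠ k → α j + 3 ≤ z' j →
      bc2 v N k ζ α β j - s * bw2 N k α β j < sc v N z' k j - 69 / 32 * ε := by
    intro j hj h0
    have h1 := abs_le.1 (hlo j hj)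
    have h2 : (α j : ℝ) + 3 ≤ z' j := by exact_mod_cast h0
    have h3 : ((α j : ℝ) + 3) * ε ≤ z' j * ε := mul_le_mul_of_nonneg_right h2 hε.le
    rw [hsc z' j hj]
    linarith [h1.2]
  have htop' : ∀ j, j ≠ k → β j ≤ z' j + 2 →
      bc2 v N k ζ α β j + s * bw2 N k α β j < sc v N z' k j + 69 / 32 * ε := by
    intro j hj h0
    have h1 := abs_le.1 (hhi j hj)
    have h2 : (β j : ℝ) ≤ z' j + 2 := by exact_mod_cast h0
    have h3 : (β j : ℝ) * ε ≤ (z' j + 2) * ε := mul_le_mul_of_nonneg_right h2 hε.le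
    rw [hsc z' j hj]
    linarith [h1.2]
  have hbot' : ∀ j, j ≠ k → z' j ≤ α j + 2 →
      sc v N z' k j - 69 / 32 * ε < bc2 v N k ζ α β j - s * bw2 N k α β j := by
    intro j hj h0
    have h1 := abs_le.1 (hlo j hj)
    have h2 : (z' j : ℝ) ≤ α j + 2 := by exact_mod_cast h0
    have h3 : (z' j : ℝ) * ε ≤ (α j + 2) * ε := mul_le_mul_of_nonneg_right h2 hε.le
    rw [hsc z' j hj]
    linarith [h1.1]
  have hab : ∀ j, bc2 v N k ζ α β j - s * bw2 N k α β j < bc2 v N k ζ α β j + s * bw2 N k α β j := by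
    intro j
    by_cases hj : j = k
    · subst hj
      rw [hbwk]
      have : 0 < s * (3 / 4 * ε) := by positivity
      linarith
    · have h1 := abs_le.1 (hlo j hj)
      have h2 := abs_le.1 (hhi j hj)
      have h3 : (α j : ℝ) + 8 ≤ β j := by exact_mod_cast h8 j hj
      have h4 : ((α j : ℝ) + 8) * ε ≤ β j * ε := mul_le_mul_of_nonneg_right h3 hε.le
      linarith [h1.2, h2.1]
  refine ⟨?_, ?_⟩
  · rw [hX, Obox2, ← Homeomorph.image_frontier, ← image_sdiff (aff o A).injective]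
    refine IsPreconnected.image (specSep _ _ _ _ hab ?_).1 _ (aff o A).continuous.continuousOn
    by_cases h0 : ∀ j, j ≠ k → α j + 3 ≤ z' j ∧ z' j + 3 ≤ β j
    · left
      intro j
      by_cases hjk : j = k
      · subst hjk
        simp only [hsck, hbck, hbwk, howk]
        constructor <;> linarith
      · simp only [how j hjk]
        exact ⟨hbot j hjk (h0 j hjk).1, htop j hjk (h0 j hjk).2⟩
    · right
      push Not at h0
      obtain ⟨i, hik, hi⟩ := h0
      have h8i := h8 i hik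
      refine ⟨i, ?_⟩
      simp only [how i hik]
      by_cases hi1 : α i + 3 ≤ z' i
      · right
        have := hi hi1
        exact ⟨hbot i hik hi1, htop' i hik (by omega)⟩
      · left
        exact ⟨hbot' i hik (by omega), htop i hik (by omega)⟩
  · have h80 := h8 i0 hi0
    by_cases h0 : z' i0 + 3 ≤ β i0
    · obtain ⟨b, a, hb, hc, hai, hbc'⟩ := exists_top2 hN.lat hR hi0
      refine ⟨b, hbc', fun hy => ?_⟩
      have h1 := (hpos s hs b a i0 hb hc).2.1
      rw [if_pos hai] at h1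
      have h2 := (abs_le.1 (hmO _ hy i0 hi0)).2
      have h3 := htop i0 hi0 h0
      rw [h1] at h2
      linarith
    · obtain ⟨b, a, hb, hc, hai, hbc'⟩ := exists_bot2 hN.lat hR hi0
      refine ⟨b, hbc', fun hy => ?_⟩
      have h1 := (hpos s hs b a i0 hb hc).2.1
      rw [if_neg (by rw [hai]; exact (hR i0 hi0).1.ne)] at h1
      have h2 := (abs_le.1 (hmO _ hy i0 hi0)).1
      have h3 := hbot i0 hi0 (by omega)
      rw [h1] at h2
      linarith

end P073.PL
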