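import Vale.Agent.P073.GB3.Circ4

/-!
# P073, CLEAN-E (helper407): removal of circles with control of more tiles

`circE` is `GB3.circ` with two more clauses: a tile `ix i` stays in `O i` also when the whole level
surface is in `O i`; a tile which misses all the levels is not moved.
-/

open Set Metric Topology Filter

namespace P073.GB3

open Vale.Agent.P073.St (V)

/-- removal of the circles, with control of the tiles `ix i` and of the tiles which miss all the
levels -/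
theorem circE (hA : SpecAlex) (hJ : SpecJS) (hP : SpecPush) {Ω Λ X1 X2 Z : Set V} {ι J : Type*}
    {τ bd : ι → Set V} {C S : J → Set V} (hX : Ctx Ω X1 X2 Z τ bd C S) {g : V → ℝ}
    (hg : ContinuousOn g Λ) {I : Type*} {ix : I → ι} {O : I → Set V} (Γ : ℝ → Set V) :
    ∀ (m : ℕ) (k : ConHomeo Ω Λ) (T : Set ℝ) (K : ℝ → Set (Set V)), ¬ T.Countable →
      (∀ t ∈ T, Lev X1 X2 τ bd (fun x => g (k.toFun x)) t (Γ t) (K t)) →
      (∀ t ∈ T, (K t).ncard ≤ m) → (∀ t ∈ T, JordanSch 2 {y | y ∈ Λ ∧ g y = t}) →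
      (∀ t ∈ T, ∀ x ∈ Ω, x ∈ Z → g (k.toFun x) ≠ t) →
      (∀ i, ∀ x ∈ τ (ix i), k.toFun x ∈ O i) →
      (∀ i, ∀ t ∈ T, {y | y ∈ Λ ∧ g y = t} ⊆ O i ∨
        (IsPreconnected ({y | y ∈ Λ ∧ g y = t} \ O i) ∧ ∃ x ∈ Γ t, k.toFun x ∉ O i)) →
      ∃ t ∈ T, ∃ k' : ConHomeo Ω Λ, {x | x ∈ X2 ∧ g (k'.toFun x) = t} = Γ t ∧
        (∀ x ∈ X1, k'.toFun x = k.toFun x) ∧ (∀ x ∈ Ω, x ∈ Z → k'.toFun x = k.toFun x) ∧
        (∀ x ∈ Γ t, ∀ᶠ y in 𝓝 x, y ∈ X2 → k'.toFun y = k.toFun y) ∧
        (∀ i, ∀ x ∈ τ (ix i), k'.toFun x ∈ O i) ∧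
        ∀ i, (∀ t ∈ T, ∀ x ∈ τ i, g (k.toFun x) ≠ t) → ∀ x ∈ τ i, k'.toFun x = k.toFun x := by
  intro m
  induction m with
  | zero =>
    intro k T K hT hL hm hS hZ hI hO
    obtain ⟨t, ht⟩ : T.Nonempty := by
      by_contra h
      exact hT (by rw [not_nonempty_iff_eq_empty.1 h]; exact countable_empty)
    have hK : K t = ∅ := by
      rw [← ncard_eq_zero (hL t ht).fin]
      exact Nat.le_zero.1 (hm t ht)
    refine ⟨t, ht, k, ?_, fun _ _ => rfl, fun _ _ _ => rfl,
      fun _ _ => Eventually.of_forall fun _ _ => rfl, hI, fun _ _ _ _ => rfl⟩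
    have := (hL t ht).eq
    rw [hK, sUnion_empty, union_empty] at this
    exact this
  | succ m ih =>
    intro k T K hT hL hm hS hZ hI hO
    by_cases hsmall : ({t | t ∈ T ∧ (K t).ncard ≤ m} : Set ℝ).Countable
    swap
    · obtain ⟨t, ht, k', h1, h2, h3, h4, h5, h6⟩ := ih k {t | t ∈ T ∧ (K t).ncard ≤ m} K hsmall
        (fun t ht => hL t ht.1) (fun t ht => ht.2) (fun t ht => hS t ht.1)
        (fun t ht => hZ t ht.1) hI (fun i t ht => hO i t ht.1)
      exact ⟨t, ht.1, k', h1, h2, h3, h4, h5, fun i hi => h6 i fun t ht => hi t ht.1⟩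
    -- the levels with `m + 1` circles
    set T1 : Set ℝ := {t | t ∈ T ∧ (K t).ncard = m + 1} with hT1
    have hT1c : ¬ T1.Countable := by
      intro h
      apply hT
      refine (hsmall.union h).mono ?_
      intro t ht
      rcases (hm t ht).lt_or_eq with h1 | h1
      · exact Or.inl ⟨ht, Nat.lt_succ_iff.1 h1⟩
      · exact Or.inr ⟨ht, h1⟩
    obtain ⟨t0, ⟨ht0, ht0K⟩, hcond⟩ := exists_condensation hT1c
    have hL0 := hL t0 ht0
    set u : V → ℝ := fun x => g (k.toFun x) with hu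
    have hucont : ContinuousOn u Ω := hg.comp k.cont k.mapsTo
    -- the sphere in the domain
    set Sp : Set V := {x | x ∈ Ω ∧ u x = t0} with hSp
    set St : Set V := {y | y ∈ Λ ∧ g y = t0} with hSt
    have hStΛ : St ⊆ Λ := fun y hy => hy.1
    have hSpim : k.invFun '' St = Sp := by
      ext x
      constructor
      · rintro ⟨y, ⟨hy, hyt⟩, rfl⟩
        refine ⟨k.mapsTo_inv hy, ?_⟩
        show g (k.toFun (k.invFun y)) = t0
        rw [k.right_inv hy]; exact hyt
      · rintro ⟨hx, hxt⟩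
        exact ⟨k.toFun x, ⟨k.mapsTo hx, hxt⟩, k.left_inv hx⟩
    have hne0 : (K t0).Nonempty := by
      rw [nonempty_iff_ne_empty]
      intro h
      rw [h, ncard_empty] at ht0K
      omega
    have hKX : ∀ t ∈ T, ∀ κ ∈ K t, κ ⊆ X2 ∧ ∀ x ∈ κ, u x = t := by
      intro t ht κ hκ
      have h1 : ∀ x ∈ κ, x ∈ X2 ∧ u x = t := by
        intro x hx
        have h2 : x ∈ Γ t ∪ ⋃₀ K t := Or.inr ⟨κ, hκ, hx⟩
        rw [← (hL t ht).eq] at h2
        exact h2
      exact ⟨fun x hx => (h1 x hx).1, fun x hx => (h1 x hx).2⟩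
    have hΓX : ∀ t ∈ T, ∀ x ∈ Γ t, x ∈ X2 ∧ u x = t := by
      intro t ht x hx
      have h2 : x ∈ Γ t ∪ ⋃₀ K t := Or.inl hx
      rw [← (hL t ht).eq] at h2
      exact h2
    have hJSp : JordanSch 2 Sp := by
      rw [← hSpim]
      obtain hh := hS t0 ht0
      -- `St` is conical
      obtain ⟨κ, hκ⟩ := hne0
      have hκ' : k.toFun '' κ ⊆ St := by
        rintro _ ⟨x, hx, rfl⟩
        have := hKX t0 ht0 κ hκ
        exact ⟨k.mapsTo (hX.sub (this.1 hx)), this.2 x hx⟩
      have hcs : ConicalSet St := by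
        obtain ⟨U, W, -, hUW, -, -, hUb, hWb⟩ := hh _ hκ'
          ((hL0.circle κ hκ).image k ((hKX t0 ht0 κ hκ).1.trans hX.sub))
        have h1 : St = (U ∪ k.toFun '' κ) ∪ (W ∪ k.toFun '' κ) := by
          have h2 : (U ∪ k.toFun '' κ) ∪ (W ∪ k.toFun '' κ) = (U ∪ W) ∪ k.toFun '' κ := by
            ext x; simp only [mem_union]; tauto
          rw [h2, hUW, sdiff_union_of_subset hκ']
        rw [h1]
        exact ((hUb.locCone).union (hWb.locCone)).conicalSet
      exact hh.image (k.symm.restr hcs hStΛ)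
    have hΓne : (Γ t0).Nonempty := hL0.ne.mono inter_subset_left
    obtain ⟨κ, hκ, e, he, heS, hΓe, hκe, hsepe⟩ := exists_innermost (S := Sp) (Γ := Γ t0) hJSp
      hL0.conn hΓne (fun x hx => ⟨hX.sub (hΓX t0 ht0 x hx).1, (hΓX t0 ht0 x hx).2⟩) hL0.fin hne0
      hL0.circle (fun κ hκ x hx => ⟨hX.sub ((hKX t0 ht0 κ hκ).1 hx), (hKX t0 ht0 κ hκ).2 x hx⟩)
      hL0.disj hL0.disjΓ
    have heΩ : e ⊆ Ω := fun x hx => (heS hx).1
    have heu : ∀ x ∈ e, u x = t0 := fun x hx => (heS hx).2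
    have heX : ∀ x ∈ e, x ∈ X2 → x ∈ κ := by
      intro x hx hx2
      have h1 : x ∈ Γ t0 ∪ ⋃₀ K t0 := by rw [← hL0.eq]; exact ⟨hx2, heu x hx⟩
      rcases h1 with h1 | ⟨κ', hκ', h1⟩
      · exact absurd hx (Set.disjoint_left.1 hΓe h1)
      · by_cases hh : κ' = κ
        · rw [← hh]; exact h1
        · exact absurd hx (Set.disjoint_left.1 (hκe κ' hκ' hh) h1)
    -- the disc in the face
    obtain ⟨i0, hi0⟩ := hL0.inFace κ hκ
    obtain ⟨d, hd, hdτ, hdcl⟩ := exists_disc_of_circle hJ (hX.disc i0) hi0 (hL0.circle κ hκ)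
    have hκd : κ ⊆ d := hd.1
    have hdX : d ⊆ X2 := fun x hx => hX.face i0 (hdτ hx).1
    have hdo : ∀ x ∈ Ω, x ∈ closure (X2 \ (d \ κ)) → x ∈ X2 \ (d \ κ) := by
      intro x hx hcl
      have h2 : x ∈ X2 := hX.closed2 x hx (closure_mono sdiff_subset hcl)
      refine ⟨h2, fun hxd => ?_⟩
      have h3 : X2 \ (d \ κ) ⊆ (X2 \ τ i0) ∪ (τ i0 \ (d \ κ)) := by
        intro y hy
        by_cases hyt : y ∈ τ i0
        · exact Or.inr ⟨hyt, hy.2⟩
        · exact Or.inl ⟨hy.1, hyt⟩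
      have h4 := closure_mono h3 hcl
      rw [closure_union] at h4
      rcases h4 with h4 | h4
      · exact hX.openFace i0 x (hdτ hxd.1) h4
      · rw [hdcl.closure_eq] at h4
        exact h4.2 hxd
    -- the cell
    obtain ⟨j0, hj0⟩ : ∃ j, e \ κ ⊆ C j \ S j := by
      obtain ⟨x, hx⟩ := he.diff_nonempty
      have hx2 : x ∉ X2 := fun h => hx.2 (heX x hx.1 h)
      obtain ⟨j, hj⟩ := hX.cells x (heΩ hx.1) hx2
      refine ⟨j, ?_⟩
      have hcov : e \ κ ⊆ (C j \ S j) ∪ (C j)ᶜ := by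
        intro y hy
        by_cases hyC : y ∈ C j
        · exact Or.inl ⟨hyC, fun h => hy.2 (heX y hy.1 (hX.cbd j h))⟩
        · exact Or.inr hyC
      rcases he.isPreconnected_diff.subset_or_subset (hX.copen j)
        (hX.ball j).isClosed.isOpen_compl (by
          rw [Set.disjoint_left]; intro y hy hy'; exact hy' hy.1) hcov with h | h
      · exact h
      · exact absurd hj (h hx)
    have hκC : κ ⊆ C j0 := by
      -- `κ ⊆ e = closure`: the circle is in the closure of the open disc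
      intro x hx
      by_contra hn
      have hxe : x ∈ e := he.1 hx
      -- the points of `e` near `x` are off `C j0`, hence on `κ`
      have hne' : e ⊆ κ ∪ C j0 := by
        intro y hy
        by_cases hyκ : y ∈ κ
        · exact Or.inl hyκ
        · exact Or.inr (hj0 ⟨hy, hyκ⟩).1
      exact hn (he.subset_of_diff_subset (hX.ball j0).isClosed
        (fun y hy => (hj0 hy).1) hxe)
    have hτS : τ i0 ⊆ S j0 := by
      obtain ⟨x, hx⟩ := (hL0.circle κ hκ).nonempty
      exact hX.fc i0 j0 ⟨x, hi0 hx, hκC hx⟩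
    have hdS : d ⊆ S j0 := fun x hx => hτS (hdτ hx).1
    -- the protected set misses `e` and `d`
    have hZe : Disjoint Z e := by
      rw [Set.disjoint_left]
      intro z hz hze
      exact hZ t0 ht0 z (heΩ hze) hz (heu z hze)
    have hκu : ∀ x ∈ κ, u x = t0 := (hKX t0 ht0 κ hκ).2
    have hZd : Disjoint Z d := by
      rw [Set.disjoint_left]
      intro z hz hzd
      obtain ⟨P, hP1, hP2, hP3, w, hwP, hwb⟩ := hX.Zface i0 z ⟨hz, (hdτ hzd).1⟩
      have hPκ : Disjoint P κ := by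
        rw [Set.disjoint_left]
        intro y hy hyκ
        exact hZ t0 ht0 y (hX.sub (hdX (hκd hyκ))) (hP2 hy).1 (hκu y hyκ)
      rcases subset_or_disjoint hd.isClosed hX.sub hdo hP1
        (fun y hy => hX.face i0 (hP2 hy).2) hPκ with h | h
      · exact (hdτ (h hwP)).2 hwb
      · exact Set.disjoint_left.1 h hP3 hzd
    obtain ⟨Ψ, hΨ1, hΨ2, hΨ3⟩ := exists_swap hA hP hX.openΩ hX.cone2 (hX.ball j0) (hX.csub j0)
      (hX.copen j0) (hX.cint j0) hd hdS hdo he hj0 hX.Zclosed hZe hZd (hX.Zcell j0)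
    -- the function `u` on `d`
    have hdpre : IsPreconnected d := hd.isPreconnected
    have hducont : ContinuousOn u d := hucont.mono (hdX.trans hX.sub)
    have hΓd : ∀ t ∈ T, Disjoint (Γ t) d := by
      intro t ht
      have hκΓ : Disjoint (Γ t) κ := by
        rw [Set.disjoint_left]
        intro x hx hxκ
        have h1 := (hΓX t ht x hx).2
        rw [hκu x hxκ] at h1
        rw [← h1] at hx
        exact Set.disjoint_left.1 (hL0.disjΓ κ hκ) hx hxκ
      rcases subset_or_disjoint hd.isClosed hX.sub hdo (hL t ht).conn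
        (fun x hx => (hΓX t ht x hx).1) hκΓ with h | h
      · exfalso
        obtain ⟨x, hx, hx1⟩ := (hL t ht).ne
        exact Set.disjoint_left.1 (hX.off1 i0) (hdτ (h hx)) hx1
      · exact h
    obtain ⟨x1, hx1d, hx1⟩ : ∃ x ∈ d, u x ≠ t0 := by
      by_contra hcon
      push Not at hcon
      have hsub : d ⊆ ⋃ κ' : K t0, (κ' : Set V) := by
        intro x hx
        have h1 : x ∈ Γ t0 ∪ ⋃₀ K t0 := by rw [← hL0.eq]; exact ⟨hdX hx, hcon x hx⟩
        rcases h1 with h1 | ⟨κ', hκ', h1⟩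
        · exact absurd hx (Set.disjoint_left.1 (hΓd t0 ht0) h1)
        · exact mem_iUnion.2 ⟨⟨κ', hκ'⟩, h1⟩
      have : Finite (K t0) := hL0.fin
      obtain ⟨y, hy⟩ := (hL0.circle κ hκ).nonempty
      have h2 := IsPreconnected.subset_of_finite hdpre (fun κ' : K t0 => (κ' : Set V))
        (fun κ' => (hL0.circle _ κ'.2).isCompact.isClosed) hsub
        (fun i j hij => hL0.disj _ i.2 _ j.2 fun h => hij (Subtype.ext h))
        (j₀ := ⟨κ, hκ⟩) (hκd hy) hy
      obtain ⟨z, hz⟩ := hd.diff_nonempty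
      exact hz.2 (h2 hz.1)
    -- the new levels
    obtain ⟨T2, hT2c, hT2sub, hT2d⟩ : ∃ T2 : Set ℝ, ¬ T2.Countable ∧ T2 ⊆ T1 \ {t0} ∧
        ∀ t ∈ T2, ∃ x ∈ d, u x = t := by
      obtain ⟨y0, hy0⟩ := (hL0.circle κ hκ).nonempty
      have hiv : Set.uIcc (u x1) t0 ⊆ u '' d := by
        have h1 := hdpre.image u hducont
        have h2 : u x1 ∈ u '' d := mem_image_of_mem _ hx1d
        have h3 : t0 ∈ u '' d := ⟨y0, hκd hy0, hκu y0 hy0⟩
        exact h1.ordConnected.uIcc_subset h2 h3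
      rcases lt_or_gt_of_ne hx1 with h | h
      · refine ⟨T1 ∩ Ioo (u x1) t0, ?_, ?_, ?_⟩
        · have := (hcond (t0 - u x1) (by linarith)).1
          rwa [sub_sub_cancel] at this
        · rintro t ⟨ht, h1, h2⟩; exact ⟨ht, h2.ne⟩
        · rintro t ⟨ht, h1, h2⟩
          have : t ∈ uIcc (u x1) t0 := by rw [uIcc_of_le h.le]; exact ⟨h1.le, h2.le⟩
          obtain ⟨x, hx, hxt⟩ := hiv this
          exact ⟨x, hx, hxt⟩
      · refine ⟨T1 ∩ Ioo t0 (u x1), ?_, ?_, ?_⟩
        · have := (hcond (u x1 - t0) (by linarith)).2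
          rwa [add_sub_cancel] at this
        · rintro t ⟨ht, h1, h2⟩; exact ⟨ht, h1.ne'⟩
        · rintro t ⟨ht, h1, h2⟩
          have : t ∈ uIcc (u x1) t0 := by rw [uIcc_of_ge h.le]; exact ⟨h1.le, h2.le⟩
          obtain ⟨x, hx, hxt⟩ := hiv this
          exact ⟨x, hx, hxt⟩
    have hT2T : ∀ t ∈ T2, t ∈ T ∧ t ≠ t0 ∧ (K t).ncard = m + 1 := fun t ht =>
      ⟨(hT2sub ht).1.1, (hT2sub ht).2, (hT2sub ht).1.2⟩
    -- circles are inside or outside
    have hcirc : ∀ t ∈ T, t ≠ t0 → ∀ κ' ∈ K t, κ' ⊆ d ∨ Disjoint κ' d := by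
      intro t ht hne κ' hκ'
      refine subset_or_disjoint hd.isClosed hX.sub hdo ((hL t ht).circle κ' hκ').isPreconnected
        (hKX t ht κ' hκ').1 ?_
      rw [Set.disjoint_left]
      intro x hx hxκ
      exact hne (((hKX t ht κ' hκ').2 x hx).symm.trans (hκu x hxκ))
    -- the new map
    set k1 : ConHomeo Ω Λ := Ψ.trans k with hk1
    have hk1id : ∀ x ∈ X2, x ∉ d → k1.toFun x = k.toFun x := by
      intro x hx hxd
      show k.toFun (Ψ.toFun x) = k.toFun x
      rw [hΨ1 x (hX.sub hx) hx fun h => hxd h.1]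
    have hk1d : ∀ x ∈ d, ∃ y ∈ e, k1.toFun x = k.toFun y := by
      intro x hx
      refine ⟨Ψ.toFun x, ?_, rfl⟩
      rw [← hΨ3]; exact mem_image_of_mem _ hx
    have hlev : ∀ t ∈ T, t ≠ t0 → {x | x ∈ X2 ∧ g (k1.toFun x) = t} =
        {x | x ∈ X2 ∧ u x = t} \ d := by
      intro t ht hne
      ext x
      constructor
      · rintro ⟨hx, hxt⟩
        have hxd : x ∉ d := by
          intro hxd
          obtain ⟨y, hy, hxy⟩ := hk1d x hxd
          rw [hxy] at hxt
          exact hne (hxt.symm.trans (heu y hy))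
        rw [hk1id x hx hxd] at hxt
        exact ⟨⟨hx, hxt⟩, hxd⟩
      · rintro ⟨⟨hx, hxt⟩, hxd⟩
        refine ⟨hx, ?_⟩
        rw [hk1id x hx hxd]; exact hxt
    have hk1X1 : ∀ x ∈ X1, k1.toFun x = k.toFun x := by
      intro x hx
      exact hk1id x (hX.sub1 hx) fun h => Set.disjoint_left.1 (hX.off1 i0) (hdτ h) hx
    have hk1Z : ∀ x ∈ Ω, x ∈ Z → k1.toFun x = k.toFun x := by
      intro x hx hxZ
      show k.toFun (Ψ.toFun x) = k.toFun x
      rw [hΨ2 x hx hxZ]
    have hk1Γ' : ∀ t ∈ T, ∀ x ∈ Γ t, ∀ᶠ y in 𝓝 x, y ∈ X2 → k1.toFun y = k.toFun y := by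
      intro t ht x hx
      filter_upwards [hd.isClosed.isOpen_compl.mem_nhds (Set.disjoint_left.1 (hΓd t ht) hx)]
        with y hy hy2
      exact hk1id y hy2 hy
    have hk1Γ : ∀ t ∈ T, ∀ x ∈ Γ t, k1.toFun x = k.toFun x := fun t ht x hx =>
      hk1id x (hΓX t ht x hx).1 (Set.disjoint_left.1 (hΓd t ht) hx)
    -- tiles which miss all levels are not moved
    have hfar : ∀ i, (∀ t ∈ T, ∀ x ∈ τ i, g (k.toFun x) ≠ t) → ∀ x ∈ τ i,
        k1.toFun x = k.toFun x := by
      intro i hi x hx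
      refine hk1id x (hX.face i hx) fun hxd => ?_
      have hii : i = i0 := by
        by_contra hne
        exact Set.disjoint_left.1 (hX.off2 i0 i (Ne.symm hne)) (hdτ hxd) hx
      obtain ⟨y, hy⟩ := (hL0.circle κ hκ).nonempty
      exact hi t0 ht0 y (by rw [hii]; exact (hi0 hy).1) (hκu y hy)
    obtain ⟨t, ht, k', h1, h2, h3, h4, h5, h6⟩ := ih k1 T2 (fun t => K t \ {κ' | κ' ⊆ d}) hT2c
      (fun t ht => by
        obtain ⟨htT, hne, -⟩ := hT2T t ht
        have hLt := hL t htT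
        refine ⟨?_, hLt.conn, hLt.ne, hLt.fin.subset sdiff_subset, fun κ' h => hLt.circle κ' h.1,
          fun κ' h => hLt.inFace κ' h.1, fun κ' h κ'' h' => hLt.disj κ' h.1 κ'' h'.1,
          fun κ' h => hLt.disjΓ κ' h.1⟩
        rw [hlev t htT hne]
        rw [show ({x | x ∈ X2 ∧ u x = t} : Set V) = Γ t ∪ ⋃₀ K t from hLt.eq]
        ext x
        constructor
        · rintro ⟨hx | ⟨κ', hκ', hx⟩, hxd⟩
          · exact Or.inl hx
          · exact Or.inr ⟨κ', ⟨hκ', fun h => hxd (h hx)⟩, hx⟩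
        · rintro (hx | ⟨κ', ⟨hκ', hnd⟩, hx⟩)
          · exact ⟨Or.inl hx, Set.disjoint_left.1 (hΓd t htT) hx⟩
          · refine ⟨Or.inr ⟨κ', hκ', hx⟩, ?_⟩
            rcases hcirc t htT hne κ' hκ' with h | h
            · exact absurd h hnd
            · exact Set.disjoint_left.1 h hx)
      (fun t ht => by
        obtain ⟨htT, hne, hcard⟩ := hT2T t ht
        obtain ⟨x, hx, hxt⟩ := hT2d t ht
        have h6 : x ∈ Γ t ∪ ⋃₀ K t := by rw [← (hL t htT).eq]; exact ⟨hdX hx, hxt⟩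
        rcases h6 with h6 | ⟨κ', hκ', h6⟩
        · exact absurd hx (Set.disjoint_left.1 (hΓd t htT) h6)
        · have h7 : κ' ⊆ d := by
            rcases hcirc t htT hne κ' hκ' with h | h
            · exact h
            · exact absurd hx (Set.disjoint_left.1 h h6)
          have h8 : (K t \ {κ' | κ' ⊆ d}).ncard < (K t).ncard := by
            refine ncard_lt_ncard ?_ (hL t htT).fin
            refine ⟨sdiff_subset, fun hh => ?_⟩
            exact (hh hκ').2 h7
          show (K t \ {κ' | κ' ⊆ d}).ncard ≤ m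
          omega)
      (fun t ht => hS t (hT2T t ht).1)
      (fun t ht x hx hxZ => by
        rw [hk1Z x hx hxZ]; exact hZ t (hT2T t ht).1 x hx hxZ)
      (fun i x hx => by
        by_cases hxd : x ∈ d
        swap
        · rw [hk1id x (hX.face _ hx) hxd]; exact hI i x hx
        have hii : ix i = i0 := by
          by_contra hne
          exact Set.disjoint_left.1 (hX.off2 i0 _ (Ne.symm hne)) (hdτ hxd) hx
        obtain ⟨y, hy, hxy⟩ := hk1d x hxd
        rw [hxy]
        by_contra hyO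
        rcases hO i t0 ht0 with hsubO | ⟨hpre, z, hz, hzO⟩
        · exact hyO (hsubO ⟨k.mapsTo (heΩ hy), heu y hy⟩)
        have hA' : Disjoint {x | x ∈ Sp ∧ k.toFun x ∉ O i} e := by
          have himg : {x | x ∈ Sp ∧ k.toFun x ∉ O i} = k.invFun '' (St \ O i) := by
            ext w
            constructor
            · rintro ⟨⟨hw, hwt⟩, hwO⟩
              exact ⟨k.toFun w, ⟨⟨k.mapsTo hw, hwt⟩, hwO⟩, k.left_inv hw⟩
            · rintro ⟨v, ⟨⟨hv, hvt⟩, hvO⟩, rfl⟩
              refine ⟨⟨k.mapsTo_inv hv, ?_⟩, ?_⟩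
              · show g (k.toFun (k.invFun v)) = t0
                rw [k.right_inv hv]; exact hvt
              · rw [k.right_inv hv]; exact hvO
          refine hsepe _ (fun w hw => hw.1) ?_ ?_ ?_
          · rw [himg]
            exact hpre.image _ (k.cont_inv.mono fun w hw => hw.1.1)
          · rw [Set.disjoint_left]
            intro w hw hwκ
            exact hw.2 (hI i w (by rw [hii]; exact (hi0 hwκ).1))
          · exact ⟨z, ⟨⟨hX.sub (hΓX t0 ht0 z hz).1, (hΓX t0 ht0 z hz).2⟩, hzO⟩, hz⟩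
        exact Set.disjoint_left.1 hA' ⟨heS hy, hyO⟩ hy)
      (fun i t ht => by
        rcases hO i t (hT2T t ht).1 with h6 | ⟨h6, z, hz, hzO⟩
        · exact Or.inl h6
        refine Or.inr ⟨h6, z, hz, ?_⟩
        rw [hk1Γ t (hT2T t ht).1 z hz]; exact hzO)
    have htT := (hT2T t ht).1
    exact ⟨t, htT, k', h1, fun x hx => (h2 x hx).trans (hk1X1 x hx),
      fun x hx hxZ => (h3 x hx hxZ).trans (hk1Z x hx hxZ),
      fun x hx => by
        filter_upwards [h4 x hx, hk1Γ' t htT x hx] with y hy hy' hy2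
        exact (hy hy2).trans (hy' hy2), h5, fun i hi x hx => by
        rw [h6 i (fun t ht x hx => by
          rw [hfar i hi x hx]; exact hi t (hT2T t ht).1 x hx) x hx, hfar i hi x hx]⟩

end P073.GB3
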