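import Vale.Agent.P073.H407.GBE
import Vale.Agent.P073.H407.BoxSep
import Vale.Agent.P073.H244.Hull
import Vale.Agent.P073.GBM.CellCore
import Vale.Agent.P073.Gauge.Cells110

/-!
# P073, GAP-CLOSE (helper407): `cell_core` with control of the size
-/

open Set Metric Topology Filter MeasureTheory
open scoped ENNReal NNReal

namespace P073.Cell

open P073 P073.PR720 P073.GB73 P073.GBM P073.Gauge P073.GB1W
open Vale.Agent.P073.St (V)
open Vale.Agent.P073.AB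
open Vale.Agent.P073.SQ (ev)
open P073.Net (dyc dyo)

variable {Vx B J I : Type} {e0 e1 : B → Vx} {inc : B → J → Prop} {qC : J → I → Prop} {Ω : Set V}

theorem dyc_injective {v : V} {n : ℕ} {z z' : Fin 3 → ℤ} (h : dyc v n z = dyc v n z') : z = z' := by
  have hp : (0:ℝ) < 2 ^ n := by positivity
  have h1 : ∀ z : Fin 3 → ℤ, cc v n z ∈ interior (dyc v n z) := by
    intro z
    rw [Gauge.C110.interior_dyc]
    intro k
    simp only [cc]
    constructor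
    · rw [add_lt_add_iff_left, div_lt_div_iff_of_pos_right hp]; linarith
    · rw [add_lt_add_iff_left, div_lt_div_iff_of_pos_right hp]; linarith
  by_contra hne
  exact Set.disjoint_left.1 (Gauge.C110.disjoint_dyc v n hne) (h ▸ interior_subset (h1 z)) (h1 z)

/-- a fine cube which meets the interior of a coarse cube is in it -/
theorem dyc_subset_of_inter {v : V} {n₂ k₁ k₀ : ℕ} {z z' : Fin 3 → ℤ}
    (h : (dyc v (gN n₂ k₁ k₀) z' ∩ interior (dyc v n₂ z)).Nonempty) :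
    dyc v (gN n₂ k₁ k₀) z' ⊆ dyc v n₂ z := by
  obtain ⟨x, hx, hx'⟩ := h
  rw [Gauge.C110.interior_dyc] at hx'
  have hd : (0:ℝ) < 1 / 2 ^ (gN n₂ k₁ k₀) := by positivity
  have e : gN n₂ k₁ k₀ = n₂ + (k₁ + k₀) := by unfold gN; ring
  rw [e]
  apply Gauge.C110.dyc_subset_of
  intro k
  have h1 := hx k
  have h2 := hx' k
  have e1 : (z k : ℝ) / 2 ^ n₂ = z k * 2 ^ (k₁ + k₀) * (1 / 2 ^ (gN n₂ k₁ k₀)) := by
    rw [div_eq_mul_one_div, Dd n₂ k₁ k₀]; ring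
  have e2 : ((z k : ℝ) + 1) / 2 ^ n₂ = (z k + 1) * 2 ^ (k₁ + k₀) * (1 / 2 ^ (gN n₂ k₁ k₀)) := by
    rw [div_eq_mul_one_div, Dd n₂ k₁ k₀]; ring
  have e3 : (z' k : ℝ) / 2 ^ (gN n₂ k₁ k₀) = z' k * (1 / 2 ^ (gN n₂ k₁ k₀)) := by ring
  have e4 : ((z' k : ℝ) + 1) / 2 ^ (gN n₂ k₁ k₀) = (z' k + 1) * (1 / 2 ^ (gN n₂ k₁ k₀)) := by ring
  rw [e3, e4] at h1
  rw [e1, e2] at h2
  constructor
  · have h3 : (z k : ℝ) * 2 ^ (k₁ + k₀) * (1 / 2 ^ (gN n₂ k₁ k₀)) <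
        (z' k + 1) * (1 / 2 ^ (gN n₂ k₁ k₀)) := by linarith [h1.2, h2.1]
    have h4 : (z k : ℝ) * 2 ^ (k₁ + k₀) < z' k + 1 := lt_of_mul_lt_mul_right h3 hd.le
    have h5 : z k * 2 ^ (k₁ + k₀) < z' k + 1 := by exact_mod_cast h4
    omega
  · have h3 : (z' k : ℝ) * (1 / 2 ^ (gN n₂ k₁ k₀)) <
        (z k + 1) * 2 ^ (k₁ + k₀) * (1 / 2 ^ (gN n₂ k₁ k₀)) := by linarith [h1.1, h2.2]
    have h4 : (z' k : ℝ) < (z k + 1) * 2 ^ (k₁ + k₀) := lt_of_mul_lt_mul_right h3 hd.le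
    have h5 : z' k < (z k + 1) * 2 ^ (k₁ + k₀) := by exact_mod_cast h4
    omega

theorem cell_coreE (hS1 : SpecS1) (hS2 : SpecS2) (hS3 : SpecS3) (hVert : SpecVert)
    (hBd : SpecBdIn) {K : Cx3 e0 e1 inc qC Ω} {Λ : Set V} {h : ConHomeo Ω Λ} (hΩ : IsOpen Ω)
    (hΛ : IsOpen Λ) {v : V} {n₂ k₁ k₀ : ℕ} {z : Fin 3 → ℤ} {o : V} {A : V ≃L[ℝ] V} {μ η : ℝ}
    (H : Near K Λ h.toFun v (gN n₂ k₁ k₀) (qlo v n₂ z) (qhi v n₂ z) o A μ η)
    (hk₁ : 3 ≤ k₁) (hk₀ : 3 ≤ k₀) (hμ : μ ≤ 1 / 8 / 2 ^ (gN n₂ k₁ k₀))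
    (hη1 : 450 * ((2 * μ + η) / (9 / 4 / 2 ^ (gN n₂ k₁ k₀))) < 1 / 18)
    (hη2 : 3 * ((RR k₁ k₀ : ℝ) + 1) ^ 3 * ((2 * μ + η) / (RR k₁ k₀ / 2 / 2 ^ (gN n₂ k₁ k₀))) <
      1 / (2 * RR k₁ k₀))
    (hcl : ∀ x ∈ dyc v n₂ z, ‖A.symm (h.toFun x - o) - x‖ ≤ μ)
    {ρ ε : ℝ} (hρ : CollarPropE (lo v n₂ k₁ k₀ z) (hi v n₂ k₁ k₀ z) (mg n₂ k₁ k₀)
      (mpt v n₂ k₁ k₀ z) ρ ε) (hρd : 4 / 2 ^ (gN n₂ k₁ k₀) ≤ ρ)
    {Z : Set V} (hZ : Prot K Z) (hZd : Disjoint Z (interior (dyc v n₂ z)))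
    (hZh : ∀ x ∈ Z, ¬ Reg (gN n₂ k₁ k₀) (qlo v n₂ z) (qhi v n₂ z) o A (h.toFun x)) :
    ∃ (h3 : ConHomeo Ω Λ) (Lt : V → V) (χ : B → V → V) (p : B → V),
      CoreOut K h.toFun v n₂ k₁ k₀ z o A μ Z h3.toFun Lt χ p ∧
      (∀ x ∈ Icc (lo v n₂ k₁ k₀ z) (hi v n₂ k₁ k₀ z),
        ‖A.symm (h3.toFun x - o) - x‖ ≤ μ + 1 / 8 / 2 ^ (gN n₂ k₁ k₀) + ε) ∧
      ∀ x ∈ interior (dyc v n₂ z), x ∉ interior (Icc (lo v n₂ k₁ k₀ z) (hi v n₂ k₁ k₀ z)) →
        ‖A.symm (h3.toFun x - o) - x‖ ≤ 3 / 2 ^ (gN n₂ k₁ k₀) := by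
  classical
  have hR := RR_ge hk₁ hk₀
  have h8 := pow_k0R hk₀
  have h64 := pow_k1R (k₀ := k₀) hk₁
  have hd : (0:ℝ) < 1 / 2 ^ (gN n₂ k₁ k₀) := by positivity
  set N := gN n₂ k₁ k₀ with hN
  set α := al k₁ k₀ z with hα
  set β := be k₁ k₀ z with hβ
  have hβα : ∀ k, β k = α k + RR k₁ k₀ := fun k => be_eq k
  have hαβ : ∀ k, α k < β k := fun k => by rw [hβα k]; linarith
  have hαβ8 : ∀ k, α k + 8 ≤ β k := fun k => by rw [hβα k]; linarith
  have hnear : ∀ {w : ℝ} {k : Fin 3}, (α k : ℝ) ≤ w → w ≤ β k + 1 →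
      qlo v n₂ z k + 8 / 2 ^ N ≤ v k + w / 2 ^ N ∧ v k + w / 2 ^ N ≤ qhi v n₂ z k - 8 / 2 ^ N :=
    fun h1 h2 => near_box hk₀ h1 h2
  -- the box in the cell
  have hin : ∀ k, qlo v n₂ z k + 8 / 2 ^ N ≤ hp v N α k ∧ hp v N β k ≤ qhi v n₂ z k - 8 / 2 ^ N := by
    intro k
    have h1 : (α k : ℝ) < β k := by exact_mod_cast hαβ k
    exact ⟨(hnear (w := α k + 1 / 2) (k := k) (by linarith) (by linarith)).1,
      (hnear (w := β k + 1 / 2) (k := k) (by linarith) (by linarith)).2⟩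
  have e8 : (8:ℝ) / 2 ^ N = 8 * (1 / 2 ^ N) := by ring
  have e4 : (4:ℝ) / 2 ^ N = 4 * (1 / 2 ^ N) := by ring
  have e2 : (2:ℝ) / 2 ^ N = 2 * (1 / 2 ^ N) := by ring
  have hdyc : dyc v n₂ z = Icc (qlo v n₂ z) (qhi v n₂ z) := dyc_eq_Icc v n₂ z
  -- levels of the big body
  obtain ⟨T0, hT0, hgood0, hfr, hpat0, y0, hcr0, hpos0⟩ := big_levels specLev H hμ
    (R := RR k₁ k₀) (by linarith) hβα hη2 (fun k => by
      have := hin k
      rw [e8] at this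
      rw [e2]
      constructor <;> linarith [this.1, this.2])
  set P0 := crossed K (hbox v N α β) with hP0
  have hPfin : P0.Finite := hpat0.fin
  -- faces
  set Fs : Set J := {j | ∃ b ∈ P0, inc b j} with hFs
  have hFfin : Fs.Finite := finite_faces K hPfin
  have hface : ∀ j, ∃ (w : Fin 3 → ℤ) (l : Fin 3) (T : Set ℝ) (y : ℝ → B → V), j ∈ Fs →
      K.tile j = squ v ((N, w), l) ∧
      (∃ a k, CrossZ α β a k ∧ edge v ((N, a), k) ⊆ squ v ((N, w), l)) ∧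
      (∀ i, α i ≤ w i ∧ w i ≤ β i) ∧
      T ⊆ Ioo (35 / 36) (37 / 36) ∧ (fBody v N o A w l T).Good Λ ∧
      frontier (hbox v N (fa w l) (fb w)) ⊆ interior (Icc (qlo v n₂ z) (qhi v n₂ z)) ∧
      Pat inc (crossed K (hbox v N (fa w l) (fb w))) ∧
      (∀ t ∈ T, Crosses K.toGraph h.toFun ((fBody v N o A w l T).at t)
        (crossed K (hbox v N (fa w l) (fb w))) (y t)) ∧
      PosY K h.toFun v N o A μ (sc v N w l) (fw N) (fa w l) (fb w) T y := by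
    intro j
    by_cases hj : j ∈ Fs
    · obtain ⟨b, hb, hbj⟩ := id hj
      obtain ⟨w, l, h1, h2, h3, -⟩ := face_data H.lat hαβ hfr hb hbj
      obtain ⟨T, h4, h5, h6, h7, y, h8, h9⟩ := face_levels specLev H hμ hη1 (w := w) (l := l)
        (fun k => by
          have h3k := h3 k
          have h3a : (α k : ℝ) ≤ w k := by exact_mod_cast h3k.1
          have h3b : (w k : ℝ) ≤ β k := by exact_mod_cast h3k.2
          have := hnear (w := w k + if k = l then 0 else 1 / 2) (k := k)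
            (by split_ifs <;> linarith) (by split_ifs <;> linarith)
          rw [e8] at this
          rw [e4]
          unfold sc
          constructor <;> linarith [this.1, this.2])
      exact ⟨w, l, T, y, fun _ => ⟨h1, h2, h3, h4, h5, h6, h7, h8, h9⟩⟩
    · exact ⟨0, 0, ∅, fun _ _ => 0, fun h => absurd h hj⟩
  choose fwi fl fT fy hF using hface
  -- crossing points, marked edges
  obtain ⟨p, hcut, hpm⟩ := exists_cut K v N α β
  set M : Set B := {b | ∃ a k, K.arc b = edge v ((N, a), k) ∧ Marked k₁ k₀ z a k} with hM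
  have hMP : M ⊆ P0 := by
    rintro b ⟨a, k, h1, h2⟩
    exact (H.lat.mem_crossed_of hαβ hfr h1).2 h2.1
  have hpM : p '' M = mpt v n₂ k₁ k₀ z := by
    ext x
    constructor
    · rintro ⟨b, ⟨a, k, h1, h2⟩, rfl⟩
      exact ⟨a, k, h2, hpm b a k h1⟩
    · rintro ⟨a, k, h2, rfl⟩
      obtain ⟨b, hb⟩ := H.lat.exists_arc hαβ hfr h2.1
      exact ⟨b, ⟨a, k, hb, h2⟩, hpm b a k hb⟩
  -- model maps
  obtain ⟨⟨L, hL⟩, ⟨χ, hχ⟩, hmark⟩ := specMod Vx B J I e0 e1 inc qC Ω K Λ h.toFun v n₂ k₁ k₀ z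
    (qlo v n₂ z) (qhi v n₂ z) o A μ η H hk₁ hk₀ hμ (fun k => by
      have := hin k
      rw [e8] at this
      unfold lo hi
      constructor <;> linarith [this.1, this.2]) T0 y0 p hT0 hpos0 hcut
  -- the box is inside the cell
  have hint : interior (Icc (qlo v n₂ z) (qhi v n₂ z)) =
      {x | ∀ k, qlo v n₂ z k < x k ∧ x k < qhi v n₂ z k} := interior_Icc_pi' _ _
  have hboxin : Icc (lo v n₂ k₁ k₀ z) (hi v n₂ k₁ k₀ z) ⊆
      interior (Icc (qlo v n₂ z) (qhi v n₂ z)) := by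
    rw [hint]
    intro x hx k
    have h1 := hx.1 k
    have h2 := hx.2 k
    have h3 := hin k
    rw [e8] at h3
    unfold lo at h1
    unfold hi at h2
    constructor <;> linarith [h3.1, h3.2]
  -- the cut of the domain
  have hdom : DomCut K (Icc (lo v n₂ k₁ k₀ z) (hi v n₂ k₁ k₀ z)) P0 p := by
    refine GB371.specDomCut' Vx B J I e0 e1 inc qC Ω K v N _ H.lat α β hαβ ?_ p hcut
    rw [hint]
    intro x hx k
    have h1 := hx.1 k
    have h2 := hx.2 k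
    have h0 : (α k : ℝ) < β k := by exact_mod_cast hαβ k
    have h3 := (hnear (w := α k) (k := k) le_rfl (by linarith)).1
    have h4 := (hnear (w := β k + 1) (k := k) (by linarith) le_rfl).2
    unfold pt at h1 h2
    push_cast at h2
    rw [e8] at h3 h4
    constructor <;> linarith
  -- cells at the boundary of the box
  have hcell : ∀ c, ¬ Disjoint (K.cell c) (frontier (Icc (lo v n₂ k₁ k₀ z) (hi v n₂ k₁ k₀ z))) →
      ∃ z', K.cell c = dyc v N z' ∧ (dyc v N z' ∩ frontier (hbox v N α β)).Nonempty := by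
    intro c hc
    rw [Set.not_disjoint_iff] at hc
    obtain ⟨x, hx1, hx2⟩ := hc
    obtain ⟨z', hz'⟩ := H.lat.cell c ⟨x, hx1, hfr hx2⟩
    exact ⟨z', hz', x, hz' ▸ hx1, hx2⟩
  -- bodies are in the region
  have hregF : ∀ j ∈ Fs, ∀ t ∈ fT j, ∀ y ∈ (fBody v N o A (fwi j) (fl j) (fT j)).at t,
      Reg N (qlo v n₂ z) (qhi v n₂ z) o A y := by
    intro j hj t ht y hy
    obtain ⟨-, -, h3, h4, -⟩ := hF j hj
    have ht' := h4 ht
    refine reg_of_body (by linarith [ht'.1]) (fun k => ?_) hy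
    have h3k := h3 k
    have h3a : (α k : ℝ) ≤ fwi j k := by exact_mod_cast h3k.1
    have h3b : (fwi j k : ℝ) ≤ β k := by exact_mod_cast h3k.2
    have h5 := hnear (w := fwi j k + if k = fl j then 0 else 1 / 2) (k := k)
      (by split_ifs <;> linarith) (by split_ifs <;> linarith)
    rw [e8] at h5
    have h6 : t * fw N k ≤ 3 * (1 / 2 ^ N) := by
      unfold fw
      have : t * (9 / 4 / 2 ^ N) = t * (9 / 4) * (1 / 2 ^ N) := by ring
      rw [this]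
      exact mul_le_mul_of_nonneg_right (by linarith [ht'.2]) hd.le
    unfold sc
    constructor <;> linarith [h5.1, h5.2]
  have hreg0 : ∀ t ∈ T0, ∀ y ∈ (bigBody v N o A α β T0).at t,
      Reg N (qlo v n₂ z) (qhi v n₂ z) o A y := by
    intro t ht y hy
    obtain ⟨ht0, ht1⟩ := hT0 t ht
    refine reg_of_body ht0 (fun k => ?_) hy
    have h1 := ht1 k
    have h3 := hin k
    rw [e8] at h3
    have h4 : |t * bw N α β k - bw N α β k| ≤ 1 / 2 ^ N := by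
      have h0 : (α k : ℝ) < β k := by exact_mod_cast hαβ k
      have : t * bw N α β k - bw N α β k = (t - 1) * (β k - α k) * (1 / 2 / 2 ^ N) := by
        unfold bw; ring
      rw [this, abs_mul, abs_mul, abs_of_nonneg (by linarith : (0:ℝ) ≤ β k - α k),
        abs_of_nonneg (by positivity : (0:ℝ) ≤ 1 / 2 / 2 ^ N)]
      calc |t - 1| * (β k - α k) * (1 / 2 / 2 ^ N) ≤ 1 / 4 * (1 / 2 / 2 ^ N) :=
            mul_le_mul_of_nonneg_right h1 (by positivity)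
        _ = 1 / 8 * (1 / 2 ^ N) := by ring
        _ ≤ 1 / 2 ^ N := by linarith
    have h5 := abs_le.1 h4
    have h7 : bc v N α β k - bw N α β k = hp v N α k := by
      unfold bc bw hp; ring
    have h8 : bc v N α β k + bw N α β k = hp v N β k := by
      unfold bc bw hp; ring
    constructor <;> linarith [h3.1, h3.2, h5.1, h5.2]
  have hN4 : (2:ℝ) ^ (k₁ + k₀) = 2 ^ k₁ * 2 ^ k₀ := pow_add _ _ _
  have hm : 0 < mg n₂ k₁ k₀ := by
    rw [mg_apply]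
    exact mul_pos (by linarith) hd
  have hab : ∀ i, 2 * mg n₂ k₁ k₀ < hi v n₂ k₁ k₀ z i - lo v n₂ k₁ k₀ z i := by
    intro i
    rw [mg_apply, hi_apply, lo_apply]
    have : (0:ℝ) < (2 ^ (k₁ + k₀) - 4 * 2 ^ k₀) * (1 / 2 ^ N) := mul_pos (by linarith) hd
    linarith
  have hF' : ∀ j, j ∈ hFfin.toFinset ↔ j ∈ Fs := fun j => hFfin.mem_toFinset
  -- separation
  have hsep : ∀ σ ∈ Fs, ∀ τ ∈ Fs, σ ≠ τ → ∀ t ∈ fT σ, ∀ s ∈ fT τ,
      IsPreconnected (frontier ((fBody v N o A (fwi τ) (fl τ) (fT τ)).at s) \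
        interior ((fBody v N o A (fwi σ) (fl σ) (fT σ)).at t)) ∧
      ∃ b ∈ crossed K (hbox v N (fa (fwi τ) (fl τ)) (fb (fwi τ))),
        fy τ s b ∉ interior ((fBody v N o A (fwi σ) (fl σ) (fT σ)).at t) := by
    intro σ hσ τ hτ hne
    obtain ⟨s1, s2, s3, s4, s5, s6, s7, s8, s9⟩ := hF σ hσ
    obtain ⟨r1, r2, r3, r4, r5, r6, r7, r8, r9⟩ := hF τ hτ
    refine hS1 Vx B J I e0 e1 inc qC Ω K Λ h.toFun v N _ _ o A μ η H (fwi σ) (fwi τ) (fl σ) (fl τ)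
      (fT σ) (fT τ) (fy τ) ?_ s4 r4 r6 r9
    intro heq
    apply hne
    apply tile_injective K
    rw [s1, r1]
    have e1' := congrArg Prod.fst heq
    have e2' := congrArg Prod.snd heq
    simp only at e1' e2'
    rw [e1', e2']
  have hsep0 : ∀ σ ∈ Fs, ∀ t ∈ fT σ, ∀ s ∈ T0,
      IsPreconnected (frontier ((bigBody v N o A α β T0).at s) \
        interior ((fBody v N o A (fwi σ) (fl σ) (fT σ)).at t)) ∧
      ∃ b ∈ P0, y0 s b ∉ interior ((fBody v N o A (fwi σ) (fl σ) (fT σ)).at t) := by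
    intro σ hσ
    obtain ⟨s1, ⟨a, k, s2, s2'⟩, s3, s4, s5, s6, s7, s8, s9⟩ := hF σ hσ
    exact hS2 Vx B J I e0 e1 inc qC Ω K Λ h.toFun v N _ _ o A μ η H α β (fwi σ) a (fl σ) k
      (fT σ) T0 y0 hαβ8 s2 s2' s4 hT0 hfr hpos0
  -- boundaries of the faces
  have hsq : ∀ j ∈ Fs, squ v ((N, fwi j), fl j) ⊆ interior (Icc (qlo v n₂ z) (qhi v n₂ z)) := by
    intro j hj
    obtain ⟨-, -, s3, -⟩ := hF j hj
    rw [hint]
    intro x hx k
    have h3a : (α k : ℝ) ≤ fwi j k := by exact_mod_cast (s3 k).1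
    have h3b : (fwi j k : ℝ) ≤ β k := by exact_mod_cast (s3 k).2
    have h3 := (hnear (w := fwi j k) (k := k) h3a (by linarith)).1
    have h4 := (hnear (w := fwi j k + 1) (k := k) (by linarith) (by linarith)).2
    rw [e8] at h3 h4
    rw [mem_squ] at hx
    have h5 : pt v N (fwi j) k ≤ x k ∧ x k ≤ pt v N (fwi j) k + 1 / 2 ^ N := by
      by_cases hk : k = fl j
      · rw [hk, hx.1]; exact ⟨le_rfl, by linarith⟩
      · exact hx.2 k hk
    rw [pt_succ] at h5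
    unfold pt at h5
    constructor <;> linarith [h5.1, h5.2]
  have hbd : ∀ σ ∈ Fs, ∀ t ∈ fT σ, h.toFun '' (K.toCx2.bd σ) ⊆
      interior ((fBody v N o A (fwi σ) (fl σ) (fT σ)).at t) := by
    intro σ hσ
    obtain ⟨s1, s2, s3, s4, s5, s6, s7, s8, s9⟩ := hF σ hσ
    exact hBd Vx B J I e0 e1 inc qC Ω K Λ h.toFun v N _ _ o A μ η H hμ σ (fwi σ) (fl σ) (fT σ) s1
      (hsq σ hσ) s4
  -- vertices
  have hvert : ∀ t ∈ T0, ∀ u, K.y u ∈ interior (Icc (lo v n₂ k₁ k₀ z) (hi v n₂ k₁ k₀ z)) ↔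
      h.toFun (K.y u) ∈ interior ((bigBody v N o A α β T0).at t) :=
    hVert Vx B J I e0 e1 inc qC Ω K Λ h.toFun v N _ _ o A μ η H hμ α β T0 hαβ hT0 (fun k => by
      have := hin k
      rw [e8] at this
      rw [e2]
      constructor <;> linarith [this.1, this.2])
  -- the `W` sets
  have hW : ∀ c, ¬ Disjoint (K.cell c) (frontier (Icc (lo v n₂ k₁ k₀ z) (hi v n₂ k₁ k₀ z))) →
      ∃ W : Set V,
      (∀ j, qC j c → {i | inc i j ∧ i ∈ P0} ≠ ∅ → j ∈ hFfin.toFinset ∧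
        ∀ t ∈ fT j, (fBody v N o A (fwi j) (fl j) (fT j)).at t ⊆ W) ∧
      ∀ t : T0, IsPreconnected (frontier ((bigBody v N o A α β T0).at t) \ W) ∧
        (∃ i ∈ P0, p i ∉ K.cell c ∧ y0 t i ∉ W) ∧
        ∀ x ∈ K.cell c ∩ frontier (Icc (lo v n₂ k₁ k₀ z) (hi v n₂ k₁ k₀ z)),
        ∀ x' ∈ frontier (Icc (lo v n₂ k₁ k₀ z) (hi v n₂ k₁ k₀ z)),
          (L t).toFun x' ∈ W → ‖x' - x‖ ≤ ρ := by
    intro c hc
    obtain ⟨z', hz1, hz2⟩ := hcell c hc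
    obtain ⟨w1, w2, w3⟩ := hS3 Vx B J I e0 e1 inc qC Ω K Λ h.toFun v N _ _ o A μ η H α β z' T0 y0
      hαβ8 hT0 hfr hpos0 hz2
    refine ⟨Wset v N o A z', fun j hj hne => ?_, fun t => ⟨(w2 t t.2).1, ?_, ?_⟩⟩
    · obtain ⟨b, hb1, hb2⟩ := Set.nonempty_iff_ne_empty.2 hne
      have hjF : j ∈ Fs := ⟨b, hb2, hb1⟩
      obtain ⟨s1, s2, s3, s4, s5, s6, s7, s8, s9⟩ := hF j hjF
      refine ⟨(hF' j).2 hjF, fun t ht => w1 (fwi j) (fl j) ?_ (fT j) s4 t ht⟩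
      rw [← s1, ← hz1]
      exact (qC_iff K j c).1 hj
    · obtain ⟨b, a, k, b1, b2, b3, b4⟩ := (w2 t t.2).2
      refine ⟨b, (H.lat.mem_crossed_of hαβ hfr b1).2 b2, ?_, b4⟩
      rw [hpm b a k b1, hz1]
      exact b3
    · rintro x ⟨hx, -⟩ x' hx' hxW
      rw [hz1] at hx
      have c1 := w3 x hx _ hxW
      have c2 := (hL t).2.2.1 x' (isClosed_Icc.frontier_subset hx')
      have c3 : x' - x = (A.symm ((L t).toFun x' - o) - x) - (A.symm ((L t).toFun x' - o) - x') := by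
        abel
      rw [c3]
      refine (norm_sub_le _ _).trans ?_
      have c4 : (7:ℝ) / 2 / 2 ^ N = 7 / 2 * (1 / 2 ^ N) := by ring
      have c5 : (1:ℝ) / 8 / 2 ^ N = 1 / 8 * (1 / 2 ^ N) := by ring
      rw [c4] at c1
      rw [c5] at c2 hμ
      rw [e4] at hρd
      linarith
  -- the other tiles
  let G : Type := {i : J × I // qC i.1 i.2 ∧ ∃ z', K.cell i.2 = dyc v N z' ∧
    dyc v N z' ⊆ dyc v n₂ z}
  let zG : G → Fin 3 → ℤ := fun i => i.2.2.choose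
  have hzG : ∀ i : G, K.cell i.1.2 = dyc v N (zG i) ∧ dyc v N (zG i) ⊆ dyc v n₂ z :=
    fun i => i.2.2.choose_spec
  let O : G → Set V := fun i => Obox v N o A (zG i)
  have hO : ∀ i : G, h.toFun '' K.tile i.1.1 ⊆ O i := by
    rintro i _ ⟨x, hx, rfl⟩
    have h1 : x ∈ dyc v N (zG i) := by
      rw [← (hzG i).1]
      exact (qC_iff K _ _).1 i.2.1 hx
    exact mem_Obox_of_close h1 ((hcl x ((hzG i).2 h1)).trans hμ)
  -- the block
  obtain ⟨h3, t, g1, g2, g3, g4, g5, g6, h', g7, -, g8⟩ := GB932.specGBE Vx B J I e0 e1 inc qC Ω Λ K h hΩ hΛ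
    (lo v n₂ k₁ k₀ z) (hi v n₂ k₁ k₀ z) (mg n₂ k₁ k₀) hm hab hFfin.toFinset
    (fun j => fBody v N o A (fwi j) (fl j) (fT j))
    (fun j => crossed K (hbox v N (fa (fwi j) (fl j)) (fb (fwi j)))) fy
    (bigBody v N o A α β T0) P0 y0 p M L
    (fun σ hσ => (hF σ ((hF' σ).1 hσ)).2.2.2.2.1) hgood0
    (fun σ hσ => (hF σ ((hF' σ).1 hσ)).2.2.2.2.2.2.1) hpat0
    (fun σ hσ => (hF σ ((hF' σ).1 hσ)).2.2.2.2.2.2.2.1) hcr0
    (fun σ hσ => hbd σ ((hF' σ).1 hσ))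
    (fun σ hσ τ hτ => hsep σ ((hF' σ).1 hσ) τ ((hF' τ).1 hτ))
    (fun σ hσ => hsep0 σ ((hF' σ).1 hσ)) hdom hvert hMP
    (by
      rintro b ⟨a, k, b1, b2⟩
      exact ⟨k, hmark b a k b1 b2⟩)
    (by
      rintro t b ⟨a, k, b1, b2⟩
      exact (hL t).1 b a k b1 b2)
    ρ ε (by rw [hpM]; exact hρ) hW
    χ (fun t => (hχ t).1) (fun t => (hχ t).2.1) (fun t => (hχ t).2.2.1) (fun t => (hχ t).2.2.2.1)
    Z hZ (by
      rw [Set.disjoint_left] at hZd ⊢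
      intro x hx hx'
      exact hZd hx (hdyc ▸ hboxin hx'))
    (by
      intro c hc
      obtain ⟨z', hz1, x, hx1, hx2⟩ := hcell c hc
      rw [Set.disjoint_left] at hZd ⊢
      intro y hy hy'
      refine hZd hy ?_
      rw [hz1] at hy'
      rw [hdyc, hint]
      intro k
      have a1 := hx1 k
      have a2 := hy' k
      have a3 := (mem_frontier_hbox.1 hx2).1 k
      have a4 := hin k
      rw [e8] at a4
      have a5 : ((z' k : ℝ) + 1) / 2 ^ N = z' k / 2 ^ N + 1 / 2 ^ N := by ring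
      rw [a5] at a1 a2
      constructor <;> linarith [a1.1, a1.2, a2.1, a2.2, a3.1, a3.2, a4.1, a4.2])
    (fun σ hσ s hs => by
      rw [Set.disjoint_left]
      rintro _ ⟨x, hx, rfl⟩ hx'
      exact hZh x hx (hregF σ ((hF' σ).1 hσ) s hs _ hx'))
    (fun s hs => by
      rw [Set.disjoint_left]
      rintro _ ⟨x, hx, rfl⟩ hx'
      exact hZh x hx (hreg0 s hs _ hx'))
    G (fun i => i.1.1) O hO
    (fun i σ hσ t ht => by
      obtain ⟨s1, s2, s3, s4, s5, s6, s7, s8, s9⟩ := hF σ ((hF' σ).1 hσ)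
      exact Or.inr (boxsep_face H s4 s6 s9 (zG i) ht))
    (fun i t ht => Or.inr (boxsep_big H hαβ8 hT0 hfr hpos0 (zG i) ht))
    (mg n₂ k₁ k₀ / 2) (by linarith) (by linarith)
  refine ⟨h3, (L t).toFun, fun b => (χ t b).toFun, p, ?_, ?_, ?_⟩
  rotate_left
  · intro x hx
    obtain ⟨x', hx', c1, c2⟩ := g6 x hx
    rw [c2]
    have c3 := (hL t).2.2.1 x' hx'
    have c4 : A.symm ((L t).toFun x' - o) - x = (A.symm ((L t).toFun x' - o) - x') + (x' - x) := by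
      abel
    rw [c4]
    exact (norm_add_le _ _).trans (add_le_add c3 c1)
  · intro x hx hxi
    have hxΩ : x ∈ Ω := H.lat.sub (hdyc ▸ hx)
    have hxc : x ∈ ⋃ c, K.cell c := by rw [K.cover]; exact hxΩ
    obtain ⟨c, hc⟩ := mem_iUnion.1 hxc
    obtain ⟨z', hz'⟩ := H.lat.cell c ⟨x, hc, hdyc ▸ hx⟩
    have hsub : dyc v N z' ⊆ dyc v n₂ z := by
      have h1 : (dyc v N z' ∩ interior (dyc v n₂ z)).Nonempty := ⟨x, hz' ▸ hc, hx⟩
      exact dyc_subset_of_inter h1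
    have h2 : ∀ y ∈ GB3.cbd K c, h'.toFun y ∈ Obox v N o A z' := by
      intro y hy
      obtain ⟨j, hj, hyj⟩ := mem_iUnion₂.1 hy
      let i : G := ⟨(j, c), hj, z', hz', hsub⟩
      have h3 : zG i = z' := by
        have h4 := (hzG i).1
        exact dyc_injective (h4.symm.trans hz')
      have h5 : h'.toFun y ∈ O i := g7 i (mem_image_of_mem _ hyj)
      rw [← h3]
      exact h5
    obtain ⟨y, hy, hye⟩ := g8 c x hc hxi
    rw [← hye]
    have h6 := H244.cell_image_subset K h' hΩ hΛ c (isClosed_Obox z') (convex_Obox z') h2 hy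
    exact Obox_close (hz' ▸ hc) h6
  refine ⟨hcut, fun b x hx => (χ t b).mapsTo hx, (hχ t).2.2.1, (hχ t).1, (hχ t).2.1,
    (hχ t).2.2.2.2, g1, ?_, ?_, (hL t).2.2.1, (hL t).2.2.2, ?_, g2⟩
  · intro x hx
    have h1 := boxR_margin (k₀ := k₀) hx
    rw [g4 x ⟨fun k => by have := (h1 k).1; linarith, fun k => by have := (h1 k).2; linarith⟩,
      (hL t).2.1 x hx]
  · intro b a k b1 b2 x hx hxp hxj
    exact g5 b ⟨a, k, b1, b2⟩ x hx hxp ⟨k, (hmark b a k b1 b2).1, hxj⟩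
  · intro x hx
    exact hreg0 t t.2 _ (g3 ▸ mem_image_of_mem _ hx)

end P073.Cell
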