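import Vale.Agent.P073.PL.Spec

/-!
# P073, PLATE-E (helper407): the collar for plates with control of the size, definitions
-/

open Set Metric Topology Filter

namespace P073.GB932

open P073 P073.PR720 P073.GB73
open Vale.Agent.P073.St (V)

/-- `Collar2` with the clause: the points of the middle plane are moved by at most `ε` in the
directions `i ≠ k` -/
def Collar2E (a b : V) (k : Fin 3) (m : ℝ) (X : Set V) (ρ ε : ℝ) : Prop :=
  ∀ φ : ConHomeo (frontier (Icc a b)) (frontier (Icc a b)),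
    (∀ x ∈ X, φ.toFun x = x) →
    (∀ x ∈ rim a b k, ∀ i, i ≠ k → |φ.toFun x i - x i| ≤ ρ) →
    ∀ θ, 0 < θ → θ < m → ∃ Φ : ConHomeo (Icc a b) (Icc a b),
      (EqOn Φ.toFun φ.toFun (frontier (Icc a b)) ∨
        EqOn Φ.toFun (fun x => refl a b k (φ.toFun x)) (frontier (Icc a b))) ∧
      (∀ x ∈ shr a b θ, Φ.toFun x = x) ∧
      (∀ x ∈ X, ∀ z ∈ Icc a b, ‖z - x‖ ≤ m →
        (∃ i, i ≠ k ∧ (x i = a i ∨ x i = b i) ∧ (∀ j ≠ i, z j = x j)) → Φ.toFun z = z) ∧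
      ∀ x ∈ Icc a b, 2 * x k = a k + b k → ∀ i, i ≠ k → |Φ.toFun x i - x i| ≤ ε

end P073.GB932

namespace P073.PL

open P073 P073.PR720 P073.GB73 P073.GBM P073.Gauge P073.GB1W P073.Cell P073.Plate
open Vale.Agent.P073.St (V)
open Vale.Agent.P073.AB

/-- **(U2E)** uniform collar for plates with control of the size: `SpecU2` with
`ε = 1 / 2 ^ (n₂ + k₁)`. -/
def SpecU2E : Prop :=
  ∀ k₁ : ℕ, 3 ≤ k₁ → ∃ ρ > 0, ∀ (v : V) (n₂ k₀ : ℕ) (z : Fin 3 → ℤ)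
    (k : Fin 3) (d : ℝ), 1 ≤ k₀ → 0 < d →
    GB932.Collar2E (plo v n₂ k₁ k₀ z k d) (phi v n₂ k₁ k₀ z k d) k (mg n₂ k₁ k₀)
      (mpt2 v n₂ k₁ k₀ z k) (ρ / 2 ^ (n₂ + k₁)) (1 / 2 ^ (n₂ + k₁))

end P073.PL
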