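import Vale.Agent.P073.GB932.Plate
import Vale.Agent.P073.H407.CleanE2
import Vale.Agent.P073.H407.Defs2E

/-!
# P073, PLATE-E (helper407): the block GB for plates with control of the size
-/

open Set Metric Topology Filter

namespace P073.GB932

open P073 P073.PR720 P073.GB73
open Vale.Agent.P073.St (V)

/-- **(GB2E)** `SpecGB2` with control of the size: the collar map moves the points of the middle
plane by at most `ε` in the directions `i ≠ k`; the tiles `ix i` stay in the sets `O i`, outside of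
the box; tiles whose image misses the surfaces are not moved. -/
def SpecGB2E : Prop :=
  ∀ (Vx B J I : Type) (e0 e1 : B → Vx) (inc : B → J → Prop) (qC : J → I → Prop) (Ω Λ : Set V)
    (K : Cx3 e0 e1 inc qC Ω) (h : ConHomeo Ω Λ), IsOpen Ω → IsOpen Λ →
  ∀ (k : Fin 3) (a b : V) (m : ℝ),
  ∀ (F : Finset J) (A : J → Body) (P : J → Set B) (y : J → ℝ → B → V)
    (A0 : Body) (P0 : Set B) (y0 : ℝ → B → V) (p : B → V) (M : Set B)
    (L : (t : A0.T) → ConHomeo (Icc a b) (A0.at t)),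
    (∀ σ ∈ F, (A σ).Good Λ) → A0.Good Λ → (∀ σ ∈ F, Pat inc (P σ)) → Pat inc P0 →
    (∀ σ ∈ F, ∀ t ∈ (A σ).T, Crosses K.toGraph h.toFun ((A σ).at t) (P σ) (y σ t)) →
    (∀ t ∈ A0.T, Crosses K.toGraph h.toFun (A0.at t) P0 (y0 t)) →
    (∀ σ ∈ F, ∀ t ∈ (A σ).T, h.toFun '' (K.toCx2.bd σ) ⊆ interior ((A σ).at t)) →
    (∀ σ ∈ F, ∀ τ ∈ F, σ ≠ τ → ∀ t ∈ (A σ).T, ∀ s ∈ (A τ).T,
      IsPreconnected (frontier ((A τ).at s) \ interior ((A σ).at t)) ∧
      ∃ b ∈ P τ, y τ s b ∉ interior ((A σ).at t)) →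
    (∀ σ ∈ F, ∀ t ∈ (A σ).T, ∀ s ∈ A0.T,
      IsPreconnected (frontier (A0.at s) \ interior ((A σ).at t)) ∧
      ∃ b ∈ P0, y0 s b ∉ interior ((A σ).at t)) →
    DomCut K (Icc a b) P0 p →
    (∀ t ∈ A0.T, ∀ v, K.y v ∈ interior (Icc a b) ↔ h.toFun (K.y v) ∈ interior (A0.at t)) →
    -- marked points
    M ⊆ P0 →
    (∀ t : A0.T, ∀ i ∈ M, y0 t i = (L t).toFun (p i)) →
    -- closeness on the rim: `ρ` is the number of `SpecCollar2`
  ∀ ρ ε : ℝ, Collar2E a b k m (p '' M) ρ ε →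
    (∀ x ∈ rim a b k, ∃ j ∈ F, x ∈ K.tile j ∧ ∀ s ∈ (A j).T, ∀ t : A0.T,
      ∀ z ∈ frontier (Icc a b), (L t).toFun z ∈ (A j).at s → ∀ i, i ≠ k → |z i - x i| ≤ ρ) →
  ∀ χ : (t : A0.T) → (i : B) → ConHomeo (K.arc i) (K.arc i),
    (∀ t i, (χ t i).toFun (K.y (e0 i)) = K.y (e0 i)) →
    (∀ t i, (χ t i).toFun (K.y (e1 i)) = K.y (e1 i)) →
    (∀ t, ∀ i ∉ P0, ∀ x ∈ K.arc i, (χ t i).toFun x = x) →
    (∀ t : A0.T, ∀ i ∈ P0, h.toFun ((χ t i).toFun (p i)) = y0 t i) →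
    -- protected set
  ∀ Z, Prot K Z → Disjoint Z (Icc a b) →
    (∀ c, ¬ Disjoint (K.cell c) (frontier (Icc a b)) → Disjoint Z (K.cell c)) →
    (∀ σ ∈ F, ∀ s ∈ (A σ).T, Disjoint (h.toFun '' Z) ((A σ).at s)) →
    (∀ s ∈ A0.T, Disjoint (h.toFun '' Z) (A0.at s)) →
    -- the other tiles
  ∀ (G : Type) (ix : G → J) (O : G → Set V), (∀ i, h.toFun '' K.tile (ix i) ⊆ O i) →
    (∀ i, ∀ σ ∈ F, ∀ t ∈ (A σ).T, frontier ((A σ).at t) ⊆ O i ∨
      (IsPreconnected (frontier ((A σ).at t) \ O i) ∧ ∃ b ∈ P σ, y σ t b ∉ O i)) →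
    (∀ i, ∀ t ∈ A0.T, frontier (A0.at t) ⊆ O i ∨
      (IsPreconnected (frontier (A0.at t) \ O i) ∧ ∃ b ∈ P0, y0 t b ∉ O i)) →
  ∀ θ, 0 < θ → θ < m →
    ∃ (h3 : ConHomeo Ω Λ) (t : A0.T) (r : V → V), (r = id ∨ r = refl a b k) ∧
      (∀ i, ∀ x ∈ K.arc i, x ∉ interior (Icc a b) → h3.toFun x = h.toFun ((χ t i).toFun x)) ∧
      EqOn h3.toFun h.toFun Z ∧
      h3.toFun '' Icc a b = A0.at t ∧
      (∀ x ∈ shr a b θ, h3.toFun x = (L t).toFun (r x)) ∧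
      (∀ i ∈ M, ∀ z ∈ Icc a b, ‖z - p i‖ ≤ m → 2 * z k = a k + b k →
        (∃ l, l ≠ k ∧ (p i l = a l ∨ p i l = b l) ∧ (∀ j ≠ l, z j = p i j)) →
        h3.toFun z = (L t).toFun z) ∧
      -- control of the size
      (∀ x ∈ Icc a b, 2 * x k = a k + b k → ∃ x' ∈ Icc a b, (∀ i, i ≠ k → |x' i - x i| ≤ ε) ∧
        h3.toFun x = (L t).toFun x') ∧
      ∃ h' : ConHomeo Ω Λ, (∀ i, h'.toFun '' K.tile (ix i) ⊆ O i) ∧
        (∀ j, (∀ σ ∈ F, ∀ t ∈ (A σ).T, Disjoint (h.toFun '' K.tile j) (frontier ((A σ).at t))) →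
          (∀ t ∈ A0.T, Disjoint (h.toFun '' K.tile j) (frontier (A0.at t))) →
          EqOn h'.toFun h.toFun (K.tile j)) ∧
        (∀ j, ∀ x ∈ K.tile j, x ∉ interior (Icc a b) → h3.toFun x ∈ h'.toFun '' K.tile j) ∧
        ∀ c, Disjoint (K.cell c) (frontier (Icc a b)) → ∀ x ∈ K.cell c, x ∉ interior (Icc a b) →
          h3.toFun x = h'.toFun x

/-- **(GB2E)** composition. -/
theorem specGB2E_of (hclean : GB3.SpecCleanE) (hcut : SpecCut') : SpecGB2E := by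
  intro Vx B J I e0 e1 inc qC Ω Λ K h hΩ hΛ k a b m F A P y A0 P0 y0 p M L hA hA0 hP hP0 hc hc0
    hbd hsep hsep0 hdom hv hM hyL ρ ε hcol hrim χ χ0 χ1 χ2 χ3 Z hZ hZR hZc hZF hZ0 G ix O hO hOs
    hOs0 θ hθ hθm
  obtain ⟨h', t, t0, ht, ht0, harc, hZ', htile, hu0, hcr, hd, hG, hfar⟩ := hclean Vx B J I e0 e1 inc
    qC Ω Λ K h hΩ hΛ F A P y A0 P0 y0 hA hA0 hP hP0 hc hc0 hbd hsep hsep0 Z hZ hZF hZ0 G ix O hO hOs
    hOs0
  have hA0c : IsCompact (A0.at t0) := isCompact_at hA0 t0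
  have hA0Λ : A0.at t0 ⊆ Λ := hA0.sub t0 ht0
  have hball : ConBall 3 (A0.at t0) (frontier (A0.at t0)) := hA0.ball t0 ht0
  have hyarc : ∀ v, ∃ i, K.y v ∈ K.arc i := by
    intro v
    obtain ⟨i, hi⟩ := K.vert_arc v
    rcases hi with rfl | rfl
    · exact ⟨i, (K.ball i).1 (Or.inl rfl)⟩
    · exact ⟨i, (K.ball i).1 (Or.inr rfl)⟩
  have hhy : ∀ v, h'.toFun (K.y v) = h.toFun (K.y v) := fun v => by
    obtain ⟨i, hi⟩ := hyarc v
    exact harc i hi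
  have hcr' : Crosses K.toGraph h'.toFun (A0.at t0) P0 (y0 t0) := by
    have himg : ∀ i, h'.toFun '' K.arc i = h.toFun '' K.arc i := fun i => (harc i).image_eq
    constructor
    · intro i hi
      rw [himg]; exact (hc0 t0 ht0).off i hi
    · intro i hi
      rw [himg]; exact (hc0 t0 ht0).on i hi
    · intro i hi
      rw [hhy, hhy]; exact (hc0 t0 ht0).ends i hi
  let χ' : (i : B) → ConHomeo (K.arc i) (K.arc i) := χ ⟨t0, ht0⟩
  have hparc : ∀ i ∈ P0, p i ∈ K.arc i ∩ frontier (Icc a b) := fun i hi =>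
    (fullCut_of_domCut hdom).mem_arc hi
  obtain ⟨h2, k1, k2, k3, k4, k5, k6⟩ := hcut Vx B J I e0 e1 inc qC Ω Λ K h' hΩ hΛ (A0.at t0) P0
    (y0 t0) (Icc a b) p hball hA0Λ hP0 hcr' hdom hu0 hcr hd
    (fun v => by rw [hhy]; exact hv t0 ht0 v) χ' (χ0 _) (χ1 _) (χ2 _)
    (fun i hi => by
      rw [harc i ((χ' i).mapsTo (hparc i hi).1)]
      exact χ3 ⟨t0, ht0⟩ i hi)
  have hRcl : IsClosed (Icc a b) := isClosed_Icc
  have hRΩ : (Icc a b) ⊆ Ω := hdom.sub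
  have hRc : LocCone (Icc a b) := locCone_Icc_pi a b
  have hfR : ConicalSet (frontier (Icc a b)) := hRc.frontier.conicalSet
  have hfRR : frontier (Icc a b) ⊆ (Icc a b) := hRcl.frontier_subset
  let L0 : ConHomeo (Icc a b) (A0.at t0) := L ⟨t0, ht0⟩
  have hLf : L0.toFun '' frontier (Icc a b) = frontier (A0.at t0) :=
    image_frontier_eq L0 hRcl hA0c.isClosed
  -- the comparison map on the surface
  let gf : ConHomeo (frontier (Icc a b)) (frontier (A0.at t0)) :=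
    (h2.restr hfR (hfRR.trans hRΩ)).cast rfl k6
  let Lf : ConHomeo (frontier (Icc a b)) (frontier (A0.at t0)) := (L0.restr hfR hfRR).cast rfl hLf
  let φ : ConHomeo (frontier (Icc a b)) (frontier (Icc a b)) := gf.trans Lf.symm
  have hLφ : ∀ x ∈ frontier (Icc a b), L0.toFun (φ.toFun x) = h2.toFun x := fun x hx =>
    Lf.right_inv (gf.mapsTo hx)
  have hφinv : ∀ x, φ.toFun x = L0.invFun (h2.toFun x) := fun _ => rfl
  -- the marked points
  have hφM : ∀ x ∈ p '' M, φ.toFun x = x := by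
    rintro _ ⟨i, hi, rfl⟩
    have hiP := hM hi
    rw [hφinv, k1 i _ (hparc i hiP).1, harc i ((χ' i).mapsTo (hparc i hiP).1),
      show h.toFun ((χ' i).toFun (p i)) = y0 t0 i from χ3 ⟨t0, ht0⟩ i hiP,
      show y0 t0 i = L0.toFun (p i) from hyL ⟨t0, ht0⟩ i hi,
      L0.left_inv (hfRR (hparc i hiP).2)]
  -- closeness
  have hφρ : ∀ x ∈ rim a b k, ∀ i, i ≠ k → |φ.toFun x i - x i| ≤ ρ := by
    intro x hx
    obtain ⟨j, hjF, hxj, hcl⟩ := hrim x hx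
    refine hcl (t j) (ht j hjF) ⟨t0, ht0⟩ _ (φ.mapsTo hx.1) ?_
    show L0.toFun (φ.toFun x) ∈ _
    rw [hLφ x hx.1]
    have h1 : h2.toFun x ∈ h'.toFun '' K.tile j := by rw [← k2]; exact mem_image_of_mem _ hxj
    exact interior_subset (htile j hjF h1)
  obtain ⟨Φ, f1, f2, f3, f4⟩ := hcol φ hφM hφρ θ hθ hθm
  obtain ⟨r, hr, hrf⟩ : ∃ r : ConHomeo (Icc a b) (Icc a b),
      (r.toFun = id ∨ r.toFun = refl a b k) ∧
      ∀ x ∈ frontier (Icc a b), r.toFun (Φ.toFun x) = φ.toFun x := by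
    rcases f1 with f1 | f1
    · refine ⟨ConHomeo.refl hRc.conicalSet, Or.inl rfl, fun x hx => ?_⟩
      show Φ.toFun x = _
      exact f1 hx
    · refine ⟨reflH a b k, Or.inr rfl, fun x hx => ?_⟩
      show refl a b k (Φ.toFun x) = _
      rw [f1 hx]
      exact refl_refl a b k _
  obtain ⟨h3, g1, g2⟩ := exists_replace hΩ hRcl hRΩ hRc hA0c.isClosed h2 k5 k6
    (Φ.trans (r.trans L0))
    (fun x hx => by
      show L0.toFun (r.toFun (Φ.toFun x)) = _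
      rw [hrf x hx, hLφ x hx])
  refine ⟨h3, ⟨t0, ht0⟩, r.toFun, hr, ?_, ?_, ?_, ?_, ?_, ?_, h', hG, hfar, ?_, ?_⟩
  · intro i x hx hxi
    have hxΩ : x ∈ Ω := sk2_subset K (net_subset_sk2 K (mem_iUnion.2 ⟨i, hx⟩))
    rw [g2 x hxΩ hxi, k1 i x hx, harc i ((χ' i).mapsTo hx)]
  · intro x hx
    have hxΩ := hZ.sub hx
    have hxc : x ∈ ⋃ c, K.cell c := by rw [K.cover]; exact hxΩ
    obtain ⟨c, hc⟩ := mem_iUnion.1 hxc
    have hcd : Disjoint (K.cell c) (frontier (Icc a b)) := by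
      by_contra hnd
      exact disjoint_left.1 (hZc c hnd) hx hc
    rw [g2 x hxΩ (fun hi => disjoint_left.1 hZR hx (interior_subset hi)), k4 c hcd hc, hZ' hx]
  · rw [g1.image_eq]
    exact (Φ.trans (r.trans L0)).image_eq
  · intro x hx
    have hxR : x ∈ (Icc a b) := ⟨fun i => by have := hx.1 i; simp only at this; linarith,
      fun i => by have := hx.2 i; simp only at this; linarith⟩
    rw [g1 hxR]
    show L0.toFun (r.toFun (Φ.toFun x)) = L0.toFun (r.toFun x)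
    rw [f2 x hx]
  · intro i hi z hz hzm hzk hzl
    rw [g1 hz]
    show L0.toFun (r.toFun (Φ.toFun z)) = L0.toFun z
    rw [f3 (p i) (mem_image_of_mem _ hi) z hz hzm hzl]
    congr 1
    rcases hr with hr | hr
    · rw [hr]; rfl
    · rw [hr]; exact refl_eq_self hzk
  · intro x hx hxk
    refine ⟨r.toFun (Φ.toFun x), r.mapsTo (Φ.mapsTo hx), fun i hi => ?_, ?_⟩
    · have h1 : r.toFun (Φ.toFun x) i = Φ.toFun x i := by
        rcases hr with hr | hr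
        · rw [hr]; rfl
        · rw [hr]; exact Function.update_of_ne hi _ _
      rw [h1]
      exact f4 x hx hxk i hi
    · rw [g1 hx]; rfl
  · intro j x hx hxi
    rw [g2 x (tile_subset K j hx) hxi, ← k2]
    exact mem_image_of_mem _ hx
  · intro c hc x hx hxi
    rw [g2 x (cell_subset K c hx) hxi]
    exact k4 c hc hx

/-- **(GB2E)** unconditional -/
theorem specGB2E : SpecGB2E := specGB2E_of GB3.specCleanE specCut'_unc

end P073.GB932
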