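import Vale.Agent.P073.PL.Core937
import Vale.Agent.P073.H407.BoxSep2
import Vale.Agent.P073.H407.GB2E

/-!
# P073, PLATE-E (helper407): the core step for plates with control of the size
-/

open Set Metric Topology Filter MeasureTheory
open scoped ENNReal NNReal

namespace P073.PL

open P073 P073.PR720 P073.GB73 P073.GBM P073.Gauge P073.GB1W P073.Cell P073.Plate
open Vale.Agent.P073.St (V)
open Vale.Agent.P073.AB
open Vale.Agent.P073.SQ (ev)
open P073.Net (dyc dyo)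

variable {Vx B J I : Type} {e0 e1 : B → Vx} {inc : B → J → Prop} {qC : J → I → Prop} {Ω : Set V}

/-- a point of the square of generation `n` is in a square of generation `n + k₁ + k₀` -/
theorem exists_fine_squ {v : V} {n k₁ k₀ : ℕ} {z : Fin 3 → ℤ} {k : Fin 3} {x : V}
    (hx : x ∈ squ v ((n, z), k)) :
    ∃ w : Fin 3 → ℤ, w k = z k * 2 ^ (k₁ + k₀) ∧ x ∈ squ v ((gN n k₁ k₀, w), k) ∧
      squ v ((gN n k₁ k₀, w), k) ⊆ squ v ((n, z), k) := by
  rw [mem_squ] at hx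
  obtain ⟨hx1, hx2⟩ := hx
  have hP : ∀ m : ℕ, (0:ℝ) < 2 ^ m := fun m => by positivity
  have hN : (2:ℝ) ^ gN n k₁ k₀ = 2 ^ n * 2 ^ (k₁ + k₀) := by
    unfold gN; rw [← pow_add]; congr 1; ring
  have hpt : ∀ u : Fin 3 → ℤ, ∀ i, pt v (gN n k₁ k₀) u i = v i + u i / (2 ^ n * 2 ^ (k₁ + k₀)) := by
    intro u i; unfold pt; rw [hN]
  have hkey : ∀ i, i ≠ k → ∃ m : ℤ, z i * 2 ^ (k₁ + k₀) ≤ m ∧ m + 1 ≤ (z i + 1) * 2 ^ (k₁ + k₀) ∧
      v i + (m : ℝ) / (2 ^ n * 2 ^ (k₁ + k₀)) ≤ x i ∧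
      x i ≤ v i + ((m : ℝ) + 1) / (2 ^ n * 2 ^ (k₁ + k₀)) := by
    intro i hi
    obtain ⟨h1, h2⟩ := hx2 i hi
    rw [pt_succ] at h2
    unfold pt at h1
    have e1 : v i + (z i : ℝ) / 2 ^ n = v i + (z i * 2 ^ (k₁ + k₀) : ℝ) / (2 ^ n * 2 ^ (k₁ + k₀)) := by
      field_simp
    have e2 : v i + ((z i : ℝ) + 1) / 2 ^ n =
        v i + ((z i + 1) * 2 ^ (k₁ + k₀) : ℝ) / (2 ^ n * 2 ^ (k₁ + k₀)) := by
      field_simp
    have hPP : (0:ℝ) < 2 ^ n * 2 ^ (k₁ + k₀) := by positivity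
    rw [e1] at h1
    rw [e2] at h2
    set t : ℝ := (x i - v i) * (2 ^ n * 2 ^ (k₁ + k₀)) with htd
    have hxt : x i = v i + t / (2 ^ n * 2 ^ (k₁ + k₀)) := by rw [htd]; field_simp; ring
    rw [hxt, add_le_add_iff_left, div_le_div_iff_of_pos_right hPP] at h1 h2
    by_cases hlast : t < (z i + 1) * 2 ^ (k₁ + k₀)
    · refine ⟨⌊t⌋, ?_, ?_, ?_, ?_⟩
      · apply Int.le_floor.2
        push_cast; exact h1
      · have : ⌊t⌋ < (z i + 1) * 2 ^ (k₁ + k₀) := by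
          apply Int.floor_lt.2
          push_cast; exact hlast
        omega
      · rw [hxt]; gcongr; exact Int.floor_le t
      · rw [hxt]; gcongr; exact (Int.lt_floor_add_one t).le
    · have hteq : t = (z i + 1) * 2 ^ (k₁ + k₀) := le_antisymm h2 (not_lt.1 hlast)
      have h1' : (1:ℤ) ≤ 2 ^ (k₁ + k₀) := by exact_mod_cast Nat.one_le_two_pow
      refine ⟨(z i + 1) * 2 ^ (k₁ + k₀) - 1, ?_, ?_, ?_, ?_⟩
      · nlinarith
      · linarith
      · rw [hxt, hteq]; push_cast; gcongr; linarith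
      · rw [hxt, hteq]; push_cast; gcongr; linarith
  choose! m hm1 hm2 hm3 hm4 using hkey
  refine ⟨fun i => if i = k then z k * 2 ^ (k₁ + k₀) else m i, by simp, ?_, ?_⟩
  · rw [mem_squ]
    refine ⟨?_, fun i hi => ?_⟩
    · rw [hx1, hpt]
      simp only [if_true]
      unfold pt
      push_cast
      field_simp
    · rw [pt_succ, hpt]
      simp only [if_neg hi]
      rw [hN]
      exact ⟨hm3 i hi, hm4 i hi⟩
  · intro y hy
    rw [mem_squ] at hy ⊢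
    obtain ⟨hy1, hy2⟩ := hy
    refine ⟨?_, fun i hi => ?_⟩
    · rw [hy1, hpt]
      simp only [if_true]
      unfold pt
      push_cast
      field_simp
    · have h3 := hy2 i hi
      rw [pt_succ, hpt] at h3
      simp only [if_neg hi] at h3
      rw [hN] at h3
      rw [pt_succ]
      unfold pt
      have e1 : v i + (z i : ℝ) / 2 ^ n =
          v i + ((z i * 2 ^ (k₁ + k₀) : ℤ) : ℝ) / (2 ^ n * 2 ^ (k₁ + k₀)) := by
        push_cast; field_simp
      have e2 : v i + ((z i : ℝ) + 1) / 2 ^ n =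
          v i + (((z i + 1) * 2 ^ (k₁ + k₀) : ℤ) : ℝ) / (2 ^ n * 2 ^ (k₁ + k₀)) := by
        push_cast; field_simp
      rw [e1, e2]
      have h4 : ((z i * 2 ^ (k₁ + k₀) : ℤ) : ℝ) ≤ m i := by exact_mod_cast hm1 i hi
      have h5 : ((m i : ℝ) + 1) ≤ (((z i + 1) * 2 ^ (k₁ + k₀) : ℤ) : ℝ) := by
        exact_mod_cast hm2 i hi
      constructor
      · refine le_trans ?_ h3.1
        gcongr
      · refine h3.2.trans ?_
        gcongr


/-- the fine squares in the plate are tiles -/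
theorem exists_fine_tile {K : Cx3 e0 e1 inc qC Ω} {v : V} {n k₁ k₀ : ℕ} {z : Fin 3 → ℤ}
    {k : Fin 3} {δ : ℝ} {cu cd : I} (L : Lat2 K v (gN n k₁ k₀) k (z k * 2 ^ (k₁ + k₀))
      (llo v n z k δ) (lhi v n z k δ) cu cd) {w : Fin 3 → ℤ} (hwk : w k = z k * 2 ^ (k₁ + k₀))
    (hsub : squ v ((gN n k₁ k₀, w), k) ⊆ squ v ((n, z), k)) :
    ∃ j, K.tile j = squ v ((gN n k₁ k₀, w), k) := by
  have hd : (0:ℝ) < 1 / 2 ^ (gN n k₁ k₀) := by positivity
  set N := gN n k₁ k₀ with hN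
  have hptk : pt v N w k = ht v N k (z k * 2 ^ (k₁ + k₀)) := by
    unfold ht pt; rw [hwk]
  have hmem : ∀ u : ℝ, 0 ≤ u → u ≤ 1 → ∀ x : V, x k = pt v N w k →
      (∀ i, i ≠ k → x i = pt v N w i + u * (1 / 2 ^ N)) → x ∈ squ v ((N, w), k) := by
    intro u hu0 hu1 x hxk hx
    rw [mem_squ]
    refine ⟨hxk, fun i hi => ?_⟩
    rw [hx i hi]
    have := mul_le_mul_of_nonneg_right hu1 hd.le
    have := mul_nonneg hu0 hd.le
    constructor <;> linarith
  obtain ⟨c, hck, hc⟩ : ∃ c : V, c k = pt v N w k ∧ ∀ i, i ≠ k → c i = pt v N w i + 1 / 2 * (1 / 2 ^ N) :=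
    ⟨fun i => if i = k then pt v N w k else pt v N w i + 1 / 2 * (1 / 2 ^ N), if_pos rfl,
      fun i hi => if_neg hi⟩
  obtain ⟨c0, hc0k, hc0⟩ : ∃ c : V, c k = pt v N w k ∧ ∀ i, i ≠ k → c i = pt v N w i + 0 * (1 / 2 ^ N) :=
    ⟨fun i => if i = k then pt v N w k else pt v N w i + 0 * (1 / 2 ^ N), if_pos rfl,
      fun i hi => if_neg hi⟩
  obtain ⟨c1, hc1k, hc1⟩ : ∃ c : V, c k = pt v N w k ∧ ∀ i, i ≠ k → c i = pt v N w i + 1 * (1 / 2 ^ N) :=
    ⟨fun i => if i = k then pt v N w k else pt v N w i + 1 * (1 / 2 ^ N), if_pos rfl,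
      fun i hi => if_neg hi⟩
  have m0 := mem_squ.1 (hsub (hmem 0 le_rfl zero_le_one c0 hc0k hc0))
  have m1 := mem_squ.1 (hsub (hmem 1 zero_le_one le_rfl c1 hc1k hc1))
  refine L.tile' w hwk ⟨c, hmem (1 / 2) (by norm_num) (by norm_num) c hck hc,
    L.mem_interior (by rw [hck, hptk]) fun i hi => ?_⟩
  have h0 := (m0.2 i hi).1
  have h1 := (m1.2 i hi).2
  rw [hc0 i hi] at h0
  rw [hc1 i hi] at h1
  have e0' : llo v n z k δ i = pt v n z i := by unfold llo pt; rw [if_neg hi]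
  have e1' : lhi v n z k δ i = pt v n z i + 1 / 2 ^ n := by
    unfold lhi pt; rw [if_neg hi]; ring
  rw [e0', e1', hc i hi]
  constructor <;> linarith

theorem core_plateE (P : Parts2) {K : Cx3 e0 e1 inc qC Ω} {Λ : Set V}
    {h : ConHomeo Ω Λ} (hΩ : IsOpen Ω) (hΛ : IsOpen Λ) {v : V} {n k₁ k₀ : ℕ} {z : Fin 3 → ℤ}
    {k : Fin 3} {δ : ℝ} {cu cd : I} {o : V} {A : V ≃L[ℝ] V} {μ η : ℝ}
    (H : Near2 K Λ h.toFun v (gN n k₁ k₀) k (z k * 2 ^ (k₁ + k₀)) (llo v n z k δ) (lhi v n z k δ)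
      o A μ η cu cd)
    (hk₁ : 3 ≤ k₁) (hk₀ : 3 ≤ k₀) (hμ : μ ≤ 1 / 8 / 2 ^ (gN n k₁ k₀))
    (hη1 : 150 * ((2 * μ + η) / (3 / 4 / 2 ^ (gN n k₁ k₀))) < 1 / 18)
    (hη2 : 6 * ((RR k₁ k₀ : ℝ) + 1) ^ 2 * ((2 * μ + η) / (3 / 4 / 2 ^ (gN n k₁ k₀))) <
      1 / (2 * RR k₁ k₀))
    {d : ℝ} (hd0 : 0 < d) (hdδ : d < δ) {ρ ε : ℝ} (hε : 0 ≤ ε)
    (hρ : GB932.Collar2E (plo v n k₁ k₀ z k d) (phi v n k₁ k₀ z k d) k (mg n k₁ k₀)
      (mpt2 v n k₁ k₀ z k) ρ ε) (hρd : 4 / 2 ^ (gN n k₁ k₀) ≤ ρ)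
    (hcl : ∀ x ∈ squ v ((n, z), k), ‖A.symm (h.toFun x - o) - x‖ ≤ μ)
    {Z : Set V} (hZ : Prot K Z) (hZp : Disjoint Z (K.cell cu)) (hZm : Disjoint Z (K.cell cd))
    (hZh : ∀ x ∈ Z, ¬ Reg2 v (gN n k₁ k₀) k (z k * 2 ^ (k₁ + k₀)) (llo v n z k δ)
      (lhi v n z k δ) o A (h.toFun x)) :
    ∃ (h3 : ConHomeo Ω Λ) (Lt : V → V) (χ : B → V → V) (p : B → V),
      CoreOut2 K h.toFun v n k₁ k₀ z k (llo v n z k δ) (lhi v n z k δ) o A μ Z d h3.toFun Lt χ p ∧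
      (∀ x ∈ Icc (plo v n k₁ k₀ z k d) (phi v n k₁ k₀ z k d),
        x k = ht v (gN n k₁ k₀) k (z k * 2 ^ (k₁ + k₀)) →
        ‖A.symm (h3.toFun x - o) - x‖ ≤ ε + 1 / 2 ^ (gN n k₁ k₀)) ∧
      (∀ x ∈ squ v ((n, z), k),
        x ∉ interior (Icc (plo v n k₁ k₀ z k d) (phi v n k₁ k₀ z k d)) →
        ‖A.symm (h3.toFun x - o) - x‖ ≤ 3 / 2 ^ (gN n k₁ k₀)) ∧
      ∀ j c, K.tile j ⊆ K.cell c → c ≠ cu → c ≠ cd →
        (∀ x ∈ K.tile j, ¬ Reg2 v (gN n k₁ k₀) k (z k * 2 ^ (k₁ + k₀)) (llo v n z k δ)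
          (lhi v n z k δ) o A (h.toFun x)) → EqOn h3.toFun h.toFun (K.tile j) := by
  classical
  have hR := RR_ge hk₁ hk₀
  have h8 := pow_k0R hk₀
  have h64 := pow_k1R (k₀ := k₀) hk₁
  have hd : (0:ℝ) < 1 / 2 ^ (gN n k₁ k₀) := by positivity
  set N := gN n k₁ k₀ with hN
  set α := al k₁ k₀ z with hα
  set β := be k₁ k₀ z with hβ
  set ζ := z k * 2 ^ (k₁ + k₀) with hζ
  have hβα : ∀ i, β i = α i + RR k₁ k₀ := fun i => be_eq i
  have hαβ : ∀ i, α i < β i := fun i => by rw [hβα i]; linarith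
  have hαβ8 : ∀ i, i ≠ k → α i + 8 ≤ β i := fun i _ => by rw [hβα i]; linarith
  have hnear : ∀ {w : ℝ} {i : Fin 3}, (α i : ℝ) ≤ w → w ≤ β i + 1 →
      qlo v n z i + 8 / 2 ^ N ≤ v i + w / 2 ^ N ∧ v i + w / 2 ^ N ≤ qhi v n z i - 8 / 2 ^ N :=
    fun h1 h2 => near_box hk₀ h1 h2
  have hl : ∀ i, i ≠ k → llo v n z k δ i = qlo v n z i := fun i hi => by
    unfold llo qlo; rw [if_neg hi]
  have hh : ∀ i, i ≠ k → lhi v n z k δ i = qhi v n z i := fun i hi => by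
    unfold lhi qhi; rw [if_neg hi]
  have hhk : lhi v n z k δ k = ht v N k ζ + δ := by
    unfold lhi ht
    rw [if_pos rfl, hζ]
    push_cast
    rw [mul_div_assoc, div_eq_mul_one_div ((2:ℝ) ^ (k₁ + k₀)), ← Dd n k₁ k₀]
    ring
  have hlk : llo v n z k δ k = ht v N k ζ - δ := by
    unfold llo ht
    rw [if_pos rfl, hζ]
    push_cast
    rw [mul_div_assoc, div_eq_mul_one_div ((2:ℝ) ^ (k₁ + k₀)), ← Dd n k₁ k₀]
    ring
  have e8 : (8:ℝ) / 2 ^ N = 8 * (1 / 2 ^ N) := by ring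
  have e4 : (4:ℝ) / 2 ^ N = 4 * (1 / 2 ^ N) := by ring
  have e2 : (2:ℝ) / 2 ^ N = 2 * (1 / 2 ^ N) := by ring
  -- the box in the plate
  have hin8 : ∀ i, qlo v n z i + 8 / 2 ^ N ≤ hp v N α i ∧ hp v N β i ≤ qhi v n z i - 8 / 2 ^ N := by
    intro i
    have h1 : (α i : ℝ) < β i := by exact_mod_cast hαβ i
    exact ⟨(hnear (w := α i + 1 / 2) (i := i) (by linarith) (by linarith)).1,
      (hnear (w := β i + 1 / 2) (i := i) (by linarith) (by linarith)).2⟩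
  have hin2 : ∀ i, i ≠ k → llo v n z k δ i + 2 / 2 ^ N ≤ hp v N α i ∧
      hp v N β i ≤ lhi v n z k δ i - 2 / 2 ^ N := by
    intro i hi
    have := hin8 i
    rw [e8] at this
    rw [e2, hl i hi, hh i hi]
    constructor <;> linarith [this.1, this.2]
  -- levels of the big body
  obtain ⟨T0, hT0, hgood0, hin, y0, hcr0, hpos0⟩ := big2_levels P.lev H hμ
    (R := RR k₁ k₀) (by linarith) hβα hη2 hin2
  have hpat0 := P.pat Vx B J I e0 e1 inc qC Ω K v N k ζ _ _ cu cd H.lat α β hin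
  set P0 := cr2 K v N k ζ α β with hP0
  have hPfin : P0.Finite := hpat0.fin
  -- faces
  set Fs : Set J := {j | ∃ b ∈ P0, inc b j} with hFs
  have hFfin : Fs.Finite := finite_faces K hPfin
  have hface : ∀ j, ∃ (w : Fin 3 → ℤ) (T : Set ℝ) (y : ℝ → B → V), j ∈ Fs →
      w k = ζ ∧ K.tile j = squ v ((N, w), k) ∧
      (∃ a l, Cross2 k ζ α β a l ∧ edge v ((N, a), l) ⊆ squ v ((N, w), k)) ∧
      (∀ i, i ≠ k → α i ≤ w i ∧ w i ≤ β i) ∧
      RectIn v N k (llo v n z k δ) (lhi v n z k δ) (fa w k) (fb w) ∧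
      T ⊆ Ioo (35 / 36) (37 / 36) ∧ (fBody2 v N k o A w T).Good Λ ∧
      Pat inc (cr2 K v N k ζ (fa w k) (fb w)) ∧
      (∀ t ∈ T, Crosses K.toGraph h.toFun ((fBody2 v N k o A w T).at t)
        (cr2 K v N k ζ (fa w k) (fb w)) (y t)) ∧
      PosY2 K h.toFun v N k ζ o A μ (sc v N w k) (fw2 N k) (fa w k) (fb w) T y := by
    intro j
    by_cases hj : j ∈ Fs
    · obtain ⟨b, hb, hbj⟩ := id hj
      obtain ⟨w, hwk, h1, ⟨a, l, h2, h2'⟩, h3⟩ := face2_data H.lat hin hb hbj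
      obtain ⟨T, h4, h5, hI, y, h8, h9⟩ := face2_levels P.lev H hμ hη1 (w := w) hwk
        (fun i hi => by
          have h3k := h3 i hi
          have h3a : (α i : ℝ) ≤ w i := by exact_mod_cast h3k.1
          have h3b : (w i : ℝ) ≤ β i := by exact_mod_cast h3k.2
          have := hnear (w := w i + if i = k then 0 else 1 / 2) (i := i)
            (by split_ifs <;> linarith) (by split_ifs <;> linarith)
          rw [e8] at this
          rw [e4, hl i hi, hh i hi]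
          unfold sc
          constructor <;> linarith [this.1, this.2])
      exact ⟨w, T, y, fun _ => ⟨hwk, h1, ⟨a, l, h2, h2'⟩, h3, hI, h4, h5,
        P.pat Vx B J I e0 e1 inc qC Ω K v N k ζ _ _ cu cd H.lat _ _ hI, h8, h9⟩⟩
    · exact ⟨0, ∅, fun _ _ => 0, fun h => absurd h hj⟩
  choose fwi fT fy hF using hface
  -- crossing points, marked edges
  obtain ⟨p, -, hpm⟩ := exists_cut K v N α β
  set M : Set B := {b | ∃ a l, K.arc b = edge v ((N, a), l) ∧ Marked2 k₁ k₀ z a k l} with hM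
  have hMP : M ⊆ P0 := by
    rintro b ⟨a, l, h1, h2⟩
    exact ⟨a, l, h1, h2.1⟩
  have hpM : p '' M = mpt2 v n k₁ k₀ z k := by
    ext x
    constructor
    · rintro ⟨b, ⟨a, l, h1, h2⟩, rfl⟩
      exact ⟨a, l, h2, hpm b a l h1⟩
    · rintro ⟨a, l, h2, rfl⟩
      obtain ⟨b, hb⟩ := exists_arc2 H.lat hin h2.1
      exact ⟨b, ⟨a, l, hb, h2⟩, hpm b a l hb⟩
  have hcut : IsCut2 K v N k ζ α β p := fun b w l h1 _ => hpm b w l h1
  -- model maps
  obtain ⟨⟨L, hL⟩, ⟨χ, hχ⟩⟩ := P.mod Vx B J I e0 e1 inc qC Ω K Λ h.toFun v n k₁ k₀ z k _ _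
    o A μ η cu cd H hk₁ hk₀ hμ hin d T0 y0 p hd0 hT0 hpos0 hcut
  -- the cut of the domain
  have hdom : DomCut K (Icc (plo v n k₁ k₀ z k d) (phi v n k₁ k₀ z k d)) P0 p :=
    P.cut Vx B J I e0 e1 inc qC Ω K v N k ζ _ _ cu cd H.lat α β d hin hd0 (by rw [hhk]; linarith)
      p hcut
  -- coordinates of the thin box
  have hbk : plo v n k₁ k₀ z k d k = ht v N k ζ - d := by
    unfold plo rlo; rw [Function.update_self]
  have hbk' : phi v n k₁ k₀ z k d k = ht v N k ζ + d := by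
    unfold phi rhi; rw [Function.update_self]
  have hbi : ∀ i, i ≠ k → plo v n k₁ k₀ z k d i = hp v N α i := fun i hi => by
    unfold plo rlo; rw [Function.update_of_ne hi]
  have hbi' : ∀ i, i ≠ k → phi v n k₁ k₀ z k d i = hp v N β i := fun i hi => by
    unfold phi rhi; rw [Function.update_of_ne hi]
  have hboxU : Icc (plo v n k₁ k₀ z k d) (phi v n k₁ k₀ z k d) ⊆
      interior (Icc (llo v n z k δ) (lhi v n z k δ)) := by
    intro x hx
    rw [interior_Icc_pi']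
    intro i
    have h1 := hx.1 i
    have h2 := hx.2 i
    by_cases hi : i = k
    · subst hi
      rw [hbk] at h1
      rw [hbk'] at h2
      rw [hlk, hhk]
      constructor <;> linarith
    · rw [hbi i hi] at h1
      rw [hbi' i hi] at h2
      have h3 := hin2 i hi
      rw [e2] at h3
      constructor <;> linarith [h3.1, h3.2]
  -- the two cells
  have hcell : ∀ x ∈ interior (Icc (llo v n z k δ) (lhi v n z k δ)), ∀ c, x ∈ K.cell c →
      c = cu ∨ c = cd := fun x hx c hc => H.lat.cell c ⟨x, hc, hx⟩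
  have hZU : Disjoint Z (interior (Icc (llo v n z k δ) (lhi v n z k δ))) := by
    rw [Set.disjoint_left]
    intro x hx hxU
    have hxc : x ∈ ⋃ c, K.cell c := by rw [K.cover]; exact hZ.sub hx
    obtain ⟨c, hc⟩ := mem_iUnion.1 hxc
    rcases hcell x hxU c hc with rfl | rfl
    · exact Set.disjoint_left.1 hZp hx hc
    · exact Set.disjoint_left.1 hZm hx hc
  -- bodies are in the region
  have hregF : ∀ j ∈ Fs, ∀ t ∈ fT j, ∀ y ∈ (fBody2 v N k o A (fwi j) (fT j)).at t,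
      Reg2 v N k ζ (llo v n z k δ) (lhi v n z k δ) o A y := by
    intro j hj t ht y hy
    obtain ⟨hwk, -, -, h3, -, h4, -⟩ := hF j hj
    have ht' := h4 ht
    refine reg2_of_body (by linarith [ht'.1])
      (by unfold sc P073.PL.ht; rw [if_pos rfl, hwk, add_zero]) ?_ (fun i hi => ?_) hy
    · unfold fw2
      rw [if_pos rfl]
      have : t * (3 / 4 / 2 ^ N) = t * (3 / 4) * (1 / 2 ^ N) := by ring
      rw [this]
      calc t * (3 / 4) * (1 / 2 ^ N) ≤ 1 * (1 / 2 ^ N) :=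
            mul_le_mul_of_nonneg_right (by linarith [ht'.2]) hd.le
        _ = _ := one_mul _
    · have h3k := h3 i hi
      have h3a : (α i : ℝ) ≤ fwi j i := by exact_mod_cast h3k.1
      have h3b : (fwi j i : ℝ) ≤ β i := by exact_mod_cast h3k.2
      have h5 := hnear (w := fwi j i + if i = k then 0 else 1 / 2) (i := i)
        (by split_ifs <;> linarith) (by split_ifs <;> linarith)
      rw [e8] at h5
      have h6 : t * fw2 N k i ≤ 3 * (1 / 2 ^ N) := by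
        unfold fw2
        rw [if_neg hi]
        have : t * (9 / 4 / 2 ^ N) = t * (9 / 4) * (1 / 2 ^ N) := by ring
        rw [this]
        exact mul_le_mul_of_nonneg_right (by linarith [ht'.2]) hd.le
      rw [hl i hi, hh i hi]
      unfold sc
      constructor <;> linarith [h5.1, h5.2]
  have hreg0 : ∀ t ∈ T0, ∀ y ∈ (bigBody2 v N k ζ o A α β T0).at t,
      Reg2 v N k ζ (llo v n z k δ) (lhi v n z k δ) o A y := by
    intro t ht y hy
    obtain ⟨ht0, ht1⟩ := hT0 t ht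
    refine reg2_of_body ht0 (by unfold bc2; rw [if_pos rfl]) ?_ (fun i hi => ?_) hy
    · unfold bw2
      rw [if_pos rfl]
      obtain ⟨i, hi⟩ : ∃ i : Fin 3, i ≠ k := exists_ne k
      have h1 := ht1 i hi
      have h0 : (α i : ℝ) + 8 ≤ β i := by exact_mod_cast hαβ8 i hi
      have h2 : |t - 1| * 8 ≤ 1 / 4 :=
        (mul_le_mul_of_nonneg_left (by linarith) (abs_nonneg _)).trans h1
      have h5 := abs_le.1 (show |t - 1| ≤ 1 / 32 by linarith)
      have : t * (3 / 4 / 2 ^ N) = t * (3 / 4) * (1 / 2 ^ N) := by ring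
      rw [this]
      calc t * (3 / 4) * (1 / 2 ^ N) ≤ 1 * (1 / 2 ^ N) :=
            mul_le_mul_of_nonneg_right (by linarith [h5.2]) hd.le
        _ = _ := one_mul _
    · have h1 := ht1 i hi
      have h3 := hin8 i
      rw [e8] at h3
      have h4 : |t * bw N α β i - bw N α β i| ≤ 1 / 2 ^ N := by
        have h0 : (α i : ℝ) < β i := by exact_mod_cast hαβ i
        have : t * bw N α β i - bw N α β i = (t - 1) * (β i - α i) * (1 / 2 / 2 ^ N) := by
          unfold bw; ring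
        rw [this, abs_mul, abs_mul, abs_of_nonneg (by linarith : (0:ℝ) ≤ β i - α i),
          abs_of_nonneg (by positivity : (0:ℝ) ≤ 1 / 2 / 2 ^ N)]
        calc |t - 1| * (β i - α i) * (1 / 2 / 2 ^ N) ≤ 1 / 4 * (1 / 2 / 2 ^ N) :=
              mul_le_mul_of_nonneg_right h1 (by positivity)
          _ = 1 / 8 * (1 / 2 ^ N) := by ring
          _ ≤ 1 / 2 ^ N := by linarith
      have h5 := abs_le.1 h4
      have h7 : bc v N α β i - bw N α β i = hp v N α i := by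
        unfold bc bw hp; ring
      have h9 : bc v N α β i + bw N α β i = hp v N β i := by
        unfold bc bw hp; ring
      have h10 : bc2 v N k ζ α β i = bc v N α β i := by unfold bc2 bc; rw [if_neg hi]
      have h11 : bw2 N k α β i = bw N α β i := by unfold bw2 bw; rw [if_neg hi]
      rw [hl i hi, hh i hi, h10, h11]
      constructor <;> linarith [h3.1, h3.2, h5.1, h5.2]
  have hm : 0 < mg n k₁ k₀ := by
    rw [mg_apply]
    exact mul_pos (by linarith) hd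
  have hF' : ∀ j, j ∈ hFfin.toFinset ↔ j ∈ Fs := fun j => hFfin.mem_toFinset
  -- separation
  have hsep : ∀ σ ∈ Fs, ∀ τ' ∈ Fs, σ ≠ τ' → ∀ t ∈ fT σ, ∀ s ∈ fT τ',
      IsPreconnected (frontier ((fBody2 v N k o A (fwi τ') (fT τ')).at s) \
        interior ((fBody2 v N k o A (fwi σ) (fT σ)).at t)) ∧
      ∃ b ∈ cr2 K v N k ζ (fa (fwi τ') k) (fb (fwi τ')),
        fy τ' s b ∉ interior ((fBody2 v N k o A (fwi σ) (fT σ)).at t) := by
    intro σ hσ τ' hτ hne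
    obtain ⟨s0, s1, s2, s3, sI, s4, s5, s7, s8, s9⟩ := hF σ hσ
    obtain ⟨r0, r1, r2, r3, rI, r4, r5, r7, r8, r9⟩ := hF τ' hτ
    refine P.s1 Vx B J I e0 e1 inc qC Ω K Λ h.toFun v N k ζ _ _ o A μ η cu cd H (fwi σ) (fwi τ')
      (fT σ) (fT τ') (fy τ') s0 r0 ?_ s4 r4 rI r9
    intro heq
    apply hne
    apply tile_injective K
    rw [s1, r1, heq]
  have hsep0 : ∀ σ ∈ Fs, ∀ t ∈ fT σ, ∀ s ∈ T0,
      IsPreconnected (frontier ((bigBody2 v N k ζ o A α β T0).at s) \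
        interior ((fBody2 v N k o A (fwi σ) (fT σ)).at t)) ∧
      ∃ b ∈ P0, y0 s b ∉ interior ((fBody2 v N k o A (fwi σ) (fT σ)).at t) := by
    intro σ hσ
    obtain ⟨s0, s1, ⟨a, l, s2, s2'⟩, s3, sI, s4, s5, s7, s8, s9⟩ := hF σ hσ
    exact P.s2 Vx B J I e0 e1 inc qC Ω K Λ h.toFun v N k ζ _ _ o A μ η cu cd H α β (fwi σ) a l
      (fT σ) T0 y0 hαβ8 s0 s2 s2' s4 hT0 hin hpos0
  -- boundaries of the faces
  have hbd : ∀ σ ∈ Fs, ∀ t ∈ fT σ, h.toFun '' (K.toCx2.bd σ) ⊆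
      interior ((fBody2 v N k o A (fwi σ) (fT σ)).at t) := by
    intro σ hσ
    obtain ⟨s0, s1, s2, s3, sI, s4, s5, s7, s8, s9⟩ := hF σ hσ
    refine P.bd Vx B J I e0 e1 inc qC Ω K Λ h.toFun v N k ζ _ _ o A μ η cu cd H hμ σ (fwi σ)
      (fT σ) s1 s0 (fun x hx => ?_) s4
    rw [mem_squ] at hx
    refine H.lat.mem_interior (by rw [hx.1]; unfold pt ht; rw [s0]) (fun i hi => ?_)
    have h3a : (α i : ℝ) ≤ fwi σ i := by exact_mod_cast (s3 i hi).1
    have h3b : (fwi σ i : ℝ) ≤ β i := by exact_mod_cast (s3 i hi).2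
    have h3 := (hnear (w := fwi σ i) (i := i) h3a (by linarith)).1
    have h4 := (hnear (w := fwi σ i + 1) (i := i) (by linarith) (by linarith)).2
    rw [e8] at h3 h4
    have h5 := hx.2 i hi
    rw [pt_succ] at h5
    unfold pt at h5
    rw [hl i hi, hh i hi]
    constructor <;> linarith [h5.1, h5.2]
  -- vertices
  have hvert : ∀ t ∈ T0, ∀ u, K.y u ∈ interior (Icc (plo v n k₁ k₀ z k d)
      (phi v n k₁ k₀ z k d)) ↔ h.toFun (K.y u) ∈ interior ((bigBody2 v N k ζ o A α β T0).at t) :=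
    P.vert Vx B J I e0 e1 inc qC Ω K Λ h.toFun v N k ζ _ _ o A μ η cu cd H hμ α β d T0 hin hT0
      hin2 hd0 (by rw [hhk]; linarith)
  -- the rim
  have hrim : ∀ x ∈ GB932.rim (plo v n k₁ k₀ z k d) (phi v n k₁ k₀ z k d) k,
      ∃ j ∈ hFfin.toFinset, x ∈ K.tile j ∧ ∀ s ∈ fT j, ∀ t : T0,
      ∀ x' ∈ frontier (Icc (plo v n k₁ k₀ z k d) (phi v n k₁ k₀ z k d)),
        (L t).toFun x' ∈ (fBody2 v N k o A (fwi j) (fT j)).at s → ∀ i, i ≠ k → |x' i - x i| ≤ ρ := by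
    intro x hx
    obtain ⟨w, a, l, hwk, hxw, hc, hsub, hcl⟩ := P.rim v N k ζ α β d (fun i _ => hαβ i) hd0 x hx
    obtain ⟨b, hb⟩ := exists_arc2 H.lat hin hc
    obtain ⟨j, hj⟩ := H.lat.tile' w hwk ⟨_, hsub mid_mem_edge, mid_mem_int H.lat hin hc⟩
    have hbj : inc b j := (inc_iff K b j).2 (by rw [hb, hj]; exact hsub)
    have hjF : j ∈ Fs := ⟨b, ⟨a, l, hb, hc⟩, hbj⟩
    obtain ⟨s0, s1, s2, s3, sI, s4, s5, s7, s8, s9⟩ := hF j hjF
    have hwj : fwi j = w := by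
      have h1 : squ v ((N, fwi j), k) = squ v ((N, w), k) := by rw [← s1, ← hj]
      have h2 : ∀ u : Fin 3 → ℤ, pt v N u ∈ squ v ((N, u), k) := fun u => by
        rw [mem_squ]
        exact ⟨rfl, fun i _ => ⟨le_rfl, by linarith⟩⟩
      have h3 := h2 (fwi j)
      rw [h1, mem_squ] at h3
      have h4 := h2 w
      rw [← h1, mem_squ] at h4
      funext i
      by_cases hi : i = k
      · rw [hi, s0, hwk]
      · exact le_antisymm (pt_le_pt.1 (h4.2 i hi).1) (pt_le_pt.1 (h3.2 i hi).1)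
    refine ⟨j, (hF' j).2 hjF, by rw [hj]; exact hxw, fun s hs t x' hx' hxB i hi => ?_⟩
    rw [hwj] at hxB
    refine (hcl o A (fT j) s4 s hs _ x' (fun i hi => ?_) hxB i hi).trans hρd
    have c2 := (hL t).2.2.1 x' (isClosed_Icc.frontier_subset hx') i hi
    refine c2.trans ?_
    have c5 : (1:ℝ) / 8 / 2 ^ N = 1 / 8 * (1 / 2 ^ N) := by ring
    have c6 : (1:ℝ) / 4 / 2 ^ N = 1 / 4 * (1 / 2 ^ N) := by ring
    rw [c5] at hμ ⊢
    rw [c6]
    linarith
  -- the fine squares in the plate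
  have hfine : ∀ w : Fin 3 → ℤ, w k = ζ → squ v ((N, w), k) ⊆ squ v ((n, z), k) →
      ∃ j, K.tile j = squ v ((N, w), k) := fun w hwk hsub => exists_fine_tile H.lat hwk hsub
  choose ix0 hix0 using fun i : {w : Fin 3 → ℤ // w k = ζ ∧ squ v ((N, w), k) ⊆
    squ v ((n, z), k)} => hfine i.1 i.2.1 i.2.2
  have hOs : ∀ i : {w : Fin 3 → ℤ // w k = ζ ∧ squ v ((N, w), k) ⊆ squ v ((n, z), k)}, ∀ σ ∈ hFfin.toFinset, ∀ t ∈ fT σ,
      frontier ((fBody2 v N k o A (fwi σ) (fT σ)).at t) ⊆ Obox2 v N k o A i.1 ∨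
      (IsPreconnected (frontier ((fBody2 v N k o A (fwi σ) (fT σ)).at t) \ Obox2 v N k o A i.1) ∧
        ∃ b ∈ cr2 K v N k ζ (fa (fwi σ) k) (fb (fwi σ)), fy σ t b ∉ Obox2 v N k o A i.1) := by
    intro i σ hσ t ht
    obtain ⟨s0, s1, s2, s3, sI, s4, s5, s7, s8, s9⟩ := hF σ ((hF' σ).1 hσ)
    exact Or.inr (boxsep2_face H s0 s4 sI s9 i.1 i.2.1 ht)
  have hOs0 : ∀ i : {w : Fin 3 → ℤ // w k = ζ ∧ squ v ((N, w), k) ⊆ squ v ((n, z), k)}, ∀ t ∈ T0,
      frontier ((bigBody2 v N k ζ o A α β T0).at t) ⊆ Obox2 v N k o A i.1 ∨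
      (IsPreconnected (frontier ((bigBody2 v N k ζ o A α β T0).at t) \ Obox2 v N k o A i.1) ∧
        ∃ b ∈ P0, y0 t b ∉ Obox2 v N k o A i.1) :=
    fun i t ht => Or.inr (boxsep2_big H hαβ8 hT0 hin hpos0 i.1 i.2.1 ht)
  -- the block
  obtain ⟨h3, t, r, hr, g1, g2, g3, g4, g5, g6, h', g7, g8, g9, g10⟩ := GB932.specGB2E Vx B J I e0 e1 inc qC Ω Λ K h hΩ hΛ k
    (plo v n k₁ k₀ z k d) (phi v n k₁ k₀ z k d) (mg n k₁ k₀) hFfin.toFinset
    (fun j => fBody2 v N k o A (fwi j) (fT j))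
    (fun j => cr2 K v N k ζ (fa (fwi j) k) (fb (fwi j))) fy
    (bigBody2 v N k ζ o A α β T0) P0 y0 p M L
    (fun σ hσ => (hF σ ((hF' σ).1 hσ)).2.2.2.2.2.2.1) hgood0
    (fun σ hσ => (hF σ ((hF' σ).1 hσ)).2.2.2.2.2.2.2.1) hpat0
    (fun σ hσ => (hF σ ((hF' σ).1 hσ)).2.2.2.2.2.2.2.2.1) hcr0
    (fun σ hσ => hbd σ ((hF' σ).1 hσ))
    (fun σ hσ τ' hτ => hsep σ ((hF' σ).1 hσ) τ' ((hF' τ').1 hτ))
    (fun σ hσ => hsep0 σ ((hF' σ).1 hσ)) hdom hvert hMP
    (by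
      rintro t b ⟨a, l, b1, b2⟩
      exact (hL t).1 b a l b1 b2)
    ρ ε (by rw [hpM]; exact hρ) hrim
    χ (fun t => (hχ t).1) (fun t => (hχ t).2.1) (fun t => (hχ t).2.2.1) (fun t => (hχ t).2.2.2.1)
    Z hZ (hZU.mono_right hboxU)
    (by
      intro c hc
      rw [Set.not_disjoint_iff] at hc
      obtain ⟨x, hx1, hx2⟩ := hc
      rcases hcell x (hboxU (isClosed_Icc.frontier_subset hx2)) c hx1 with rfl | rfl
      · exact hZp
      · exact hZm)
    (fun σ hσ s hs => by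
      rw [Set.disjoint_left]
      rintro _ ⟨x, hx, rfl⟩ hx'
      exact hZh x hx (hregF σ ((hF' σ).1 hσ) s hs _ hx'))
    (fun s hs => by
      rw [Set.disjoint_left]
      rintro _ ⟨x, hx, rfl⟩ hx'
      exact hZh x hx (hreg0 s hs _ hx'))
    {w : Fin 3 → ℤ // w k = ζ ∧ squ v ((N, w), k) ⊆ squ v ((n, z), k)} ix0
    (fun i => Obox2 v N k o A i.1)
    (fun i => by
      rintro _ ⟨x, hx, rfl⟩
      rw [hix0 i] at hx
      exact mem_Obox2_of_close hx ((hcl x (i.2.2 hx)).trans hμ)) hOs hOs0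
    (min (d / 2) (mg n k₁ k₀ / 2)) (by positivity) ((min_le_right _ _).trans_lt (by linarith))
  refine ⟨h3, (L t).toFun, fun b => (χ t b).toFun, p, ?_, ?_, ?_, ?_⟩
  rotate_left
  · intro x hx hxk
    obtain ⟨x', hx', hxx, he⟩ := g6 x hx (by rw [hbk, hbk', hxk]; ring)
    have hreg := hreg0 t t.2 _ (g3 ▸ mem_image_of_mem h3.toFun hx)
    have c2 := (hL t).2.2.1 x' hx'
    rw [← he] at c2
    rw [pi_norm_le_iff_of_nonneg (by positivity)]
    intro i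
    rw [Pi.sub_apply, Real.norm_eq_abs]
    by_cases hi : i = k
    · rw [hi, hxk]
      exact hreg.1.trans (by linarith)
    · have c3 := abs_le.1 (c2 i hi)
      have c4 := abs_le.1 (hxx i hi)
      have c5 : (1:ℝ) / 8 / 2 ^ N = 1 / 8 * (1 / 2 ^ N) := by ring
      rw [c5] at c3 hμ
      rw [abs_le]
      constructor <;> linarith [c3.1, c3.2, c4.1, c4.2]
  · intro x hx hxi
    obtain ⟨w, hwk, hwx, hws⟩ := exists_fine_squ (k₁ := k₁) (k₀ := k₀) hx
    have hj := hix0 ⟨w, hwk, hws⟩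
    have h4 := g7 ⟨w, hwk, hws⟩ (g9 (ix0 ⟨w, hwk, hws⟩) x (by rw [hj]; exact hwx) hxi)
    exact Obox2_close hwx h4
  · intro j c hjc hcu hcd hfar x hx
    have hdis : Disjoint (K.cell c) (interior (Icc (llo v n z k δ) (lhi v n z k δ))) := by
      rw [Set.disjoint_left]
      intro y hy hyU
      rcases hcell y hyU c hy with h | h
      · exact hcu h
      · exact hcd h
    have hxi : x ∉ interior (Icc (plo v n k₁ k₀ z k d) (phi v n k₁ k₀ z k d)) := fun hxi =>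
      Set.disjoint_left.1 hdis (hjc hx) (hboxU (interior_subset hxi))
    rw [g10 c (hdis.mono_right (isClosed_Icc.frontier_subset.trans hboxU)) x (hjc hx) hxi]
    refine g8 j (fun σ hσ t ht => ?_) (fun t ht => ?_) hx
    · rw [Set.disjoint_left]
      rintro _ ⟨y, hy, rfl⟩ hy'
      have hcl' := (GB932.isCompact_at (hF σ ((hF' σ).1 hσ)).2.2.2.2.2.2.1 t).isClosed
      exact hfar y hy (hregF σ ((hF' σ).1 hσ) t ht _ (hcl'.frontier_subset hy'))
    · rw [Set.disjoint_left]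
      rintro _ ⟨y, hy, rfl⟩ hy'
      have hcl' := (GB932.isCompact_at hgood0 t).isClosed
      exact hfar y hy (hreg0 t ht _ (hcl'.frontier_subset hy'))
  have hgd := gd n k₁ k₀
  have hrx : ∀ x : V, x k = ht v N k ζ → r x = x := by
    intro x hx
    rcases hr with rfl | rfl
    · rfl
    · apply GB932.refl_eq_self
      rw [hbk, hbk', hx]; ring
  refine ⟨hpm, fun b x hx => (χ t b).mapsTo hx, (hχ t).2.2.1, (hχ t).1, (hχ t).2.1,
    (hχ t).2.2.2.2, g1, ?_, ?_, (hL t).2.2.2.1, (hL t).2.2.2.2, ?_, g2⟩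
  · intro x hx
    have hxk : x k = ht v N k ζ := by
      have h1 := hx.1
      simp only at h1
      have h2 : x k - (v k + (z k : ℝ) / 2 ^ n) = 0 := abs_nonpos_iff.1 h1
      have h3 : ht v N k ζ = v k + (z k : ℝ) / 2 ^ n := by
        unfold ht
        rw [hζ]
        push_cast
        rw [mul_div_assoc, div_eq_mul_one_div ((2:ℝ) ^ (k₁ + k₀)), ← Dd n k₁ k₀]
        ring
      rw [h3]; linarith
    rw [g4 x ?_, hrx x hxk, (hL t).2.1 x hx]
    have hmin1 := min_le_left (d / 2) (mg n k₁ k₀ / 2)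
    have hmin2 := min_le_right (d / 2) (mg n k₁ k₀ / 2)
    have key : ∀ i, plo v n k₁ k₀ z k d i + min (d / 2) (mg n k₁ k₀ / 2) ≤ x i ∧
        x i ≤ phi v n k₁ k₀ z k d i - min (d / 2) (mg n k₁ k₀ / 2) := by
      intro i
      by_cases hi : i = k
      · rw [hi, hbk, hbk', hxk]
        constructor <;> linarith
      · rw [hbi i hi, hbi' i hi]
        have h1 := hx.2 i hi
        simp only at h1
        have h2 : hp v N α i = Cell.lo v n k₁ k₀ z i := rfl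
        have h3 : hp v N β i = Cell.hi v n k₁ k₀ z i := rfl
        have h5 : v i + (z i : ℝ) / 2 ^ n = qlo v n z i := rfl
        have h6 : v i + ((z i : ℝ) + 1) / 2 ^ n = qhi v n z i := rfl
        have h7 : (2:ℝ) / 2 ^ (n + k₁) = 2 * (1 / 2 ^ (n + k₁)) := by ring
        rw [h5, h6, h7, hgd, qlo_eq n k₁ k₀, qhi_eq n k₁ k₀] at h1
        rw [h2, h3, lo_apply, hi_apply]
        have hmg := mg_apply (n₂ := n) (k₁ := k₁) (k₀ := k₀)
        have h9 := mul_le_mul_of_nonneg_right h8 hd.le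
        constructor <;> linarith [h1.1, h1.2]
    exact ⟨fun i => (key i).1, fun i => (key i).2⟩
  · intro b a l b1 b2 x hx hxp hxj
    have hpk : p b k = ht v N k ζ := by
      rw [hpm b a l b1]
      unfold Cell.mid
      rw [mid_apply_ne (Ne.symm b2.1.1)]
      unfold pt ht
      rw [b2.1.2.1]
    refine g5 b ⟨a, l, b1, b2⟩ x hx hxp
      (by rw [hbk, hbk', hxj k (Ne.symm b2.1.1), hpk]; ring) ⟨l, b2.1.1, ?_, hxj⟩
    rw [hpm b a l b1, hbi l b2.1.1, hbi' l b2.1.1]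
    unfold Cell.mid
    rw [mid_apply_self]
    rcases b2.1.2.2.1 with h5 | h5
    · left; rw [h5]; rfl
    · right; rw [h5]; rfl
  · intro x hx
    exact hreg0 t t.2 _ (g3 ▸ mem_image_of_mem _ hx)

end P073.PL
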