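import Vale.Agent.P073.H407.PlatesW

/-!
# P073, A16 rank two (helper407), [PLATE-T], first part: subdivision of dyadic squares

* `subs z l d`: the squares of the subdivision of `z` into `4 ^ d` squares;
* `sInt_split`: integrals are additive;
* `count_le`: the number of small squares which miss a closed set.
-/

open Set Metric Topology Filter MeasureTheory
open scoped ENNReal

namespace Vale.Agent.P073.H407

open Vale.Agent.P073.St (V)
open Vale.Agent.P073.AB
open Vale.Agent.P073.H194 (sInt)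
open Vale.Agent.P073.H16 (blk Bsq dI P3 sInt_eq_dI)
open Vale.Agent.P073.H716 (tsum_sInt_eq_dI)
open _root_.P073.GBM (mem_squ)

/-- positions of the squares of the subdivision -/
noncomputable def subs (z : Fin 3 → ℤ) (l : Fin 3) (d : ℕ) : Finset (Fin 3 → ℤ) :=
  Fintype.piFinset fun j =>
    if j = l then {z j * 2 ^ d} else Finset.Ico (z j * 2 ^ d) ((z j + 1) * 2 ^ d)

theorem mem_subs {z w : Fin 3 → ℤ} {l : Fin 3} {d : ℕ} : w ∈ subs z l d ↔
    w l = z l * 2 ^ d ∧ ∀ j, j ≠ l → z j * 2 ^ d ≤ w j ∧ w j < (z j + 1) * 2 ^ d := by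
  unfold subs
  rw [Fintype.mem_piFinset]
  constructor
  · intro h
    refine ⟨?_, fun j hj => ?_⟩
    · have := h l
      rwa [if_pos rfl, Finset.mem_singleton] at this
    · have := h j
      rwa [if_neg hj, Finset.mem_Ico] at this
  · rintro ⟨h1, h2⟩ j
    by_cases hj : j = l
    · subst hj
      rw [if_pos rfl, Finset.mem_singleton]; exact h1
    · rw [if_neg hj, Finset.mem_Ico]; exact h2 j hj

theorem card_subs (z : Fin 3 → ℤ) (l : Fin 3) (d : ℕ) : (subs z l d).card = 4 ^ d := by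
  unfold subs
  rw [Fintype.card_piFinset, ← Finset.mul_prod_erase _ _ (Finset.mem_univ l), if_pos rfl,
    Finset.card_singleton, one_mul]
  have h1 : ∀ j ∈ Finset.univ.erase l, (if j = l then ({z j * 2 ^ d} : Finset ℤ) else
      Finset.Ico (z j * 2 ^ d) ((z j + 1) * 2 ^ d)).card = 2 ^ d := by
    intro j hj
    rw [if_neg (Finset.ne_of_mem_erase hj), Int.card_Ico]
    have : (z j + 1) * 2 ^ d - z j * 2 ^ d = 2 ^ d := by ring
    rw [this]
    have h2 : ((2:ℤ) ^ d) = ((2 ^ d : ℕ) : ℤ) := by push_cast; rfl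
    rw [h2, Int.toNat_natCast]
  rw [Finset.prod_congr rfl h1, Finset.prod_const, Finset.card_erase_of_mem (Finset.mem_univ l)]
  simp only [Finset.card_univ, Fintype.card_fin]
  rw [← pow_mul, show (4:ℕ) = 2 ^ 2 by norm_num, ← pow_mul, mul_comm]

/-- the small squares are in the big square -/
theorem squ_sub_of_subs {v : V} {m : ℕ} {z w : Fin 3 → ℤ} {l : Fin 3} {d : ℕ}
    (hw : w ∈ subs z l d) : squ v ((m + d, w), l) ⊆ squ v ((m, z), l) := by
  rw [mem_subs] at hw
  intro x hx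
  rw [mem_squ] at hx ⊢
  have hm : (0:ℝ) < 2 ^ m := by positivity
  have hd : (0:ℝ) < 2 ^ d := by positivity
  have e : (2:ℝ) ^ (m + d) = 2 ^ m * 2 ^ d := pow_add _ _ _
  have hpt : ∀ (n : ℕ) (u : Fin 3 → ℤ) (j : Fin 3), pt v n u j = v j + u j / 2 ^ n :=
    fun _ _ _ => rfl
  simp only [hpt] at hx ⊢
  refine ⟨?_, fun j hj => ?_⟩
  · have h1 : ((w l : ℤ) : ℝ) = z l * 2 ^ d := by exact_mod_cast hw.1
    rw [hx.1, h1, e]
    field_simp
  · obtain ⟨h1, h2⟩ := hx.2 j hj
    obtain ⟨h3, h4⟩ := hw.2 j hj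
    have h3' : (z j : ℝ) * 2 ^ d ≤ w j := by exact_mod_cast h3
    have h4' : (w j : ℝ) + 1 ≤ (z j + 1) * 2 ^ d := by exact_mod_cast h4
    constructor
    · refine le_trans ?_ h1
      have : (z j : ℝ) / 2 ^ m = z j * 2 ^ d / 2 ^ (m + d) := by rw [e]; field_simp
      rw [this]; gcongr
    · refine h2.trans ?_
      have h5 : (z j : ℝ) / 2 ^ m + 1 / 2 ^ m = (z j + 1) * 2 ^ d / 2 ^ (m + d) := by
        rw [e]; field_simp
      rw [add_assoc, add_assoc, h5, ← add_div]
      gcongr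

theorem subs_eq_Bsq (z : Fin 3 → ℤ) (l : Fin 3) (d : ℕ) :
    ((subs z l d : Finset (Fin 3 → ℤ)) : Set (Fin 3 → ℤ)) = Bsq (fun j => z j * 2 ^ d) l (2 ^ d) := by
  ext w
  rw [Finset.mem_coe, mem_subs]
  refine and_congr Iff.rfl (forall_congr' fun j => forall_congr' fun hj => and_congr Iff.rfl ?_)
  push_cast
  rw [show (z j + 1) * 2 ^ d = z j * 2 ^ d + 2 ^ d by ring]

/-- **additivity** -/
theorem sInt_split (v : V) (m : ℕ) (z : Fin 3 → ℤ) (l : Fin 3) (d : ℕ) {H : V → ℝ≥0∞}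
    (hH : Measurable H) :
    ∑ w ∈ subs z l d, sInt v ((m + d, w), l) H = sInt v ((m, z), l) H := by
  obtain ⟨i, j, hij, hil, hjl⟩ := Vale.Agent.P073.H16.exists_ij l
  have h1 := tsum_sInt_eq_dI hij hil hjl v (m + d) (fun j => z j * 2 ^ d) (2 ^ d) hH
  rw [← subs_eq_Bsq] at h1
  rw [Finset.tsum_subtype' (subs z l d) fun w => sInt v ((m + d, w), l) H] at h1
  rw [h1, sInt_eq_dI hij hil hjl v m z hH]
  have e : ∀ a, pt v (m + d) (fun j => z j * 2 ^ d) a = pt v m z a := by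
    intro a
    unfold pt
    have : (2:ℝ) ^ (m + d) = 2 ^ m * 2 ^ d := pow_add _ _ _
    push_cast
    rw [this]
    field_simp
  rw [e, e, e]
  congr 1
  push_cast
  rw [pow_add]
  field_simp

theorem sInt_one (v : V) (n : ℕ) (z : Fin 3 → ℤ) (l : Fin 3) :
    sInt v ((n, z), l) (fun _ => 1) = ENNReal.ofReal ((1 / 2 ^ n) ^ 2) := by
  unfold sInt
  simp only
  rw [setLIntegral_one, dyc_eq_Icc', Real.volume_Icc_pi]
  have e1 : (2:ℝ≥0∞) ^ n = ENNReal.ofReal (2 ^ n) := by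
    rw [ENNReal.ofReal_pow (by norm_num)]; simp
  have e2 : ∀ i : Fin 3, v i + ((z i : ℝ) + 1) / 2 ^ n - (v i + z i / 2 ^ n) = 1 / 2 ^ n := by
    intro i; ring
  simp only [e2]
  rw [← ENNReal.ofReal_prod_of_nonneg (fun _ _ => by positivity), e1,
    ← ENNReal.ofReal_mul (by positivity)]
  congr 1
  simp only [Finset.prod_const, Finset.card_univ, Fintype.card_fin]
  field_simp

/-- the number of small squares which miss `G`, in terms of the area of the complement -/
theorem count_le {v : V} {m : ℕ} {z : Fin 3 → ℤ} {l : Fin 3} {d : ℕ} {G : Set V}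
    (hG : MeasurableSet G) (B : Finset (Fin 3 → ℤ)) (hB : B ⊆ subs z l d)
    (h : ∀ w ∈ B, Disjoint (squ v ((m + d, w), l)) G) :
    (B.card : ℝ≥0∞) * ENNReal.ofReal ((1 / 2 ^ (m + d)) ^ 2) ≤ sArea v ((m, z), l) Gᶜ := by
  unfold sArea
  rw [← sInt_split v m z l d (measurable_const.indicator hG.compl)]
  calc (B.card : ℝ≥0∞) * ENNReal.ofReal ((1 / 2 ^ (m + d)) ^ 2)
      = ∑ _w ∈ B, ENNReal.ofReal ((1 / 2 ^ (m + d)) ^ 2) := by
        rw [Finset.sum_const, nsmul_eq_mul]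
    _ ≤ ∑ w ∈ B, sInt v ((m + d, w), l) (Gᶜ.indicator fun _ => 1) := by
        refine Finset.sum_le_sum fun w hw => ?_
        rw [← sInt_one v (m + d) w l]
        refine Vale.Agent.P073.H16.sInt_le_sInt fun x hx => ?_
        rw [indicator_of_mem (show x ∈ Gᶜ from Set.disjoint_left.1 (h w hw) hx)]
    _ ≤ _ := Finset.sum_le_sum_of_subset hB

end Vale.Agent.P073.H407
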