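import Vale.Agent.P073.H407.Mid1
import Vale.Agent.P073.H407.PlateT1
import Vale.Agent.P073.H235.PreParts

/-!
# P073, A16 rank two (helper407): **[COUNT]** (`H235.SpecCount`)
-/

open Set Metric Topology Filter MeasureTheory
open scoped ENNReal

namespace Vale.Agent.P073.H407

open Vale.Agent.P073.St (V)
open Vale.Agent.P073.AB
open Vale.Agent.P073.H194 (sInt up)
open Vale.Agent.P073.H235 (rect SpecCount)
open _root_.P073.GBM (mem_squ)

/-- the position of the large square -/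
def parI (d : ℕ) (w : Fin 3 → ℤ) : Fin 3 → ℤ := fun j => w j / 2 ^ d

theorem parI_eq {d : ℕ} {w k : Fin 3 → ℤ} (h : w ∈ subs k 2 d) : parI d w = k := by
  have h2 : (0:ℤ) < 2 ^ d := by positivity
  rw [mem_subs] at h
  funext j
  by_cases hj : j = 2
  · subst hj
    show w 2 / 2 ^ d = k 2
    rw [h.1, Int.mul_ediv_cancel _ h2.ne']
  · obtain ⟨h3, h4⟩ := h.2 j hj
    show w j / 2 ^ d = k j
    refine le_antisymm ?_ ?_
    · exact Int.lt_add_one_iff.1 ((Int.ediv_lt_iff_lt_mul h2).2 h4)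
    · exact (Int.le_ediv_iff_mul_le h2).2 h3

theorem mem_rect_up {m d : ℕ} {α β w : Fin 3 → ℤ} :
    w ∈ rect (up m (m + d) α) (up m (m + d) β) ↔ parI d w ∈ rect α β ∧ w ∈ subs (parI d w) 2 d := by
  have h2 : (0:ℤ) < 2 ^ d := by positivity
  have hup : ∀ (α : Fin 3 → ℤ) j, up m (m + d) α j = α j * 2 ^ d := fun α j => by
    show 2 ^ (m + d - m) * α j = _
    rw [Nat.add_sub_cancel_left, mul_comm]
  rw [mem_rect, mem_rect, mem_subs]
  simp only [hup, parI]
  constructor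
  · rintro ⟨h3, h4⟩
    have h5 : w 2 / 2 ^ d = α 2 := by rw [h3, Int.mul_ediv_cancel _ h2.ne']
    refine ⟨⟨h5, fun j hj => ?_⟩, by rw [h5, h3], fun j hj => ?_⟩
    · obtain ⟨h6, h7⟩ := h4 j hj
      exact ⟨(Int.le_ediv_iff_mul_le h2).2 h6, (Int.ediv_lt_iff_lt_mul h2).2 h7⟩
    · exact ⟨Int.ediv_mul_le _ h2.ne', Int.lt_ediv_add_one_mul_self _ h2⟩
  · rintro ⟨⟨h3, h4⟩, h5, h6⟩
    refine ⟨by rw [h5, h3], fun j hj => ?_⟩
    obtain ⟨h7, h8⟩ := h4 j hj
    obtain ⟨h9, h10⟩ := h6 j hj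
    have h8' : w j / 2 ^ d + 1 ≤ β j := h8
    constructor
    · exact (mul_le_mul_of_nonneg_right h7 h2.le).trans h9
    · exact lt_of_lt_of_le h10 (mul_le_mul_of_nonneg_right h8' h2.le)

theorem rect_up {m d : ℕ} {α β : Fin 3 → ℤ} :
    rect (up m (m + d) α) (up m (m + d) β) = (rect α β).biUnion fun k => subs k 2 d := by
  ext w
  rw [mem_rect_up, Finset.mem_biUnion]
  constructor
  · rintro ⟨h1, h2⟩; exact ⟨_, h1, h2⟩
  · rintro ⟨k, h1, h2⟩
    rw [parI_eq h2]; exact ⟨h1, h2⟩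

theorem subs_disjC (d : ℕ) (S : Set (Fin 3 → ℤ)) : S.PairwiseDisjoint fun k => subs k 2 d := by
  intro k _ k' _ hkk
  show Disjoint (subs k 2 d) (subs k' 2 d)
  rw [Finset.disjoint_left]
  intro w hw hw'
  exact hkk ((parI_eq hw).symm.trans (parI_eq hw'))

/-- a small square in a large square belongs to the subdivision -/
theorem subs_of_squ_sub {v : V} {m d : ℕ} {k k₀ : Fin 3 → ℤ}
    (h : squ v ((m + d, k), 2) ⊆ squ v ((m, k₀), 2)) : k ∈ subs k₀ 2 d := by
  have hm : (0:ℝ) < 2 ^ m := by positivity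
  have hd : (0:ℝ) < 2 ^ d := by positivity
  have e : (2:ℝ) ^ (m + d) = 2 ^ m * 2 ^ d := pow_add _ _ _
  have h1 : (fun j => v j + (k j : ℝ) / 2 ^ (m + d)) ∈ squ v ((m + d, k), 2) := by
    refine ⟨rfl, fun j _ => ⟨le_rfl, ?_⟩⟩
    show v j + (k j : ℝ) / 2 ^ (m + d) ≤ v j + (k j + 1) / 2 ^ (m + d)
    gcongr
    linarith
  have h2 : (fun j => if j = 2 then v 2 + (k 2 : ℝ) / 2 ^ (m + d) else
      v j + ((k j : ℝ) + 1) / 2 ^ (m + d)) ∈ squ v ((m + d, k), 2) := by
    refine ⟨by simp, fun j hj => ?_⟩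
    simp only at hj ⊢
    rw [if_neg hj]
    refine ⟨?_, le_rfl⟩
    gcongr
    linarith
  have g1 := h h1
  have g2 := h h2
  rw [mem_subs]
  refine ⟨?_, fun j hj => ⟨?_, ?_⟩⟩
  · have := g1.1
    simp only [e] at this
    have h3 : (k 2 : ℝ) / (2 ^ m * 2 ^ d) = k₀ 2 / 2 ^ m := by linarith
    have h4 : (k 2 : ℝ) = k₀ 2 * 2 ^ d := by
      field_simp at h3
      linarith
    exact_mod_cast h4
  · have := (g1.2 j hj).1
    simp only [e] at this
    have h3 : (k₀ j : ℝ) / 2 ^ m ≤ k j / (2 ^ m * 2 ^ d) := by linarith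
    rw [div_le_div_iff₀ hm (by positivity)] at h3
    have h4 : (k₀ j : ℝ) * 2 ^ d ≤ k j := by
      have : ((k₀ j : ℝ) * 2 ^ d) * 2 ^ m ≤ k j * 2 ^ m := by linarith
      exact le_of_mul_le_mul_right this hm
    exact_mod_cast h4
  · have := (g2.2 j hj).2
    simp only [e, if_neg hj] at this
    have h3 : ((k j : ℝ) + 1) / (2 ^ m * 2 ^ d) ≤ (k₀ j + 1) / 2 ^ m := by linarith
    rw [div_le_div_iff₀ (by positivity) hm] at h3
    have h4 : (k j : ℝ) + 1 ≤ (k₀ j + 1) * 2 ^ d := by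
      have : ((k j : ℝ) + 1) * 2 ^ m ≤ ((k₀ j + 1) * 2 ^ d) * 2 ^ m := by linarith
      exact le_of_mul_le_mul_right this hm
    have h5 : k j + 1 ≤ (k₀ j + 1) * 2 ^ d := by exact_mod_cast h4
    exact h5

theorem card_rect_up (m d : ℕ) (α β : Fin 3 → ℤ) :
    (rect (up m (m + d) α) (up m (m + d) β)).card = (rect α β).card * 4 ^ d := by
  rw [rect_up, Finset.card_biUnion (fun x hx y hy hxy => subs_disjC d univ (mem_univ x) (mem_univ y)
    hxy), Finset.sum_congr rfl fun k _ => card_subs k 2 d, Finset.sum_const, smul_eq_mul]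

/-- **[COUNT]** -/
theorem specCount : SpecCount := by
  classical
  intro v m n₃ nS α β h1 h2
  obtain ⟨d, rfl⟩ := Nat.exists_eq_add_of_le h1
  obtain ⟨d', rfl⟩ := Nat.exists_eq_add_of_le h2
  refine ⟨?_, ?_, ?_, ?_⟩
  · rw [card_rect_up, pow_add]
    push_cast
    field_simp
  · rintro k ⟨k₀, hk₀, hk⟩
    rw [rect_up, Finset.mem_biUnion]
    exact ⟨k₀, hk₀, subs_of_squ_sub hk⟩
  · intro H hH
    rw [rect_up, Finset.sum_biUnion (subs_disjC d _)]
    exact Finset.sum_congr rfl fun k _ => sInt_split v m k 2 d hH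
  · have hup : ∀ α : Fin 3 → ℤ, up m (m + d + d') α = up (m + d) (m + d + d') (up m (m + d) α) := by
      intro α
      funext j
      show 2 ^ (m + d + d' - m) * α j = 2 ^ (m + d + d' - (m + d)) * (2 ^ (m + d - m) * α j)
      rw [Nat.add_sub_cancel_left, Nat.add_sub_cancel_left,
        show m + d + d' - m = d' + d by omega, pow_add]
      ring
    rw [hup α, hup β]
    refine ⟨parI d', fun k hk => ?_, fun k₃ hk₃ => ?_⟩
    · obtain ⟨h3, h4⟩ := mem_rect_up.1 hk
      exact ⟨h3, squ_sub_of_subs h4⟩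
    · have h3 : ((rect (up (m + d) (m + d + d') (up m (m + d) α))
          (up (m + d) (m + d + d') (up m (m + d) β))).filter fun k => parI d' k = k₃) ⊆
          subs k₃ 2 d' := by
        intro k hk
        obtain ⟨h4, h5⟩ := Finset.mem_filter.1 hk
        have := (mem_rect_up.1 h4).2
        rwa [h5] at this
      have h4 := Finset.card_le_card h3
      rw [card_subs] at h4
      have h5 : ((((rect (up (m + d) (m + d + d') (up m (m + d) α))
          (up (m + d) (m + d + d') (up m (m + d) β))).filter fun k => parI d' k = k₃).card : ℕ) :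
          ℝ) ≤ 4 ^ d' := by exact_mod_cast h4
      rw [pow_add _ (m + d) d', div_le_div_iff₀ (by positivity) (by positivity)]
      nlinarith [pow_pos (show (0:ℝ) < 4 by norm_num) (m + d)]

end Vale.Agent.P073.H407
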