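import Vale.Agent.P073.GB932.Comp
import Vale.Agent.P073.H407.CleanE2
import Vale.Agent.P073.H407.DefsE

/-!
# P073, GAP-CLOSE (helper407): the block GB with control of the size
-/

open Set Metric Topology Filter

namespace P073.GB932

open P073 P073.PR720 P073.GB73
open Vale.Agent.P073.St (V)

/-- **(GBE)** the block `SpecGB` with control of the size: the collar map moves the points of the
box by at most `ε`; the tiles `ix i` stay in the sets `O i`, outside of the box. -/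
def SpecGBE : Prop :=
  ∀ (Vx B J I : Type) (e0 e1 : B → Vx) (inc : B → J → Prop) (qC : J → I → Prop) (Ω Λ : Set V)
    (K : Cx3 e0 e1 inc qC Ω) (h : ConHomeo Ω Λ), IsOpen Ω → IsOpen Λ →
  ∀ (a b : V) (m : ℝ), 0 < m → (∀ i, 2 * m < b i - a i) →
  ∀ (F : Finset J) (A : J → Body) (P : J → Set B) (y : J → ℝ → B → V)
    (A0 : Body) (P0 : Set B) (y0 : ℝ → B → V) (p : B → V) (M : Set B)
    (L : (t : A0.T) → ConHomeo (Icc a b) (A0.at t)),
    (∀ σ ∈ F, (A σ).Good Λ) → A0.Good Λ → (∀ σ ∈ F, Pat inc (P σ)) → Pat inc P0 →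
    (∀ σ ∈ F, ∀ t ∈ (A σ).T, Crosses K.toGraph h.toFun ((A σ).at t) (P σ) (y σ t)) →
    (∀ t ∈ A0.T, Crosses K.toGraph h.toFun (A0.at t) P0 (y0 t)) →
    (∀ σ ∈ F, ∀ t ∈ (A σ).T, h.toFun '' (K.toCx2.bd σ) ⊆ interior ((A σ).at t)) →
    (∀ σ ∈ F, ∀ τ ∈ F, σ ≠ τ → ∀ t ∈ (A σ).T, ∀ s ∈ (A τ).T,
      IsPreconnected (frontier ((A τ).at s) \ interior ((A σ).at t)) ∧
      ∃ b ∈ P τ, y τ s b ∉ interior ((A σ).at t)) →
    (∀ σ ∈ F, ∀ t ∈ (A σ).T, ∀ s ∈ A0.T,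
      IsPreconnected (frontier (A0.at s) \ interior ((A σ).at t)) ∧
      ∃ b ∈ P0, y0 s b ∉ interior ((A σ).at t)) →
    DomCut K (Icc a b) P0 p →
    (∀ t ∈ A0.T, ∀ v, K.y v ∈ interior (Icc a b) ↔ h.toFun (K.y v) ∈ interior (A0.at t)) →
    -- marked points
    M ⊆ P0 → (∀ i ∈ M, ∃ k, (p i k = a k ∨ p i k = b k) ∧
      ∀ j ≠ k, a j + m ≤ p i j ∧ p i j ≤ b j - m) →
    (∀ t : A0.T, ∀ i ∈ M, y0 t i = (L t).toFun (p i)) →
    -- closeness: `ρ` is the number of `SpecCollar`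
  ∀ ρ ε : ℝ, Cell.CollarPropE a b m (p '' M) ρ ε →
    (∀ c, ¬ Disjoint (K.cell c) (frontier (Icc a b)) → ∃ W : Set V,
      (∀ j, qC j c → {i | inc i j ∧ i ∈ P0} ≠ ∅ → j ∈ F ∧ ∀ t ∈ (A j).T, (A j).at t ⊆ W) ∧
      ∀ t : A0.T, IsPreconnected (frontier (A0.at t) \ W) ∧
        (∃ i ∈ P0, p i ∉ K.cell c ∧ y0 t i ∉ W) ∧
        ∀ x ∈ K.cell c ∩ frontier (Icc a b), ∀ z ∈ frontier (Icc a b),
          (L t).toFun z ∈ W → ‖z - x‖ ≤ ρ) →
  ∀ χ : (t : A0.T) → (i : B) → ConHomeo (K.arc i) (K.arc i),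
    (∀ t i, (χ t i).toFun (K.y (e0 i)) = K.y (e0 i)) →
    (∀ t i, (χ t i).toFun (K.y (e1 i)) = K.y (e1 i)) →
    (∀ t, ∀ i ∉ P0, ∀ x ∈ K.arc i, (χ t i).toFun x = x) →
    (∀ t : A0.T, ∀ i ∈ P0, h.toFun ((χ t i).toFun (p i)) = y0 t i) →
    -- protected set
  ∀ Z, Prot K Z → Disjoint Z (Icc a b) →
    (∀ c, ¬ Disjoint (K.cell c) (frontier (Icc a b)) → Disjoint Z (K.cell c)) →
    (∀ σ ∈ F, ∀ s ∈ (A σ).T, Disjoint (h.toFun '' Z) ((A σ).at s)) →
    (∀ s ∈ A0.T, Disjoint (h.toFun '' Z) (A0.at s)) →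
    -- the other tiles
  ∀ (G : Type) (ix : G → J) (O : G → Set V), (∀ i, h.toFun '' K.tile (ix i) ⊆ O i) →
    (∀ i, ∀ σ ∈ F, ∀ t ∈ (A σ).T, frontier ((A σ).at t) ⊆ O i ∨
      (IsPreconnected (frontier ((A σ).at t) \ O i) ∧ ∃ b ∈ P σ, y σ t b ∉ O i)) →
    (∀ i, ∀ t ∈ A0.T, frontier (A0.at t) ⊆ O i ∨
      (IsPreconnected (frontier (A0.at t) \ O i) ∧ ∃ b ∈ P0, y0 t b ∉ O i)) →
  ∀ θ, 0 < θ → θ < m →
    ∃ (h3 : ConHomeo Ω Λ) (t : A0.T),
      (∀ i, ∀ x ∈ K.arc i, x ∉ interior (Icc a b) → h3.toFun x = h.toFun ((χ t i).toFun x)) ∧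
      EqOn h3.toFun h.toFun Z ∧
      h3.toFun '' Icc a b = A0.at t ∧
      (∀ x ∈ shr a b θ, h3.toFun x = (L t).toFun x) ∧
      (∀ i ∈ M, ∀ z ∈ Icc a b, ‖z - p i‖ ≤ m →
        (∃ k, (p i k = a k ∨ p i k = b k) ∧ (∀ j ≠ k, z j = p i j)) →
        h3.toFun z = (L t).toFun z) ∧
      -- control of the size
      (∀ x ∈ Icc a b, ∃ x' ∈ Icc a b, ‖x' - x‖ ≤ ε ∧ h3.toFun x = (L t).toFun x') ∧
      ∃ h' : ConHomeo Ω Λ, (∀ i, h'.toFun '' K.tile (ix i) ⊆ O i) ∧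
        (∀ j, ∀ x ∈ K.tile j, x ∉ interior (Icc a b) → h3.toFun x ∈ h'.toFun '' K.tile j) ∧
        ∀ c, ∀ x ∈ K.cell c, x ∉ interior (Icc a b) → h3.toFun x ∈ h'.toFun '' K.cell c

/-- **(GBE)** composition. -/
theorem specGBE_of (hclean : GB3.SpecCleanE) (hcut : SpecCut') : SpecGBE := by
  intro Vx B J I e0 e1 inc qC Ω Λ K h hΩ hΛ a b m hm hab F A P y A0 P0 y0 p M L hA hA0 hP hP0 hc hc0
    hbd hsep hsep0 hdom hv hM hMk hyL ρ ε hcol hW χ χ0 χ1 χ2 χ3 Z hZ hZR hZc hZF hZ0 G ix O hO hOs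
    hOs0 θ hθ hθm
  obtain ⟨h', t, t0, ht, ht0, harc, hZ', htile, hu0, hcr, hd, hG, -⟩ := hclean Vx B J I e0 e1 inc qC Ω Λ K h
    hΩ hΛ F A P y A0 P0 y0 hA hA0 hP hP0 hc hc0 hbd hsep hsep0 Z hZ hZF hZ0 G ix O hO hOs hOs0
  have hA0c : IsCompact (A0.at t0) := isCompact_at hA0 t0
  have hA0Λ : A0.at t0 ⊆ Λ := hA0.sub t0 ht0
  have hball : ConBall 3 (A0.at t0) (frontier (A0.at t0)) := hA0.ball t0 ht0
  have hyarc : ∀ v, ∃ i, K.y v ∈ K.arc i := by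
    intro v
    obtain ⟨i, hi⟩ := K.vert_arc v
    rcases hi with rfl | rfl
    · exact ⟨i, (K.ball i).1 (Or.inl rfl)⟩
    · exact ⟨i, (K.ball i).1 (Or.inr rfl)⟩
  have hhy : ∀ v, h'.toFun (K.y v) = h.toFun (K.y v) := fun v => by
    obtain ⟨i, hi⟩ := hyarc v
    exact harc i hi
  have hcr' : Crosses K.toGraph h'.toFun (A0.at t0) P0 (y0 t0) := by
    have himg : ∀ i, h'.toFun '' K.arc i = h.toFun '' K.arc i := fun i => (harc i).image_eq
    constructor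
    · intro i hi
      rw [himg]; exact (hc0 t0 ht0).off i hi
    · intro i hi
      rw [himg]; exact (hc0 t0 ht0).on i hi
    · intro i hi
      rw [hhy, hhy]; exact (hc0 t0 ht0).ends i hi
  let χ' : (i : B) → ConHomeo (K.arc i) (K.arc i) := χ ⟨t0, ht0⟩
  have hparc : ∀ i ∈ P0, p i ∈ K.arc i ∩ frontier (Icc a b) := fun i hi =>
    (fullCut_of_domCut hdom).mem_arc hi
  obtain ⟨h2, k1, k2, k3, k4, k5, k6⟩ := hcut Vx B J I e0 e1 inc qC Ω Λ K h' hΩ hΛ (A0.at t0) P0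
    (y0 t0) (Icc a b) p hball hA0Λ hP0 hcr' hdom hu0 hcr hd
    (fun v => by rw [hhy]; exact hv t0 ht0 v) χ' (χ0 _) (χ1 _) (χ2 _)
    (fun i hi => by
      rw [harc i ((χ' i).mapsTo (hparc i hi).1)]
      exact χ3 ⟨t0, ht0⟩ i hi)
  have hRcl : IsClosed (Icc a b) := isClosed_Icc
  have hRΩ : (Icc a b) ⊆ Ω := hdom.sub
  have hRc : LocCone (Icc a b) := locCone_Icc_pi a b
  have hfR : ConicalSet (frontier (Icc a b)) := hRc.frontier.conicalSet
  have hfRR : frontier (Icc a b) ⊆ (Icc a b) := hRcl.frontier_subset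
  let L0 : ConHomeo (Icc a b) (A0.at t0) := L ⟨t0, ht0⟩
  have hLf : L0.toFun '' frontier (Icc a b) = frontier (A0.at t0) :=
    image_frontier_eq L0 hRcl hA0c.isClosed
  -- the comparison map on the surface
  let gf : ConHomeo (frontier (Icc a b)) (frontier (A0.at t0)) :=
    (h2.restr hfR (hfRR.trans hRΩ)).cast rfl k6
  let Lf : ConHomeo (frontier (Icc a b)) (frontier (A0.at t0)) := (L0.restr hfR hfRR).cast rfl hLf
  let φ : ConHomeo (frontier (Icc a b)) (frontier (Icc a b)) := gf.trans Lf.symm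
  have hLφ : ∀ x ∈ frontier (Icc a b), L0.toFun (φ.toFun x) = h2.toFun x := fun x hx =>
    Lf.right_inv (gf.mapsTo hx)
  have hφinv : ∀ x, φ.toFun x = L0.invFun (h2.toFun x) := fun _ => rfl
  -- the marked points
  have hφM : ∀ x ∈ p '' M, φ.toFun x = x := by
    rintro _ ⟨i, hi, rfl⟩
    have hiP := hM hi
    rw [hφinv, k1 i _ (hparc i hiP).1, harc i ((χ' i).mapsTo (hparc i hiP).1),
      show h.toFun ((χ' i).toFun (p i)) = y0 t0 i from χ3 ⟨t0, ht0⟩ i hiP,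
      show y0 t0 i = L0.toFun (p i) from hyL ⟨t0, ht0⟩ i hi,
      L0.left_inv (hfRR (hparc i hiP).2)]
  -- closeness
  have hφρ : ∀ x ∈ frontier (Icc a b), ‖φ.toFun x - x‖ ≤ ρ := by
    intro x hx
    have hxΩ : x ∈ Ω := hRΩ (hfRR hx)
    have hxc : x ∈ ⋃ c, K.cell c := by rw [K.cover]; exact hxΩ
    obtain ⟨c, hc⟩ := mem_iUnion.1 hxc
    have hnd : ¬ Disjoint (K.cell c) (frontier (Icc a b)) := fun hd => disjoint_left.1 hd hc hx
    obtain ⟨W, w1, w2⟩ := hW c hnd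
    obtain ⟨w3, ⟨i, hiP, -, hiW⟩, w4⟩ := w2 ⟨t0, ht0⟩
    refine w4 x ⟨hc, hx⟩ _ (φ.mapsTo hx) ?_
    show L0.toFun (φ.toFun x) ∈ W
    rw [hLφ x hx]
    have hfx : h2.toFun x ∈ frontier (A0.at t0) := by rw [← k6]; exact mem_image_of_mem _ hx
    have hcx : h2.toFun x ∈ h'.toFun '' K.cell c := by rw [← k3]; exact mem_image_of_mem _ hc
    by_contra hxW
    -- the rest of the surface misses the cell
    have hiarc : p i ∈ K.arc i := (hparc i hiP).1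
    have hyi : y0 t0 i = h'.toFun ((χ' i).toFun (p i)) := by
      rw [harc i ((χ' i).mapsTo hiarc)]
      exact (χ3 ⟨t0, ht0⟩ i hiP).symm
    have hyif : y0 t0 i ∈ frontier (A0.at t0) := by
      have := hcr'.on i hiP
      have h3 : y0 t0 i ∈ h'.toFun '' K.arc i ∩ frontier (A0.at t0) := by
        rw [this]; exact mem_singleton _
      exact h3.2
    have hopen : IsOpen (h'.toFun '' (K.cell c \ sk2 K)) := by
      have : h'.toFun '' (K.cell c \ sk2 K) = Λ ∩ h'.invFun ⁻¹' (K.cell c \ sk2 K) := by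
        ext z
        constructor
        · rintro ⟨u, hu, rfl⟩
          have huΩ := cell_subset K c hu.1
          refine ⟨h'.mapsTo huΩ, ?_⟩
          show h'.invFun (h'.toFun u) ∈ K.cell c \ sk2 K
          rw [h'.left_inv huΩ]; exact hu
        · rintro ⟨hz, hz'⟩
          exact ⟨_, hz', h'.right_inv hz⟩
      rw [this]
      exact h'.cont_inv.isOpen_inter_preimage hΛ (isOpen_cell hΩ c)
    have hclosed : IsClosed (h'.toFun '' K.cell c) :=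
      ((K.cball c).isCompact.image_of_continuousOn (h'.cont.mono (cell_subset K c))).isClosed
    have hcov : frontier (A0.at t0) \ W ⊆ (h'.toFun '' (K.cell c \ sk2 K)) ∪
        (h'.toFun '' K.cell c)ᶜ := by
      rintro z ⟨hz, hzW⟩
      by_cases hzc : z ∈ h'.toFun '' K.cell c
      · left
        obtain ⟨u, hu, rfl⟩ := hzc
        refine ⟨u, ⟨hu, fun hus => hzW ?_⟩, rfl⟩
        have h3 : u ∈ cbd K c := cell_inter_sk2 (K := K) c ▸ ⟨hu, hus⟩
        obtain ⟨j, hj, huj⟩ := mem_iUnion₂.1 h3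
        by_cases hjc : {i | inc i j ∧ i ∈ P0} = ∅
        · exact absurd hz (disjoint_left.1 (hu0 j hjc) (mem_image_of_mem _ huj))
        · obtain ⟨hjF, hjW⟩ := w1 j hj hjc
          exact hjW _ (ht j hjF) (interior_subset (htile j hjF (mem_image_of_mem _ huj)))
      · exact Or.inr hzc
    have hdis : h'.toFun '' (K.cell c \ sk2 K) ∩ (h'.toFun '' K.cell c)ᶜ = ∅ := by
      rw [← disjoint_iff_inter_eq_empty, disjoint_left]
      exact fun z hz hz' => hz' (image_mono sdiff_subset hz)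
    rcases (isPreconnected_iff_subset_of_disjoint.1 w3) _ _ hopen hclosed.isOpen_compl hcov
      (by rw [hdis, inter_empty]) with h3 | h3
    · obtain ⟨u, hu, hue⟩ := h3 ⟨hyif, hiW⟩
      rw [hyi] at hue
      have hχΩ : (χ' i).toFun (p i) ∈ Ω := by
        apply sk2_subset K
        exact net_subset_sk2 K (mem_iUnion.2 ⟨i, (χ' i).mapsTo hiarc⟩)
      have := h'.injOn (cell_subset K c hu.1) hχΩ hue
      rw [this] at hu
      exact hu.2 (net_subset_sk2 K (mem_iUnion.2 ⟨i, (χ' i).mapsTo hiarc⟩))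
    · exact h3 ⟨hfx, hxW⟩ hcx
  obtain ⟨Φ, f1, f2, f3, f4⟩ := hcol φ hφM hφρ θ hθ hθm
  obtain ⟨h3, g1, g2⟩ := exists_replace hΩ hRcl hRΩ hRc hA0c.isClosed h2 k5 k6 (Φ.trans L0)
    (fun x hx => by
      show L0.toFun (Φ.toFun x) = _
      rw [f1 hx, hLφ x hx])
  refine ⟨h3, ⟨t0, ht0⟩, ?_, ?_, ?_, ?_, ?_, ?_, h', hG, ?_, ?_⟩
  · intro i x hx hxi
    have hxΩ : x ∈ Ω := sk2_subset K (net_subset_sk2 K (mem_iUnion.2 ⟨i, hx⟩))
    rw [g2 x hxΩ hxi, k1 i x hx, harc i ((χ' i).mapsTo hx)]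
  · intro x hx
    have hxΩ := hZ.sub hx
    have hxc : x ∈ ⋃ c, K.cell c := by rw [K.cover]; exact hxΩ
    obtain ⟨c, hc⟩ := mem_iUnion.1 hxc
    have hcd : Disjoint (K.cell c) (frontier (Icc a b)) := by
      by_contra hnd
      exact disjoint_left.1 (hZc c hnd) hx hc
    rw [g2 x hxΩ (fun hi => disjoint_left.1 hZR hx (interior_subset hi)), k4 c hcd hc, hZ' hx]
  · rw [g1.image_eq]
    exact (Φ.trans L0).image_eq
  · intro x hx
    have hxR : x ∈ (Icc a b) := ⟨fun i => by have := hx.1 i; simp only at this; linarith,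
      fun i => by have := hx.2 i; simp only at this; linarith⟩
    rw [g1 hxR]
    show L0.toFun (Φ.toFun x) = L0.toFun x
    rw [f2 x hx]
  · intro i hi z hz hzm hzk
    rw [g1 hz]
    show L0.toFun (Φ.toFun z) = L0.toFun z
    rw [f3 (p i) (mem_image_of_mem _ hi) z hz hzm hzk]
  · intro x hx
    refine ⟨Φ.toFun x, Φ.mapsTo hx, f4 x hx, ?_⟩
    rw [g1 hx]
    rfl
  · intro j x hx hxi
    rw [g2 x (tile_subset K j hx) hxi, ← k2]
    exact mem_image_of_mem _ hx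
  · intro c x hx hxi
    rw [g2 x (cell_subset K c hx) hxi, ← k3]
    exact mem_image_of_mem _ hx

/-- **(GBE)** unconditional -/
theorem specGBE : SpecGBE := specGBE_of GB3.specCleanE specCut'_unc

end P073.GB932
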