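import Vale.Agent.P073.Main.Final
import Vale.Agent.P073.H73.PostD
import Vale.Agent.P073.H73.K2S
import Vale.Agent.P073.H471.K2AofC
import Vale.Agent.P073.H235.R2Spec
import Vale.Agent.P073.H235.Red3
import Vale.Agent.P073.H253.Rank1
import Vale.Agent.P073.H582.ConC5
import Vale.Agent.P073.H582.ConC7
import Vale.Agent.P073.H761.C1
import Vale.Agent.P073.H761.UncAll
import Vale.Agent.P073.H732.C3
import Vale.Agent.P073.H190.ConB
import Vale.Agent.P073.H190.ConB2
import Vale.Agent.P073.H304.K3C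

/-!
# P073: the top of the proof (helper407)

Everything which is proved is plugged in; the hypotheses of `all` are the open statements.
-/

namespace Vale.Agent.P073.H407.Glue

open MeasureTheory Set Filter Topology Metric
open Vale.Agent.P073.St (V Mat)
open Vale.Agent.P073.SQ (ev)
open Vale.Agent.P073.LOC (LocThm)
open Vale.Agent.P073.H235 (P1 P2 M1P FDFace SpecFlat SpecConFlat SpecPreFlat SpecPostFlat)
open Vale.Agent.P073.H253 (SpecConBeamT)
open Vale.Agent.P073.H73 (K2C K2AS K2A SpecPre SpecPost)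
open Vale.Agent.P073.H304 (K3C)

/-- the result for the exponent `p` -/
def Res (p : ℝ) : Prop :=
  ∀ (Ω Λ : Set V), St.IsBoundedDomain Ω → St.IsBoundedDomain Λ → ∀ f : V → V,
    St.IsHomeo Ω Λ f → ∀ F : V → Mat, St.IsSobolev p Ω f F → St.DiffeoApproximable p Ω Λ f F

theorem res_lt_two {p : ℝ} (hp : 1 ≤ p) (hp2 : p < 2) : Res p :=
  fun Ω Λ hΩ hΛ f hf F hF => _root_.P073.Main.final p Ω Λ f F hp hp2 hΩ hΛ hf hF

/-- **every exponent**: finite distortion and the two local theorems -/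
theorem res_of {p : ℝ} (hp : 1 ≤ p) (hM : M1P p) (h1 : LocThm p P1) (h2 : LocThm p P2) : Res p :=
  fun _ _ hΩ hΛ _ hf _ hF => H235.red_final hp hM ((H582.specC8 p hp).1 h1)
    ((H582.specC8 p hp).2 h2) hΩ hΛ hf hF

theorem P1_one : P1 (ev 1) = 0 := by
  ext i; simp [P1, ev]

theorem P1_two : P1 (ev 2) = 0 := by
  ext i; simp [P1, ev]

theorem P2_two : P2 (ev 2) = 0 := by
  ext i; fin_cases i <;> simp [P2, ev]

/-! ### `p < 3` -/

theorem locThm_two {p : ℝ} (hp : 1 ≤ p) (hp3 : p < 3) (h : SpecConFlat p P2) : LocThm p P2 :=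
  H761.specUncollapse_all p P2 hp P2_two (H582.specC5 p P2 hp hp3 H761.specC1 H732.specC3 h)

theorem locThm_one {p : ℝ} (hp : 1 ≤ p) (hp3 : p < 3) (h : SpecConBeamT p P1) : LocThm p P1 :=
  H253.locThm_of_conBeamT hp hp3 P1_one P1_two h

/-- **branch A** -/
theorem res_lt_three {p : ℝ} (hp : 2 ≤ p) (hp3 : p < 3) (hK : K2C p) (hPre : SpecPre p)
    (hPF : SpecPreFlat p) (hPoF : SpecPostFlat p) (hB : K2AS p → SpecConBeamT p P1) : Res p := by
  have hp1 : 1 ≤ p := by linarith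
  have hKS : K2AS p := H471.k2as_of_k2c (by linarith) hK
  exact res_of hp1 (H235.m1P_of_face hp1 hp3 (H73.fdFace_of_pre hp1 (H73.k2a_of_k2as hKS) hPre))
    (locThm_one hp1 hp3 (hB hKS))
    (locThm_two hp1 hp3 (H235.specConFlat_of hKS hPF hPoF))

/-! ### `3 ≤ p` -/

theorem locThm_twoB {p : ℝ} (hp : 1 ≤ p) (h : H190.SpecConFlatB p P2) : LocThm p P2 := by
  obtain ⟨D, hD, hC1⟩ := H190.specC1B hp
  obtain ⟨C, hC, hCF⟩ := h
  refine H761.specUncollapse_all p P2 hp P2_two (H582.specFlat_of_outC1 hp H732.specC3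
    ⟨D * C, by positivity, fun ν hν hν4 => ?_⟩)
  obtain ⟨θ₀, hθ₀, hCF⟩ := hCF ν hν hν4
  refine ⟨θ₀, hθ₀, fun θ hθ hθle τ hτ hτθ ε hε => ?_⟩
  obtain ⟨κ, hκ, hCF⟩ := hCF θ hθ hθle τ hτ (ε / D) (div_pos hε hD)
  refine ⟨κ, hκ, fun Λ f F hf => ?_⟩
  have h1 := hC1 C θ ν τ (ε / D) P2 Λ f hC hθ hν hν4 hτθ (div_pos hε hD) hf.dom (hCF Λ f F hf)
  have hD' : D * (ε / D) = ε := by field_simp
  rw [hD'] at h1
  exact h1

theorem locThm_oneB {p : ℝ} (hp : 1 ≤ p) (h : H190.SpecConBeamTB p P1) : LocThm p P1 :=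
  H253.locThm_of_conBeamTB hp P1_one P1_two h

/-- **branch B** -/
theorem res_ge_three {p : ℝ} (hp : 3 ≤ p) (hK : K3C p) (hM : K3C p → M1P p)
    (hF : K3C p → H190.SpecConFlatB p P2) (hB : K3C p → H190.SpecConBeamTB p P1) : Res p := by
  have hp1 : 1 ≤ p := by linarith
  exact res_of hp1 (hM hK) (locThm_oneB hp1 (hB hK)) (locThm_twoB hp1 (hF hK))

/-! ### All exponents -/

/-- the open statements of branch A (`2 ≤ p < 3`) -/
structure OpenA (p : ℝ) : Prop where
  /-- A14 (helper345) -/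
  k2c : K2C p
  /-- A15-PRE (helper333; `p = 2`: helper234) -/
  pre : SpecPre p
  /-- A16, rank two (helper235) -/
  preFlat : SpecPreFlat p
  /-- A16, rank two (helper73) -/
  postFlat : SpecPostFlat p
  /-- A16, rank one (helper253) -/
  beam : K2AS p → SpecConBeamT p P1

/-- the open statements of branch B (`3 ≤ p`) -/
structure OpenB (p : ℝ) : Prop where
  /-- B08 (helper936) -/
  k3c : K3C p
  /-- B09 (helper696) -/
  fd : K3C p → M1P p
  /-- B10, rank two (helper239) -/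
  flat : K3C p → H190.SpecConFlatB p P2
  /-- B10, rank one (helpers 253, 239) -/
  beam : K3C p → H190.SpecConBeamTB p P1

theorem all_lt_three (hA : ∀ p, 2 ≤ p → p < 3 → OpenA p) {p : ℝ} (hp : 1 ≤ p) (hp3 : p < 3) :
    Res p := by
  rcases lt_or_ge p 2 with h2 | h2
  · exact res_lt_two hp h2
  · have h := hA p h2 hp3
    exact res_lt_three h2 hp3 h.k2c h.pre h.preFlat h.postFlat h.beam

/-- **the solution of the problem** -/
theorem all (hA : ∀ p, 2 ≤ p → p < 3 → OpenA p) (hB : ∀ p, 3 ≤ p → OpenB p) {p : ℝ}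
    (hp : 1 ≤ p) : Res p := by
  rcases lt_or_ge p 3 with h3 | h3
  · exact all_lt_three hA hp h3
  · have h := hB p h3
    exact res_ge_three h3 h.k3c h.fd h.flat h.beam

end Vale.Agent.P073.H407.Glue
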