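import Vale.Agent.P073.H926.MonoZ
import Vale.Agent.P073.H407.InW0

/-!
# P073, block B00: the input of `K3C` for a mesh with cut passive faces, the maximal drawn cells
-/

open Set Metric Topology
open scoped ENNReal

namespace Vale.Agent.P073.H304

open Vale.Agent.P073
open Vale.Agent.P073.St (V)
open Vale.Agent.P073.H73 (Mesh sqr ctr onSeg)
open _root_.P073 (ConHomeo)
open _root_.P073.Net (len dyc dyo IsTile SizeFn)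

variable {Ω Λ : Set V} {η δ c₀ : ℝ} {v w : V} {ρ : V → ℝ} {M : Mesh Ω} {h : V → V}
  {J₀ J : Set (ℕ × (Fin 3 → ℤ))} {P Z : Set M.ι}

theorem InW.sub_Zmax (H : InW (Λ := Λ) η δ c₀ v w ρ M h J₀ J P Z) {η' : ℝ} (hη : η ≤ η') :
    Z ⊆ Zmax M w h J₀ P η' := fun i hi =>
  ⟨(H.drawn i hi).1, (H.drawn i hi).2.trans (Nb.mono hη)⟩

/-- drawn cells are dyadic cubes -/
theorem InW.cube_of_Zmax (H : InW (Λ := Λ) η δ c₀ v w ρ M h J₀ J P Z) {η' : ℝ} (hη : η' ≤ c₀)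
    {i : M.ι} (hi : i ∈ Zmax M w h J₀ P η') : ∃ m z, M.Q i = dyc v m z := by
  obtain ⟨x, hx⟩ := Mesh.nonempty M i
  exact H.cube i hi.1 ⟨h x, ⟨x, hx, rfl⟩, Nb.mono hη (hi.2 ⟨x, hx, rfl⟩)⟩

/-- the faces of drawn cells are dyadic squares -/
theorem InW.face_of_Zmax (H : InW (Λ := Λ) η δ c₀ v w ρ M h J₀ J P Z) {η' : ℝ}
    (hη : η' ≤ 2 * η) (hc : 2 * η ≤ c₀) {i : M.ι} (hi : i ∈ Zmax M w h J₀ P η') {k : M.κ}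
    (hk : M.F k ⊆ M.Q i) : ∃ s : AB.Idx × Fin 3, M.F k = AB.squ v s := by
  obtain ⟨x, hx⟩ := Mesh.face_nonempty M k
  exact H.face k ⟨h x, ⟨x, hx, rfl⟩, Nb.mono (hη.trans hc) (hi.2 ⟨x, hk hx, rfl⟩)⟩
    (Or.inr ⟨i, hk, hi.2.trans (Nb.mono hη)⟩)

/-- the image of a drawn cell is small -/
theorem InW.small_of_Zmax (H : InW (Λ := Λ) η δ c₀ v w ρ M h J₀ J P Z) {η' : ℝ} (hη : η' ≤ c₀)
    {i : M.ι} (hi : i ∈ Zmax M w h J₀ P η') {x : V} (hx : x ∈ M.Q i) :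
    ∃ t ∈ J₀, h x ∈ Nb w {t} η' ∧
      ∀ x ∈ M.Q i, ∀ y ∈ M.Q i, ‖h x - h y‖ ≤ δ / 2 ^ t.1 := by
  obtain ⟨t, ht, u, hu, hxu⟩ := hi.2 ⟨x, hx, rfl⟩
  have h1 : h x ∈ Nb w {t} η' := ⟨t, rfl, u, hu, hxu⟩
  exact ⟨t, ht, h1, H.small i hi.1 t ht ⟨h x, ⟨x, hx, rfl⟩, Nb.mono hη h1⟩⟩

end Vale.Agent.P073.H304
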