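import Vale.Agent.P073.PL.Lens932

/-!
# P073, PLATE-E (helper407): the lens, with the cells of the other tiles
-/

open Set Metric Topology Filter MeasureTheory
open scoped ENNReal NNReal

namespace P073.PL

open P073 P073.PR720 P073.GB73 P073.GBM P073.Gauge P073.GB1W P073.Cell P073.Plate
open Vale.Agent.P073.St (V)
open Vale.Agent.P073.AB
open Vale.Agent.P073.SQ (ev)
open P073.Net (dyc dyo)

/-- **(LENSE)** `SpecLens` with information on the other tiles -/
def SpecLensE : Prop :=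
  ∀ (Ω : Set V) (v : V) (I : Set Idx) (T : Set (Idx × Fin 3)) (D : TCx Ω v I T) (n₂ k₁ k₀ : ℕ)
    (z : Fin 3 → ℤ) (k : Fin 3), IsOpen Ω → Part Ω v I → FaceT v I T →
    (∃ s', MinSq v I s' ∧ s'.2 = k ∧ pbox v ((n₂, z), k) (-(1 / 2 ^ n₂)) 0 ⊆ squ v s') →
    (∀ s' : Idx × Fin 3, s'.1.1 = gN n₂ k₁ k₀ → s'.2 = k →
      (squ v s' ∩ squ v ((n₂, z), k)).Nonempty → s' ∈ T) →
    ∀ Z : Set V, Prot D.K Z → Disjoint Z (squ v ((n₂, z), k)) →
    ∃ (J' I' : Type) (inc' : D.B → J' → Prop) (qC' : J' → I' → Prop)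
      (K' : Cx3 D.e0 D.e1 inc' qC' Ω) (δ : ℝ) (cu cd : I'), 0 < δ ∧
      K'.toGraph = D.K.toGraph ∧
      Lat2 K' v (gN n₂ k₁ k₀) k (z k * 2 ^ (k₁ + k₀)) (llo v n₂ z k δ) (lhi v n₂ z k δ) cu cd ∧
      Prot K' Z ∧ Disjoint Z (K'.cell cu) ∧ Disjoint Z (K'.cell cd) ∧
      ∀ s' ∈ T, ¬ squ v s' ⊆ squ v ((n₂, z), k) → ∃ j c, K'.tile j = squ v s' ∧
        K'.tile j ⊆ K'.cell c ∧ c ≠ cu ∧ c ≠ cd

open Lens932

/-- **(LENSE)** -/
theorem specLensE : SpecLensE := by
  intro Ω v I T D n₂ k₁ k₀ z k hΩ hI hT hl hfine Z hZ hZS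
  obtain ⟨qp, hqp, qm, hqm, hpk, hmk, hpi, hmi, hsp, hsm⟩ := two_cells hΩ hI hl
  set H : ℝ := v k + z k / 2 ^ n₂ with hH
  have hht : ht v (gN n₂ k₁ k₀) k (z k * 2 ^ (k₁ + k₀)) = H := ht_eq v n₂ k₁ k₀ z k
  have hp2 : (0:ℝ) < 1 / 2 ^ n₂ := by positivity
  have hpp : (0:ℝ) < 1 / 2 ^ qp.1 := by positivity
  have hpm : (0:ℝ) < 1 / 2 ^ qm.1 := by positivity
  have hpk' := cLo_lt_cHi v qp k
  have hmk' := cLo_lt_cHi v qm k
  -- the thickness
  have hScpt : IsCompact (squ v ((n₂, z), k)) := by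
    have := (P86.isCompact_dyc v qp.1 qp.2).inter_right
      (t := squ v ((n₂, z), k)) (by
        have : squ v ((n₂, z), k) = GB932.fc k H
            (Function.update (llo v n₂ z k 1) k H) (lhi v n₂ z k 1) := (fc_lens one_pos).symm
        rw [this]
        exact isClosed_Icc.inter (isClosed_singleton.preimage (continuous_apply k)))
    rwa [inter_eq_right.2 hsp] at this
  have hSΩ : squ v ((n₂, z), k) ⊆ Ω := hsp.trans (hI.sub qp hqp)
  obtain ⟨ε, hε, hεZ⟩ : ∃ ε > 0, Disjoint (thickening ε (squ v ((n₂, z), k))) (closure Z) := by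
    obtain ⟨ε, hε, h⟩ := hScpt.exists_thickening_subset_open isClosed_closure.isOpen_compl
      (fun x hx hxZ => disjoint_left.1 hZS (hZ.closed x (hSΩ hx) hxZ) hx)
    exact ⟨ε, hε, disjoint_left.2 fun x hx hx' => h hx hx'⟩
  obtain ⟨δ, hδ, hδε, hδp, hδm⟩ : ∃ δ : ℝ, 0 < δ ∧ δ < ε ∧ δ < 1 / 2 ^ qp.1 ∧ δ < 1 / 2 ^ qm.1 := by
    refine ⟨min ε (min (1 / 2 ^ qp.1) (1 / 2 ^ qm.1)) / 2, ?_, ?_, ?_, ?_⟩
    · have : 0 < min ε (min ((1:ℝ) / 2 ^ qp.1) (1 / 2 ^ qm.1)) := by positivity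
      linarith
    · have h1 : min ε (min ((1:ℝ) / 2 ^ qp.1) (1 / 2 ^ qm.1)) ≤ ε := min_le_left _ _
      linarith
    · have h1 : min ε (min ((1:ℝ) / 2 ^ qp.1) (1 / 2 ^ qm.1)) ≤ 1 / 2 ^ qp.1 :=
        (min_le_right _ _).trans (min_le_left _ _)
      linarith
    · have h1 : min ε (min ((1:ℝ) / 2 ^ qp.1) (1 / 2 ^ qm.1)) ≤ 1 / 2 ^ qm.1 :=
        (min_le_right _ _).trans (min_le_right _ _)
      linarith
  set q0 : V := llo v n₂ z k δ with hq0
  set q1 : V := lhi v n₂ z k δ with hq1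
  have h0 : q0 k < H := by rw [hq0, llo_k]; linarith
  have h1 : H < q1 k := by rw [hq1, lhi_k]; linarith
  have hZd : Disjoint Z (Icc q0 q1) := by
    rw [disjoint_left]
    intro x hxZ hx
    refine disjoint_left.1 hεZ ?_ (subset_closure hxZ)
    rw [mem_thickening_iff]
    refine ⟨Function.update x k H, ?_, ?_⟩
    · refine ⟨?_, fun i hi => ?_⟩
      · show Function.update x k H k = v k + z k / 2 ^ n₂
        rw [Function.update_self]
      · have hi : i ≠ k := hi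
        have g1 := hx.1 i
        have g2 := hx.2 i
        rw [hq0, llo_ne hi] at g1
        rw [hq1, lhi_ne hi] at g2
        rw [Function.update_of_ne hi]
        exact ⟨g1, g2⟩
    · have g1 := hx.1 k
      have g2 := hx.2 k
      rw [hq0, llo_k] at g1
      rw [hq1, lhi_k] at g2
      refine lt_of_le_of_lt ?_ hδε
      rw [dist_pi_le_iff hδ.le]
      intro i
      by_cases hi : i = k
      · subst hi
        rw [Function.update_self, Real.dist_eq, abs_le]
        constructor <;> linarith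
      · rw [Function.update_of_ne hi, dist_self]; exact hδ.le
  -- the cells
  have hcu : D.K.cell ⟨qp, hqp⟩ = Icc (cLo v qp) (cHi v qp) := by
    rw [D.cell]; exact dyc_eq v qp
  have hcd : D.K.cell ⟨qm, hqm⟩ = Icc (cLo v qm) (cHi v qm) := by
    rw [D.cell]; exact dyc_eq v qm
  have hne : (⟨qp, hqp⟩ : I) ≠ ⟨qm, hqm⟩ := by
    intro h
    have h' : qp = qm := congrArg Subtype.val h
    rw [h'] at hpk
    linarith
  have hq01 : ∀ i, i ≠ k → q0 i < q1 i := by
    intro i hi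
    rw [hq0, hq1, llo_ne hi, lhi_ne hi, add_div]
    linarith
  have Au : GB932.Att k H (cLo v qp) (cHi v qp) (Function.update q0 k H) q1 := by
    refine ⟨fun i => ?_, fun i hi => ?_, Or.inl ⟨?_, hpk.symm, ?_⟩⟩
    · by_cases hi : i = k
      · subst hi; rw [Function.update_self]; exact h1
      · rw [Function.update_of_ne hi]; exact hq01 i hi
    · rw [Function.update_of_ne hi, hq0, hq1, llo_ne hi, lhi_ne hi]; exact hpi i hi
    · rw [Function.update_self]
    · rw [hq1, lhi_k, hpk', hpk]; linarith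
  have Ad : GB932.Att k H (cLo v qm) (cHi v qm) q0 (Function.update q1 k H) := by
    refine ⟨fun i => ?_, fun i hi => ?_, Or.inr ⟨?_, hmk.symm, ?_⟩⟩
    · by_cases hi : i = k
      · subst hi; rw [Function.update_self]; exact h0
      · rw [Function.update_of_ne hi]; exact hq01 i hi
    · rw [Function.update_of_ne hi, hq0, hq1, llo_ne hi, lhi_ne hi]; exact hmi i hi
    · rw [Function.update_self]
    · rw [hq0, llo_k]; linarith
  -- the tiles
  let T0 : Set D.J := {j | ∃ w : Fin 3 → ℤ, D.ψ j = ((gN n₂ k₁ k₀, w), k) ∧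
    w k = z k * 2 ^ (k₁ + k₀) ∧ squ v ((gN n₂ k₁ k₀, w), k) ⊆ squ v ((n₂, z), k)}
  have hmemT : ∀ w : Fin 3 → ℤ, (squ v ((gN n₂ k₁ k₀, w), k) ∩ squ v ((n₂, z), k)).Nonempty →
      ∃ j, D.ψ j = ((gN n₂ k₁ k₀, w), k) := by
    intro w hw
    have := hfine ((gN n₂ k₁ k₀, w), k) rfl rfl hw
    rw [← D.rangeψ] at this
    exact this
  have hTu : ∀ j ∈ T0, D.qC j ⟨qp, hqp⟩ := by
    rintro j ⟨w, hj, -, hsub⟩
    rw [D.qC_iff, hj]
    exact hsub.trans hsp
  have hTd : ∀ j ∈ T0, D.qC j ⟨qm, hqm⟩ := by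
    rintro j ⟨w, hj, -, hsub⟩
    rw [D.qC_iff, hj]
    exact hsub.trans hsm
  have hTS : (⋃ j ∈ T0, D.K.tile j) = GB932.fc k H (Function.update q0 k H) q1 := by
    rw [fc_lens hδ]
    apply Subset.antisymm
    · refine iUnion₂_subset ?_
      rintro j ⟨w, hj, -, hsub⟩
      rw [D.tile, hj]; exact hsub
    · intro x hx
      obtain ⟨w, hwk, hw, hxw⟩ := exists_fine (k₁ := k₁) (k₀ := k₀) hx
      obtain ⟨j, hj⟩ := hmemT w ⟨x, hxw, hx⟩
      refine mem_iUnion₂.2 ⟨j, ⟨w, hj, hwk, fine_sub (n₂ := n₂) hwk hw⟩, ?_⟩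
      rw [D.tile, hj]; exact hxw
  let S0 : Set D.B := {b | (∃ j ∈ T0, D.inc b j) ∧ D.K.arc b ⊆ CxA.sqbd v ((n₂, z), k)}
  have hS : S0.Finite := by
    have hTf : T0.Finite := (D.K.fin_qC ⟨qp, hqp⟩).subset fun j hj => hTu j hj
    refine (hTf.biUnion fun j _ => D.K.fin_inc j).subset ?_
    rintro b ⟨⟨j, hj, hb⟩, -⟩
    exact mem_biUnion hj hb
  have hS0 : (⋃ b ∈ S0, D.K.arc b) = GB932.rm k H (Function.update q0 k H) q1 := by
    rw [rm_lens hδ]
    apply Subset.antisymm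
    · exact iUnion₂_subset fun b hb => hb.2
    · intro x hx
      obtain ⟨w, e, hwk, hsub, hxw, he, hxe, hes⟩ :=
        exists_fine_edge (k₁ := k₁) (k₀ := k₀) hx
      obtain ⟨j, hj⟩ := hmemT w ⟨x, hxw, CxA.sqbd_subset hx⟩
      have hjT : ((gN n₂ k₁ k₀, w), k) ∈ T := by rw [← D.rangeψ]; exact ⟨j, hj⟩
      obtain ⟨S, hS'⟩ := D.edges e ⟨_, hjT, he⟩
      have hxe' := hxe
      rw [hS'] at hxe'
      obtain ⟨b, hb, hxb⟩ := mem_iUnion₂.1 hxe'
      have hbe : edge v (D.φ b) ⊆ edge v e := by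
        rw [hS']; exact subset_biUnion_of_mem (u := fun b => edge v (D.φ b)) hb
      refine mem_iUnion₂.2 ⟨b, ⟨⟨j, ⟨w, hj, hwk, hsub⟩, ?_⟩, ?_⟩, ?_⟩
      · rw [D.inc_iff, hj]
        exact hbe.trans (CxA.edgeOfSq_subset he)
      · rw [D.arc]; exact hbe.trans hes
      · rw [D.arc]; exact hxb
  obtain ⟨J', I', inc', qC', K', ι, cu', cd', f1, f2, f3, f4, f5, f6, f7, f8, f9, -, f11⟩ :=
    GB932.exists_lens D.K hne hcu hcd Au Ad h0 h1 hTu hTd hTS hS hS0
  have farc : ∀ b, K'.arc b = edge v (D.φ b) := by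
    intro b
    rw [← D.arc]
    exact congrArg (fun G : Graph D.e0 D.e1 V => G.arc b) f1
  -- arcs inside
  have harc : ∀ b, (K'.arc b ∩ interior (Icc q0 q1)).Nonempty →
      (D.φ b).1.1 = gN n₂ k₁ k₀ ∧ (D.φ b).2 ≠ k ∧ (D.φ b).1.2 k = z k * 2 ^ (k₁ + k₀) := by
    rintro b ⟨x, hxb, hx⟩
    obtain ⟨s1, hs1, hes⟩ := D.edgeOf b
    rw [← D.rangeψ] at hs1
    obtain ⟨j1, rfl⟩ := hs1
    rw [farc] at hxb
    obtain ⟨j, hj, hjj⟩ := f9 (ι j1) ⟨x, by
      rw [f2, D.tile]; exact CxA.edgeOfSq_subset hes hxb, hx⟩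
    obtain ⟨w, hw, hwk, -⟩ := hj
    rw [← f3 hjj] at hw
    rw [hw] at hes
    obtain ⟨g1, g2, g3, g4, -⟩ := hes
    exact ⟨g1, g2, g4.trans hwk⟩
  refine ⟨J', I', inc', qC', K', δ, cu', cd', hδ, f1, ?_, f11 Z hZ hZd, ?_, ?_, ?_⟩
  · constructor
    · intro i
      by_cases hi : i = k
      · subst hi; exact h0.trans h1
      · exact hq01 i hi
    · rw [hht, llo_k, lhi_k]; ring
    · rw [GB932.Icc_cut h0.le h1.le, ← f6, ← f7]
      exact union_subset (GB932.cell_subset K' cu') (GB932.cell_subset K' cd')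
    · intro b hb
      obtain ⟨g1, g2, g3⟩ := harc b hb
      refine ⟨(D.φ b).1.2, (D.φ b).2, g2, g3, ?_⟩
      rw [farc, ← g1]
    · rintro w l hlk hwk ⟨x, hxe, hx⟩
      have he : EdgeOfSq ((gN n₂ k₁ k₀, w), l) ((gN n₂ k₁ k₀, w), k) :=
        ⟨rfl, hlk, rfl, rfl, fun j _ _ => Or.inl rfl⟩
      have hxs : x ∈ squ v ((gN n₂ k₁ k₀, w), k) := CxA.edgeOfSq_subset he hxe
      have hxk : x k = H := by
        have : x k = v k + (w k : ℝ) / 2 ^ (gN n₂ k₁ k₀) := hxs.1
        rw [this, hwk, div_fine]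
      obtain ⟨j, hj⟩ := hmemT w ⟨x, hxs, mem_squ_of_interior hx hxk⟩
      have hjT : ((gN n₂ k₁ k₀, w), k) ∈ T := by rw [← D.rangeψ]; exact ⟨j, hj⟩
      obtain ⟨S, hS'⟩ := D.edges _ ⟨_, hjT, he⟩
      have hxe' := hxe
      rw [hS'] at hxe'
      obtain ⟨b, hb, hxb⟩ := mem_iUnion₂.1 hxe'
      have hbe : edge v (D.φ b) ⊆ edge v ((gN n₂ k₁ k₀, w), l) := by
        rw [hS']; exact subset_biUnion_of_mem (u := fun b => edge v (D.φ b)) hb
      obtain ⟨g1, g2, g3⟩ := harc b ⟨x, by rw [farc]; exact hxb, hx⟩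
      refine ⟨b, ?_⟩
      rw [farc]
      have hφ : D.φ b = ((gN n₂ k₁ k₀, (D.φ b).1.2), (D.φ b).2) := by
        rw [← g1]
      rw [hφ] at hbe ⊢
      exact edge_eq_of_sub hbe
    · intro j' hj'
      obtain ⟨j, ⟨w, hj, hwk, -⟩, rfl⟩ := f9 j' hj'
      exact ⟨w, hwk, by rw [f2, D.tile, hj]⟩
    · rintro w hwk ⟨x, hxs, hx⟩
      have hxk : x k = H := by
        have : x k = v k + (w k : ℝ) / 2 ^ (gN n₂ k₁ k₀) := hxs.1
        rw [this, hwk, div_fine]
      obtain ⟨j, hj⟩ := hmemT w ⟨x, hxs, mem_squ_of_interior hx hxk⟩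
      exact ⟨ι j, by rw [f2, D.tile, hj]⟩
    · exact f5
    · exact f8
    · rw [hht]; exact f6
    · rw [hht]; exact f7
  · rw [f6]
    refine hZd.mono_right ?_
    rw [GB932.Icc_cut h0.le h1.le]; exact subset_union_left
  · rw [f7]
    refine hZd.mono_right ?_
    rw [GB932.Icc_cut h0.le h1.le]; exact subset_union_right
  · intro s' hs' hns
    rw [← D.rangeψ] at hs'
    obtain ⟨j, rfl⟩ := hs'
    have htile : K'.tile (ι j) = squ v (D.ψ j) := by rw [f2, D.tile]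
    obtain ⟨c, _, -, hc⟩ := K'.two (ι j)
    have hsub : K'.tile (ι j) ⊆ K'.cell c :=
      (subset_biUnion_of_mem (u := fun s => K'.tile s) (show ι j ∈ {s | qC' s c} from
        (hc c).2 (Or.inl rfl))).trans (K'.cball c).1
    -- a point of the tile in one of the two old cells is on the boundary
    have hold : ∀ (cc : I) (x : V), x ∈ D.K.tile j → x ∈ D.K.cell cc →
        x ∈ frontier (D.K.cell cc) := by
      intro cc x hx hxc
      rw [GB932.frontier_cell, ← GB932.cell_inter_sk2]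
      exact ⟨hxc, mem_iUnion.2 ⟨j, hx⟩⟩
    refine ⟨ι j, c, htile, hsub, ?_, ?_⟩
    · rintro rfl
      apply hns
      rw [f6, htile] at hsub
      intro x hx
      have hxI := hsub hx
      have hxt : x ∈ D.K.tile j := by rw [D.tile]; exact hx
      have hx0 : ∀ i, i ≠ k → v i + z i / 2 ^ n₂ ≤ x i ∧ x i ≤ v i + (z i + 1) / 2 ^ n₂ := by
        intro i hi
        have g1 := hxI.1 i
        have g2 := hxI.2 i
        rw [Function.update_of_ne hi, hq0, llo_ne hi] at g1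
        rw [hq1, lhi_ne hi] at g2
        exact ⟨g1, g2⟩
      refine ⟨?_, hx0⟩
      show x k = v k + z k / 2 ^ n₂
      by_contra hne'
      have g1 := hxI.1 k
      have g2 := hxI.2 k
      rw [Function.update_self] at g1
      rw [hq1, lhi_k] at g2
      have g3 : H < x k := lt_of_le_of_ne g1 (Ne.symm hne')
      have hxin : x ∈ interior (D.K.cell ⟨qp, hqp⟩) := by
        rw [hcu, interior_Icc_pi']
        intro i
        by_cases hi : i = k
        · subst hi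
          rw [hpk', hpk]
          constructor <;> linarith
        · have := hpi i hi
          have := hx0 i hi
          constructor <;> linarith
      have := hold ⟨qp, hqp⟩ x hxt (interior_subset hxin)
      exact this.2 hxin
    · rintro rfl
      apply hns
      rw [f7, htile] at hsub
      intro x hx
      have hxI := hsub hx
      have hxt : x ∈ D.K.tile j := by rw [D.tile]; exact hx
      have hx0 : ∀ i, i ≠ k → v i + z i / 2 ^ n₂ ≤ x i ∧ x i ≤ v i + (z i + 1) / 2 ^ n₂ := by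
        intro i hi
        have g1 := hxI.1 i
        have g2 := hxI.2 i
        rw [Function.update_of_ne hi, hq1, lhi_ne hi] at g2
        rw [hq0, llo_ne hi] at g1
        exact ⟨g1, g2⟩
      refine ⟨?_, hx0⟩
      show x k = v k + z k / 2 ^ n₂
      by_contra hne'
      have g1 := hxI.1 k
      have g2 := hxI.2 k
      rw [Function.update_self] at g2
      rw [hq0, llo_k] at g1
      have g3 : x k < H := lt_of_le_of_ne g2 hne'
      have hxin : x ∈ interior (D.K.cell ⟨qm, hqm⟩) := by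
        rw [hcd, interior_Icc_pi']
        intro i
        by_cases hi : i = k
        · subst hi
          rw [hmk]
          constructor <;> linarith
        · have := hmi i hi
          have := hx0 i hi
          constructor <;> linarith
      have := hold ⟨qm, hqm⟩ x hxt (interior_subset hxin)
      exact this.2 hxin

end P073.PL
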