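import Vale.Agent.P073.H407.CoreE
import Vale.Agent.P073.GBM.CellMain

/-!
# P073, GAP-CLOSE (helper407): `SpecCell2` with control of the size
-/

open Set Metric Topology Filter MeasureTheory
open scoped ENNReal NNReal

namespace P073.Cell

open P073 P073.PR720 P073.GB73 P073.GBM P073.Gauge P073.GB1W
open Vale.Agent.P073.St (V)
open Vale.Agent.P073.AB
open Vale.Agent.P073.SQ (ev)
open P073.Net (dyc dyo)

/-- **(CELL2E)** `SpecCell2` for a map which is close to the affine map in the whole cell, with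
control of the size: all points. -/
def SpecCell2E : Prop :=
  ∀ (p θ M : ℝ), 1 ≤ p → 0 < θ → 0 < M → ∃ C > 0, ∀ k₁ : ℕ, 3 ≤ k₁ → ∃ K₀ : ℕ, ∀ k₀ ≥ K₀,
    ∃ κ > 0, ∀ (Ω Λ : Set V) (v : V) (I : Set Idx) (D : DyCx Ω v I) (n₂ : ℕ) (z : Fin 3 → ℤ)
      (A : V → V) (L : V →L[ℝ] V) (h : ConHomeo Ω Λ), IsOpen Ω → IsOpen Λ → Part Ω v I →
      CellHyp p θ M κ k₁ k₀ n₂ Λ v I z A L h.toFun →
      (∀ x ∈ dyc v n₂ z, ‖h.toFun x - A x‖ ≤ κ / 2 ^ (n₂ + k₁ + k₀)) →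
      ∀ Z : Set V, Prot D.K Z → Disjoint Z (interior (dyc v n₂ z)) →
      (∀ x ∈ Z, h.toFun x ∉ A '' shrink v n₂ z (1 / 2 ^ (n₂ + k₁ + k₀))) →
      ∃ h' : ConHomeo Ω Λ, CellOut p C k₁ n₂ v z A h'.toFun ∧
        (∀ e : Idx × Fin 3, (∃ q ∈ I, EdgeOf e q) → ∀ x ∈ edge v e,
          (x ∉ interior (boxB v n₂ k₁ z) → h'.toFun x = h.toFun x) ∧
          (h'.toFun x ∈ h.toFun '' edge v e ∨
            h'.toFun x ∈ A '' shrink v n₂ z (1 / 2 ^ (n₂ + k₁ + k₀)))) ∧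
        EqOn h'.toFun h.toFun Z ∧
        (∀ x ∈ boxB v n₂ k₁ z, ‖h'.toFun x - A x‖ ≤ C / 2 ^ (n₂ + k₁)) ∧
        ∀ x ∈ interior (dyc v n₂ z), x ∉ interior (boxB v n₂ k₁ z) →
          ‖h'.toFun x - A x‖ ≤ C / 2 ^ (n₂ + k₁ + k₀)

/-- **(CELL2E)** from the uniform collar with control of the size -/
theorem specCell2E_of (hUE : SpecUE) : SpecCell2E := by
  intro p θ M hp hθ hM
  have hCpos : 0 < (9 / 4 * M) ^ p + 4 ^ p * (1 + M ^ p) := by positivity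
  refine ⟨(9 / 4 * M) ^ p + 4 ^ p * (1 + M ^ p) + 3 * M, by positivity, fun k₁ hk₁ => ?_⟩
  obtain ⟨ρ0, hρ0, hU⟩ := hUE k₁ hk₁
  obtain ⟨K₀, hK₀⟩ := exists_K0 (4 / ρ0) (4 * M) k₁
  refine ⟨K₀, fun k₀ hk₀' => ?_⟩
  obtain ⟨hk₀, hρk, hMk⟩ := hK₀ k₀ hk₀'
  have hR : (1:ℝ) ≤ RR k₁ k₀ := by
    have := RR_ge hk₁ hk₀
    have h2 : (47:ℝ) ≤ RR k₁ k₀ := by exact_mod_cast this
    linarith
  obtain ⟨l, hl, κ, hκ, hκ1, hκl, hnum⟩ := exists_kappa (θ := θ) (p := p) hθ hR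
  refine ⟨κ, hκ, ?_⟩
  intro Ω Λ v I D n₂ z A L h hΩ hΛ hI H hcl Z hZ hZd hZh
  obtain ⟨AL, hAL, hAs, hA, HN⟩ := near_of_cellHyp hp hθ hl hκ.le hκl hΩ hI H H.fine D
  obtain ⟨hn1, hn2, hn3⟩ := hnum (gN n₂ k₁ k₀)
  have hd : (0:ℝ) < 1 / 2 ^ (gN n₂ k₁ k₀) := by positivity
  have hshr : ∀ y, Reg (gN n₂ k₁ k₀) (qlo v n₂ z) (qhi v n₂ z) (A 0) AL y →
      y ∈ A '' shrink v n₂ z (1 / 2 ^ (n₂ + k₁ + k₀)) := by
    intro y hy
    refine ⟨AL.symm (y - A 0), fun k => hy k, ?_⟩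
    rw [hA, AL.apply_symm_apply]; abel
  have hclA : ∀ x ∈ dyc v n₂ z, ‖AL.symm (h.toFun x - A 0) - x‖ ≤ θ⁻¹ * κ / 2 ^ (n₂ + k₁ + k₀) := by
    intro x hx
    have h2 : AL.symm (h.toFun x - A 0) - x = AL.symm (h.toFun x - A x) := by
      rw [hA x, ← sub_sub, map_sub AL.symm (h.toFun x - A 0), AL.symm_apply_apply]
    rw [h2]
    refine (hAs _).trans ?_
    rw [mul_div_assoc]
    exact mul_le_mul_of_nonneg_left (hcl x hx) (inv_pos.2 hθ).le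
  obtain ⟨h3, Lt, χ, q, O, hin, hout⟩ := cell_coreE specS1 specS2 specS3 specVert specBdIn hΩ hΛ HN
    hk₁ hk₀ hn1 hn2 hn3 hclA (hU v n₂ k₀ z (by omega)) (by
      rw [show (4:ℝ) / 2 ^ (gN n₂ k₁ k₀) = 4 * (1 / 2 ^ (gN n₂ k₁ k₀)) by ring,
        div_eq_mul_one_div ρ0, gd n₂ k₁ k₀, ← mul_assoc]
      refine mul_le_mul_of_nonneg_right ?_ hd.le
      rwa [div_le_iff₀' hρ0] at hρk) hZ hZd
    (fun x hx hr => hZh x hx (hshr _ hr))
  -- closeness in the target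
  have hback : ∀ x y, ‖y - A x‖ ≤ M * ‖AL.symm (y - A 0) - x‖ := by
    intro x y
    have h2 : y - A x = L (AL.symm (y - A 0) - x) := by
      rw [← hAL, map_sub, AL.apply_symm_apply, hA x]; abel
    rw [h2]
    exact H.above _
  have hN1 : (1:ℝ) / 2 ^ (gN n₂ k₁ k₀) ≤ 1 / 2 ^ (n₂ + k₁) :=
    one_div_le_one_div_of_le (by positivity)
      (pow_le_pow_right₀ (by norm_num) (Nat.le_add_right _ _))
  have hN0 : (0:ℝ) < 1 / 2 ^ (n₂ + k₁) := by positivity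
  have hCM : 3 * M ≤ (9 / 4 * M) ^ p + 4 ^ p * (1 + M ^ p) + 3 * M := by linarith
  -- the box is in `boxB`
  have hboxB : Icc (lo v n₂ k₁ k₀ z) (hi v n₂ k₁ k₀ z) ⊆ interior (boxB v n₂ k₁ z) := by
    rw [interior_boxB]
    intro x hx k
    have h1 := hx.1 k
    have h2 := hx.2 k
    rw [lo_apply] at h1
    rw [hi_apply] at h2
    rw [qlo_eq n₂ k₁ k₀, qhi_eq n₂ k₁ k₀, gd n₂ k₁ k₀]
    constructor <;> linarith
  have hboxI : boxB v n₂ k₁ z ⊆ interior (dyc v n₂ z) := by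
    rw [C110.interior_dyc]
    intro x hx k
    have h1 := hx k
    constructor <;> linarith [h1.1, h1.2]
  have hout' : ∀ x ∈ interior (dyc v n₂ z), x ∉ Icc (lo v n₂ k₁ k₀ z) (hi v n₂ k₁ k₀ z) →
      ‖h3.toFun x - A x‖ ≤ 3 * M * (1 / 2 ^ (gN n₂ k₁ k₀)) := by
    intro x hx hxI
    have h1 := hout x hx (fun h' => hxI (interior_subset h'))
    calc ‖h3.toFun x - A x‖ ≤ M * ‖AL.symm (h3.toFun x - A 0) - x‖ := hback _ _
      _ ≤ M * (3 / 2 ^ (gN n₂ k₁ k₀)) := mul_le_mul_of_nonneg_left h1 hM.le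
      _ = _ := by ring
  refine ⟨h3, ⟨fun x hx => ?_, fun e he hs1 hs2 => ?_⟩, fun e he x hx => ?_, O.prot,
    fun x hx => ?_, fun x hx hxB => ?_⟩
  · exact (O.box x hx).trans (hA x).symm
  · obtain ⟨g1, g2⟩ := specGap D.Vx D.B D.J I D.e0 D.e1 D.inc D.qC Ω D.K Λ h.toFun v n₂ k₁ k₀ z
      (qlo v n₂ z) (qhi v n₂ z) (A 0) AL _ _ HN (dyc_eq_Icc v n₂ z).symm p M κ hp hM hκ.le
      (fun w => by rw [hAL]; exact H.above w) hk₁ hk₀ hn1 hMk
      (fun e he hs => by rw [hAL]; exact (H.own e he hs).2)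
      h3.toFun Lt χ q O.cut O.out O.chi O.box O.mark O.close O.lip e he hs1 hs2
    refine ⟨fun x hx => by rw [hA x]; exact g1 x hx, g2.trans (ENNReal.ofReal_le_ofReal ?_)⟩
    refine mul_le_mul_of_nonneg_right ?_ (by positivity)
    have h5 : (9 / 4 * M) ^ p + 4 ^ p * (κ + M ^ p) ≤ (9 / 4 * M) ^ p + 4 ^ p * (1 + M ^ p) := by
      gcongr
    linarith
  · obtain ⟨S, hS⟩ := D.edges e he
    have hx' := hx
    rw [hS] at hx'
    obtain ⟨b, hbS, hxb⟩ := mem_iUnion₂.1 hx'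
    have hsub : edge v (D.φ b) ⊆ edge v e := by
      rw [hS]
      exact subset_biUnion_of_mem (u := fun b => edge v (D.φ b)) hbS
    rw [← D.arc b] at hsub hxb
    refine ⟨fun hxB => ?_, ?_⟩
    · have hxI : x ∉ interior (Icc (lo v n₂ k₁ k₀ z) (hi v n₂ k₁ k₀ z)) := by
        intro hxI
        apply hxB
        rw [interior_Icc_pi'] at hxI
        rw [interior_boxB]
        intro k
        have h1 := hxI k
        rw [lo_apply, hi_apply] at h1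
        rw [qlo_eq n₂ k₁ k₀, qhi_eq n₂ k₁ k₀, gd n₂ k₁ k₀]
        constructor <;> linarith [h1.1, h1.2]
      rw [O.out b x hxb hxI]
      by_cases hc : b ∈ crossed D.K (hbox v (gN n₂ k₁ k₀) (al k₁ k₀ z) (be k₁ k₀ z))
      · have hαβ : ∀ k, al k₁ k₀ z k < be k₁ k₀ z k := fun k => by
          have := RR_ge hk₁ hk₀
          rw [be_eq]; linarith
        have hfr : frontier (hbox v (gN n₂ k₁ k₀) (al k₁ k₀ z) (be k₁ k₀ z)) ⊆
            interior (Icc (qlo v n₂ z) (qhi v n₂ z)) := by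
          rw [interior_Icc_pi']
          intro x hx k
          have h1 := (mem_frontier_hbox.1 hx).1 k
          have h0 : (al k₁ k₀ z k : ℝ) < be k₁ k₀ z k := by exact_mod_cast hαβ k
          have h2 := (near_box (n₂ := n₂) (v := v) hk₀ (w := al k₁ k₀ z k + 1 / 2)
            (k := k) (z := z) (k₁ := k₁) (by linarith) (by linarith)).1
          have h3 := (near_box (n₂ := n₂) (v := v) hk₀ (w := be k₁ k₀ z k + 1 / 2)
            (k := k) (z := z) (k₁ := k₁) (by linarith) (by linarith)).2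
          have e8 : (8:ℝ) / 2 ^ (gN n₂ k₁ k₀) = 8 * (1 / 2 ^ (gN n₂ k₁ k₀)) := by ring
          rw [e8] at h2 h3
          unfold GBM.hp at h1
          constructor <;> linarith [h1.1, h1.2]
        obtain ⟨a, k, ha, hck⟩ := (HN.lat.mem_crossed hαβ hfr b).1 hc
        rw [ha] at hxb
        rcases crossed_end hk₁ hk₀ hck hxb hxB with hx1 | hx1
        · rw [hx1, ← HN.y0 b a k ha, O.chi0]
        · rw [hx1, ← HN.y1 b a k ha, O.chi1]
      · rw [O.chi_id b hc x hxb]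
    · by_cases hxI : x ∈ Icc (lo v n₂ k₁ k₀ z) (hi v n₂ k₁ k₀ z)
      · right
        exact hshr _ (O.reg x hxI)
      · left
        rw [O.out b x hxb (fun h' => hxI (interior_subset h'))]
        exact ⟨χ b x, hsub (O.chi_mem b x hxb), rfl⟩
  · by_cases hxI : x ∈ Icc (lo v n₂ k₁ k₀ z) (hi v n₂ k₁ k₀ z)
    · have h1 := hin x hxI
      have h2 : M * ‖AL.symm (h3.toFun x - A 0) - x‖ ≤
          M * (1 / 8 / 2 ^ (gN n₂ k₁ k₀) + 1 / 8 / 2 ^ (gN n₂ k₁ k₀) + 1 / 2 ^ (n₂ + k₁)) :=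
        mul_le_mul_of_nonneg_left (h1.trans (by linarith)) hM.le
      have e1 : (1:ℝ) / 8 / 2 ^ (gN n₂ k₁ k₀) = 1 / 8 * (1 / 2 ^ (gN n₂ k₁ k₀)) := by ring
      calc ‖h3.toFun x - A x‖ ≤ _ := (hback _ _).trans h2
        _ ≤ M * (3 * (1 / 2 ^ (n₂ + k₁))) := by
            refine mul_le_mul_of_nonneg_left ?_ hM.le
            rw [e1]; linarith
        _ = 3 * M / 2 ^ (n₂ + k₁) := by ring
        _ ≤ _ := div_le_div_of_nonneg_right hCM (by positivity)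
    · calc ‖h3.toFun x - A x‖ ≤ 3 * M * (1 / 2 ^ (gN n₂ k₁ k₀)) := hout' x (hboxI hx) hxI
        _ ≤ 3 * M * (1 / 2 ^ (n₂ + k₁)) := mul_le_mul_of_nonneg_left hN1 (by positivity)
        _ = 3 * M / 2 ^ (n₂ + k₁) := by ring
        _ ≤ _ := div_le_div_of_nonneg_right hCM (by positivity)
  · calc ‖h3.toFun x - A x‖ ≤ 3 * M * (1 / 2 ^ (gN n₂ k₁ k₀)) :=
          hout' x hx (fun h' => hxB (hboxB h'))
      _ = 3 * M / 2 ^ (n₂ + k₁ + k₀) := by unfold gN; ring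
      _ ≤ _ := div_le_div_of_nonneg_right hCM (by positivity)

end P073.Cell
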