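import Vale.Agent.P073.H407.Mid4
import Vale.Agent.P073.H73.MidAsm

/-!
# P073, block A16, [POST-MID], part `mid` (helper407): the literal statement
-/

namespace Vale.Agent.P073.H407

open Vale.Agent.P073.H235

/-- **[MID]** -/
theorem specMid {p : ℝ} (hp : 1 ≤ p) : H73.SpecMid p := by
  refine ⟨fun C D' => 1 + 8 ^ p * D' * (1 + C ^ p), ?_⟩
  intro C θ ν τ ε δ Λ f P D μ D' r c t ε₁ β g hO hD1 hDD hc hc4 hδ hC _ _ hμ ht ht1 hε₁ hε hβ B
    hB hgood
  refine (mid_of hp P hC hO (by linarith) hc.le hμ.le (by linarith) hDD ht.le ht1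
    (fun s => (hβ s).2) hB hgood).trans (ENNReal.ofReal_le_ofReal ?_)
  have hK : 0 ≤ 8 ^ p * D' * (1 + C ^ p) := by
    have : 0 < D' := by linarith
    positivity
  nlinarith [mul_nonneg hK ht.le]

/-- **[POST-FLAT]** from `SpecRows` and `SpecRowData` -/
theorem specPostFlat_of {p : ℝ} (hp : 1 ≤ p) (hR : SpecRows) (hRow : H73.SpecRowData p) :
    SpecPostFlat p :=
  H73.specPostFlat_of hp hR hRow (specMid hp)

end Vale.Agent.P073.H407
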