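import Vale.Agent.P073.H407.Mid1
import Vale.Agent.P073.H73.PostC1
import Vale.Agent.P073.H880.Lim

/-!
# P073, block A16, [POST-MID], part `mid` (helper407), second part: integrals on the middle plane

* `cover_int`: the integral over the core of the unit cube is at most the sum over the squares;
* `faceI_le`: `faceI` against `faceL`.
-/

namespace Vale.Agent.P073.H407

open MeasureTheory Set Filter Topology Metric Vale.Agent.P073.St Vale.Agent.P073.AB
open Vale.Agent.P073.AB.P86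
open Vale.Agent.P073.H235
open Vale.Agent.P073.SQ (ev cube)
open Vale.Agent.P073.H73 (faceL)
open Vale.Agent.P073.H239 (faceI)
open scoped ENNReal

/-- translation in the direction `ev 2` -/
theorem shift_int (C : Set V) (c₀ t : ℝ) (Φ : V → ℝ≥0∞) :
    ∫⁻ x in (fun y => y + t • ev 2) ⁻¹' C, Φ (Function.update x 2 c₀) =
      ∫⁻ x in C, Φ (Function.update x 2 c₀) := by
  have h1 : MeasurePreserving (fun y : V => y + t • ev 2) volume volume :=
    measurePreserving_add_right volume _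
  have h2 : MeasurableEmbedding (fun y : V => y + t • ev 2) := measurableEmbedding_addRight _
  rw [← h1.setLIntegral_comp_preimage_emb h2 (fun x => Φ (Function.update x 2 c₀)) C]
  refine lintegral_congr fun x => ?_
  congr 1
  funext i
  by_cases hi : i = 2
  · subst hi; simp
  · simp [Function.update_of_ne hi, ev, Pi.single_eq_of_ne hi]

/-- **the integral over the core of the unit cube is at most the sum over the squares** -/
theorem cover_int {n : ℕ} {v : V} {c₀ : ℝ} {R : Finset (Fin 3 → ℤ)}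
    (hR : ∀ k ∈ R, v 2 + k 2 / 2 ^ n = c₀) {E : Set V}
    (hE : ∀ x ∈ E, 0 < x 2 ∧ x 2 < 1 ∧
      ∃ k ∈ R, Function.update x 2 c₀ ∈ squ v ((n, k), 2)) (Φ : V → ℝ≥0∞) :
    ∫⁻ x in E, Φ (Function.update x 2 c₀) ≤
      2 ^ n * ∑ k ∈ R, ∫⁻ x in cube (sc v ((n, k), 2)) (1 / 2 / 2 ^ n),
        Φ (Function.update x 2 c₀) := by
  have hm : (0:ℝ) < 2 ^ n := by positivity
  set t : Fin (2 ^ n) → ℝ := fun i => c₀ - ((i : ℕ) + 1 / 2) / 2 ^ n with ht
  set D : Fin (2 ^ n) × R → Set V := fun z =>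
    (fun y => y + t z.1 • ev 2) ⁻¹' cube (sc v ((n, z.2.1), 2)) (1 / 2 / 2 ^ n) with hD
  have hsub : E ⊆ ⋃ z, D z := by
    intro x hx
    obtain ⟨h0, h1, k, hk, hxk⟩ := hE x hx
    have e0 : (0:ℝ) ≤ x 2 * 2 ^ n := by positivity
    have e1 : x 2 * 2 ^ n < 2 ^ n := by nlinarith
    have e2 : ⌊x 2 * 2 ^ n⌋₊ < 2 ^ n := by
      rw [Nat.floor_lt e0]; exact_mod_cast e1
    have e3 := Nat.floor_le e0
    have e4 := Nat.lt_floor_add_one (x 2 * 2 ^ n)
    refine mem_iUnion.2 ⟨(⟨_, e2⟩, ⟨k, hk⟩), ?_⟩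
    intro j
    by_cases hj : j = 2
    · subst hj
      simp only [sc, if_true, Pi.add_apply, Pi.smul_apply, smul_eq_mul, ev, Pi.single_eq_same,
        mul_one, ht]
      rw [hR k hk, abs_le]
      have e5 : x 2 = x 2 * 2 ^ n / 2 ^ n := by field_simp
      have e6 : ((⌊x 2 * 2 ^ n⌋₊ : ℝ) + 1 / 2) / 2 ^ n - 1 / 2 / 2 ^ n ≤ x 2 := by
        rw [← sub_div, div_le_iff₀ hm]; linarith
      have e7 : x 2 ≤ ((⌊x 2 * 2 ^ n⌋₊ : ℝ) + 1 / 2) / 2 ^ n + 1 / 2 / 2 ^ n := by
        rw [← add_div, le_div_iff₀ hm]; linarith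
      constructor <;> linarith
    · have h2 := hxk.2 j hj
      simp only [Function.update_of_ne hj] at h2
      simp only [sc, if_neg hj, Pi.add_apply, Pi.smul_apply, smul_eq_mul, ev,
        Pi.single_eq_of_ne hj, mul_zero, add_zero]
      rw [abs_le]
      have e5 : (((k j : ℝ) + 1 / 2) / 2 ^ n) = k j / 2 ^ n + 1 / 2 / 2 ^ n := by ring
      have e6 : (((k j : ℝ) + 1) / 2 ^ n) = k j / 2 ^ n + 2 * (1 / 2 / 2 ^ n) := by ring
      rw [e6] at h2
      rw [e5]
      constructor <;> linarith [h2.1, h2.2]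
  calc ∫⁻ x in E, Φ (Function.update x 2 c₀)
      ≤ ∫⁻ x in ⋃ z, D z, Φ (Function.update x 2 c₀) := lintegral_mono_set hsub
    _ ≤ ∑' z, ∫⁻ x in D z, Φ (Function.update x 2 c₀) := lintegral_iUnion_le _ _
    _ = ∑ z : Fin (2 ^ n) × R, ∫⁻ x in cube (sc v ((n, z.2.1), 2)) (1 / 2 / 2 ^ n),
          Φ (Function.update x 2 c₀) := by
        rw [tsum_fintype]
        exact Finset.sum_congr rfl fun z _ => shift_int _ _ _ _
    _ = 2 ^ n * ∑ k ∈ R, ∫⁻ x in cube (sc v ((n, k), 2)) (1 / 2 / 2 ^ n),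
          Φ (Function.update x 2 c₀) := by
        rw [Fintype.sum_prod_type]
        simp only [Finset.sum_const, Finset.card_univ, Fintype.card_fin, nsmul_eq_mul]
        rw [← Finset.sum_coe_sort R]
        push_cast
        rfl

/-- `faceI` against `faceL` -/
theorem faceI_le {p : ℝ} (hp : 1 ≤ p) (g : V → V) (a : V) (l : Fin 3) (n : ℕ) :
    faceI p g a l (1 / 2 / 2 ^ n) ≤
      2 ^ (p - 1) * (faceL p g a l (1 / 2 / 2 ^ n) + 2 * ENNReal.ofReal ((1 / 2 ^ n) ^ 3)) := by
  have h1 : ∀ i : Fin 3, ∫⁻ x in cube a (1 / 2 / 2 ^ n),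
      ENNReal.ofReal (‖lineDeriv ℝ g (Function.update x l (a l)) (ev i) - ev i‖ ^ p) ≤
      2 ^ (p - 1) * ((∫⁻ x in cube a (1 / 2 / 2 ^ n),
        ENNReal.ofReal (‖lineDeriv ℝ g (Function.update x l (a l)) (ev i)‖ ^ p)) +
        ENNReal.ofReal ((1 / 2 ^ n) ^ 3)) := by
    intro i
    calc ∫⁻ x in cube a (1 / 2 / 2 ^ n),
        ENNReal.ofReal (‖lineDeriv ℝ g (Function.update x l (a l)) (ev i) - ev i‖ ^ p)
        ≤ ∫⁻ x in cube a (1 / 2 / 2 ^ n), 2 ^ (p - 1) *
          (ENNReal.ofReal (‖lineDeriv ℝ g (Function.update x l (a l)) (ev i)‖ ^ p) + 1) := by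
          refine lintegral_mono fun x => ?_
          have h2 := H880.add_rpow_le hp (lineDeriv ℝ g (Function.update x l (a l)) (ev i)) (-ev i)
          have h3 : ‖-ev i‖ ^ p = 1 := by
            rw [norm_neg]; simp [ev, Pi.norm_single]
          rw [← sub_eq_add_neg, h3, ENNReal.ofReal_one] at h2
          exact h2
      _ = _ := by
          rw [lintegral_const_mul' _ _ (by
            apply ENNReal.rpow_ne_top_of_nonneg (by linarith); simp)]
          rw [lintegral_add_right _ measurable_const, setLIntegral_const, one_mul,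
            H73.volume_cube_eq]
          rw [show (8:ℝ) ^ n = (2 ^ n) ^ 3 by rw [← pow_mul, mul_comm, pow_mul]; norm_num,
            one_div_pow]
  calc faceI p g a l (1 / 2 / 2 ^ n)
      ≤ ∑ i ∈ Finset.univ.erase l, 2 ^ (p - 1) * ((∫⁻ x in cube a (1 / 2 / 2 ^ n),
        ENNReal.ofReal (‖lineDeriv ℝ g (Function.update x l (a l)) (ev i)‖ ^ p)) +
        ENNReal.ofReal ((1 / 2 ^ n) ^ 3)) := Finset.sum_le_sum fun i _ => h1 i
    _ = _ := by
      rw [← Finset.mul_sum, Finset.sum_add_distrib, Finset.sum_const,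
        Finset.card_erase_of_mem (Finset.mem_univ _), nsmul_eq_mul]
      norm_num [faceL]

end Vale.Agent.P073.H407
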