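import Vale.Agent.P073.H407.Mid2
import Vale.Agent.P073.AB.Sum308b

/-!
# P073, block A16, [POST-MID], part `mid` (helper407), third part: sums over squares and edges
-/

namespace Vale.Agent.P073.H407

open MeasureTheory Set Filter Topology Metric Vale.Agent.P073.St Vale.Agent.P073.AB
open Vale.Agent.P073.AB.P86
open Vale.Agent.P073.H235
open Vale.Agent.P073.SQ (ev cube)
open Vale.Agent.P073.H73 (MinEdge segP onSeg faceL)
open Vale.Agent.P073.H239 (Deep faceI)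
open Vale.Agent.P073.H687 (tsum_sqE)
open _root_.P073 (ConHomeo)
open scoped ENNReal

/-- each edge belongs to at most two squares -/
theorem sum_edges_le {a b : Fin 3 → ℤ} {n : ℕ} {A : Finset (Fin 3 → ℤ)} (hA : A ⊆ rect a b)
    (w : Idx × Fin 3 → ℝ≥0∞) :
    ∑ k ∈ A, ∑ e ∈ sqE ((n, k), 2), w e ≤
      2 * ∑ i ∈ Finset.univ.erase (2 : Fin 3), ∑ k ∈ redge a b i, w ((n, k), i) := by
  have h1 : ∀ c : Fin 3, c ≠ 2 → ∀ τ : ℤ, (τ = 0 ∨ τ = 1) →
      ∑ k ∈ A, w (sqEdge ((n, k), 2) c τ) ≤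
        ∑ k ∈ redge a b (third 2 c), w ((n, k), third 2 c) := by
    intro c hc τ hτ
    set φ : (Fin 3 → ℤ) → (Fin 3 → ℤ) := fun k => Function.update k c (k c + τ) with hφ
    have hinj : Set.InjOn φ A := by
      intro k _ k' _ hkk
      funext j
      have h2 := congrFun hkk j
      by_cases hj : j = c
      · subst hj; simpa [hφ] using h2
      · simpa [hφ, Function.update_of_ne hj] using h2
    have himg : A.image φ ⊆ redge a b (third 2 c) := by
      intro k' hk'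
      obtain ⟨k, hk, rfl⟩ := Finset.mem_image.1 hk'
      have h2 := edgeOfSq_redge (hA hk) (nS := n) (e := sqEdge ((n, k), 2) c τ)
        (mem_sqE.1 (by
          unfold sqE
          simp only [Finset.mem_biUnion, Finset.mem_erase, Finset.mem_univ, and_true,
            Finset.mem_insert, Finset.mem_singleton]
          exact ⟨c, hc, by rcases hτ with rfl | rfl <;> simp⟩))
      exact h2.2.2
    calc ∑ k ∈ A, w (sqEdge ((n, k), 2) c τ)
        = ∑ k ∈ A.image φ, w ((n, k), third 2 c) :=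
          (Finset.sum_image (f := fun k => w ((n, k), third 2 c)) hinj).symm
      _ ≤ _ := Finset.sum_le_sum_of_subset himg
  have e1 : Finset.univ.erase (2 : Fin 3) = {0, 1} := by decide
  have e2 : third 2 0 = 1 := by decide
  have e3 : third 2 1 = 0 := by decide
  have a00 := h1 0 (by decide) 0 (Or.inl rfl)
  have a01 := h1 0 (by decide) 1 (Or.inr rfl)
  have a10 := h1 1 (by decide) 0 (Or.inl rfl)
  have a11 := h1 1 (by decide) 1 (Or.inr rfl)
  rw [e2] at a00 a01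
  rw [e3] at a10 a11
  have h2 : ∀ k ∈ A, ∑ e ∈ sqE ((n, k), 2), w e =
      (w (sqEdge ((n, k), 2) 0 0) + w (sqEdge ((n, k), 2) 0 1)) +
        (w (sqEdge ((n, k), 2) 1 0) + w (sqEdge ((n, k), 2) 1 1)) := by
    intro k _
    rw [sum_sqE, e1, Finset.sum_pair (by decide)]
  rw [Finset.sum_congr rfl h2, Finset.sum_add_distrib, Finset.sum_add_distrib,
    Finset.sum_add_distrib, e1, Finset.sum_pair (by decide)]
  refine (add_le_add (add_le_add a00 a01) (add_le_add a10 a11)).trans (le_of_eq ?_)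
  ring

section

variable {p C θ ν τ ε δ : ℝ} {Λ : Set V} {f : V → V}

theorem isOpenBx (a : V) : IsOpen (Bx a) := by
  have : Bx a = ⋂ i, {x : V | 0 < x i ∧ x i < a i} := by ext x; simp [Bx]
  rw [this]
  refine isOpen_iInter_of_finite fun i => ?_
  exact (isOpen_lt continuous_const (continuous_apply i)).inter
    (isOpen_lt (continuous_apply i) continuous_const)

/-- number of squares -/
theorem card_rect (P : PreFlat p C θ ν τ ε δ Λ f) : ((rect P.a P.b).card : ℝ) ≤ 4 ^ P.nS := by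
  have h0 := rect_size P (i := 0) (by decide)
  have h1 := rect_size P (i := 1) (by decide)
  have g0 := P.alt 0 (by decide)
  have g1 := P.alt 1 (by decide)
  have e : ((rect P.a P.b).card : ℤ) = (P.b 0 - P.a 0) * (P.b 1 - P.a 1) := by
    unfold rect
    rw [Fintype.card_piFinset, Fin.prod_univ_three]
    rw [if_neg (by decide), if_neg (by decide), if_pos rfl, Finset.card_singleton, mul_one,
      Int.card_Ico, Int.card_Ico]
    push_cast
    rw [Int.toNat_of_nonneg (by omega), Int.toNat_of_nonneg (by omega)]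
  have e2 : ((rect P.a P.b).card : ℤ) ≤ 2 ^ P.nS * 2 ^ P.nS := by
    rw [e]
    exact mul_le_mul h0 h1 (by omega) (by positivity)
  have e3 : (4:ℝ) ^ P.nS = 2 ^ P.nS * 2 ^ P.nS := by
    rw [← mul_pow]; norm_num
  rw [e3]
  exact_mod_cast e2

/-- the exponents of `2` -/
theorem pow_four (n : ℕ) : (1:ℝ) / 4 ^ n = (1 / 2 ^ n) ^ 2 := by
  rw [one_div_pow, ← pow_mul, mul_comm, pow_mul]; norm_num

theorem wt_self {p : ℝ} (n : ℕ) : ENNReal.ofReal (1 / 2 ^ n) *
    (ENNReal.ofReal ((1 / 2 ^ n) ^ (1 - p)) * ENNReal.ofReal (1 / 2 ^ n) ^ p) =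
      ENNReal.ofReal (1 / 4 ^ n) := by
  have hσ : (0:ℝ) < 1 / 2 ^ n := by positivity
  rw [ENNReal.ofReal_rpow_of_pos hσ, ← ENNReal.ofReal_mul (by positivity),
    ← ENNReal.ofReal_mul hσ.le, pow_four, ← Real.rpow_add hσ]
  congr 1
  rw [show (1 - p + p) = 1 by ring, Real.rpow_one, sq]

/-- one term -/
theorem term_add_le {p : ℝ} (hp : 1 ≤ p) {n : ℕ} {l b : ℝ≥0∞} (hb : b ≤ ENNReal.ofReal (1 / 2 ^ n)) :
    ENNReal.ofReal (1 / 2 ^ n) * (ENNReal.ofReal ((1 / 2 ^ n) ^ (1 - p)) * (l + b) ^ p) ≤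
      2 ^ (p - 1) * (ENNReal.ofReal (1 / 2 ^ n) * (ENNReal.ofReal ((1 / 2 ^ n) ^ (1 - p)) * l ^ p) +
        ENNReal.ofReal (1 / 4 ^ n)) := by
  have hp0 : 0 ≤ p := by linarith
  calc ENNReal.ofReal (1 / 2 ^ n) * (ENNReal.ofReal ((1 / 2 ^ n) ^ (1 - p)) * (l + b) ^ p)
      ≤ ENNReal.ofReal (1 / 2 ^ n) * (ENNReal.ofReal ((1 / 2 ^ n) ^ (1 - p)) *
          (2 ^ (p - 1) * (l ^ p + ENNReal.ofReal (1 / 2 ^ n) ^ p))) := by
        gcongr
        refine (ENNReal.rpow_le_rpow (add_le_add le_rfl hb) hp0).trans ?_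
        exact ENNReal.rpow_add_le_mul_rpow_add_rpow _ _ hp
    _ = _ := by
        rw [← wt_self (p := p) n]
        ring

/-- the energy of one square, against the weighted lengths -/
theorem energy_le (hp : 1 ≤ p) (P : PreFlat p C θ ν τ ε δ Λ f) {D μ D' r c t : ℝ}
    {β : Idx × Fin 3 → ℝ} {Y : Set (Idx × Fin 3)} {g : ConHomeo (Bx (fl θ)) Λ}
    (hO : BoxOut P.toBoxData p D μ D' r c Y β g) (hD0 : 0 ≤ D') (hD : D ≤ D')
    (ht : 0 ≤ t) (ht1 : t ≤ 1) (hβ : ∀ s, β s ≤ t * (1 / 2 ^ s.1.1))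
    {k : Fin 3 → ℤ} (hk : k ∈ rect P.a P.b) :
    2 ^ P.nS * faceL p g.toFun (sc P.v ((P.nS, k), 2)) 2 (1 / 2 / 2 ^ P.nS) ≤
      ENNReal.ofReal D' * (2 ^ (p - 1) *
        (∑ e ∈ sqE ((P.nS, k), 2), ENNReal.ofReal (1 / 2 ^ P.nS) *
          (ENNReal.ofReal ((1 / 2 ^ P.nS) ^ (1 - p)) * P.ℓ e ^ p) +
            4 * ENNReal.ofReal (1 / 4 ^ P.nS))) := by
  classical
  set n := P.nS with hn
  set s : Idx × Fin 3 := ((n, k), 2) with hs
  have hp0 : 0 ≤ p := by linarith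
  have hσ : (0:ℝ) < 1 / 2 ^ n := by positivity
  have hmin : MinSq P.v P.I s := P.minS k hk
  have h1 := hO.energy s hmin
  have h2 : ∑' e : {e : Idx × Fin 3 // MinEdge P.v P.I e ∧ edge P.v e ⊆ squ P.v s},
        ENNReal.ofReal ((1 / 2 ^ e.1.1.1) ^ (1 - p)) *
          (P.ℓ e.1 + ENNReal.ofReal (β s)) ^ p =
      ∑ e ∈ sqE s, ENNReal.ofReal ((1 / 2 ^ n) ^ (1 - p)) *
          (P.ℓ e + ENNReal.ofReal (β s)) ^ p := by
    have h3 : ∀ e : Idx × Fin 3, (MinEdge P.v P.I e ∧ edge P.v e ⊆ squ P.v s) ↔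
        EdgeOfSq e s := by
      intro e
      constructor
      · rintro ⟨h4, h5⟩
        exact edgeOfSq_of_minEdge (isOpenBx _) P.part hmin (fun e he => minEdge_of_rect P hk he)
          h4 h5
      · intro h4
        exact ⟨minEdge_of_rect P hk h4, S308.edge_sub_squ h4⟩
    have h4 : ∑' e : {e : Idx × Fin 3 // MinEdge P.v P.I e ∧ edge P.v e ⊆ squ P.v s},
        ENNReal.ofReal ((1 / 2 ^ e.1.1.1) ^ (1 - p)) *
          (P.ℓ e.1 + ENNReal.ofReal (β s)) ^ p =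
        ∑' e : {e : Idx × Fin 3 // EdgeOfSq e s},
        ENNReal.ofReal ((1 / 2 ^ e.1.1.1) ^ (1 - p)) *
          (P.ℓ e.1 + ENNReal.ofReal (β s)) ^ p :=
      (Equiv.subtypeEquivRight h3).tsum_eq fun e : {e : Idx × Fin 3 // EdgeOfSq e s} =>
        ENNReal.ofReal ((1 / 2 ^ e.1.1.1) ^ (1 - p)) * (P.ℓ e.1 + ENNReal.ofReal (β s)) ^ p
    rw [h4, tsum_sqE s fun e => ENNReal.ofReal ((1 / 2 ^ e.1.1) ^ (1 - p)) *
          (P.ℓ e + ENNReal.ofReal (β s)) ^ p]
    refine Finset.sum_congr rfl fun e he => ?_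
    rw [(mem_sqE.1 he).1]
  rw [h2] at h1
  have h5 : ENNReal.ofReal ((if meetY P.v Y (squ P.v s) then D' else D) * (1 / 2 ^ s.1.1) ^ 2) ≤
      ENNReal.ofReal (D' * (1 / 2 ^ n) ^ 2) := by
    refine ENNReal.ofReal_le_ofReal ?_
    have : (if meetY P.v Y (squ P.v s) then D' else D) ≤ D' := by split_ifs <;> linarith
    show _ * (1 / 2 ^ n) ^ 2 ≤ _
    gcongr
  have h6 : ENNReal.ofReal (β s) ≤ ENNReal.ofReal (1 / 2 ^ n) := by
    refine ENNReal.ofReal_le_ofReal ((hβ s).trans ?_)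
    show t * (1 / 2 ^ n) ≤ _
    nlinarith
  have h7 : (2:ℝ≥0∞) ^ n * ENNReal.ofReal (D' * (1 / 2 ^ n) ^ 2) =
      ENNReal.ofReal D' * ENNReal.ofReal (1 / 2 ^ n) := by
    have : (2:ℝ≥0∞) ^ n = ENNReal.ofReal (2 ^ n) := by
      rw [ENNReal.ofReal_pow (by norm_num)]; norm_num
    rw [this, ← ENNReal.ofReal_mul (by positivity), ← ENNReal.ofReal_mul hD0]
    congr 1
    field_simp
  calc 2 ^ n * faceL p g.toFun (sc P.v s) 2 (1 / 2 / 2 ^ n)
      ≤ 2 ^ n * (ENNReal.ofReal (D' * (1 / 2 ^ n) ^ 2) *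
          ∑ e ∈ sqE s, ENNReal.ofReal ((1 / 2 ^ n) ^ (1 - p)) *
            (P.ℓ e + ENNReal.ofReal (β s)) ^ p) := by
        gcongr
        refine h1.trans ?_
        gcongr
    _ = ENNReal.ofReal D' * ∑ e ∈ sqE s, ENNReal.ofReal (1 / 2 ^ n) *
          (ENNReal.ofReal ((1 / 2 ^ n) ^ (1 - p)) * (P.ℓ e + ENNReal.ofReal (β s)) ^ p) := by
        rw [← mul_assoc, h7, mul_assoc, Finset.mul_sum]
    _ ≤ ENNReal.ofReal D' * ∑ e ∈ sqE s, (2 ^ (p - 1) * (ENNReal.ofReal (1 / 2 ^ n) *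
          (ENNReal.ofReal ((1 / 2 ^ n) ^ (1 - p)) * P.ℓ e ^ p) + ENNReal.ofReal (1 / 4 ^ n))) := by
        exact mul_le_mul' le_rfl (Finset.sum_le_sum fun e _ => term_add_le hp h6)
    _ ≤ _ := by
        rw [← Finset.mul_sum, Finset.sum_add_distrib, Finset.sum_const, nsmul_eq_mul]
        gcongr
        exact_mod_cast card_sqE_le s

end

end Vale.Agent.P073.H407
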