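import Vale.Agent.P073.PL.Main937
import Vale.Agent.P073.PL.Rest937
import Vale.Agent.P073.PL.Gap315
import Vale.Agent.P073.H407.CoreE2
import Vale.Agent.P073.H407.LensE

/-!
# P073, PLATE-E (helper407): GB in one plate with control of all points of the plate
-/

open Set Metric Topology Filter MeasureTheory
open scoped ENNReal NNReal

namespace P073.PL

open P073 P073.PR720 P073.GB73 P073.GBM P073.Gauge P073.GB1W P073.Cell P073.Plate
open Vale.Agent.P073.St (V)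
open Vale.Agent.P073.AB
open Vale.Agent.P073.SQ (ev)
open P073.Net (dyc dyo)

theorem parts2 : Parts2 :=
  ⟨specPat2', specDomCut2, specLev2, specS1', specS2', specRim, specVert2, H644.specBdIn2, specMod2⟩

/-- **(PLATE-E)** `SpecPlate` for a map which is close to the affine map at all points of the plate,
with control of all points: `h'` is close to `A` on the whole plate, and the other squares are not
moved. -/
def SpecPlateE : Prop :=
  ∀ (p θ M : ℝ), 1 ≤ p → 0 < θ → 0 < M → ∃ C > 0, ∀ k₁ : ℕ, 3 ≤ k₁ → ∃ K₀ : ℕ, ∀ k₀ ≥ K₀,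
    ∃ κ > 0, ∀ (Ω Λ : Set V) (v : V) (I : Set Idx) (T : Set (Idx × Fin 3)) (D : TCx Ω v I T)
      (s : Idx × Fin 3) (A : V → V) (L : V →L[ℝ] V) (h : ConHomeo Ω Λ), IsOpen Ω → IsOpen Λ →
      Part Ω v I → FaceT v I T → PlateHyp p θ M κ k₁ k₀ Λ v I T s A L h.toFun →
      (∀ x ∈ squ v s, ‖h.toFun x - A x‖ ≤ κ / 2 ^ (s.1.1 + k₁ + k₀)) →
      ∀ Z : Set V, Prot D.K Z → Disjoint Z (squ v s) →
      (∀ x ∈ Z, h.toFun x ∉
        A '' pbox v s (1 / 2 ^ (s.1.1 + k₁ + k₀)) (1 / 2 ^ (s.1.1 + k₁ + k₀))) →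
      ∃ h' : ConHomeo Ω Λ, PlateOut p C k₁ v s A h'.toFun ∧
        (∀ e : Idx × Fin 3, (∃ s' ∈ T, EdgeOfSq e s') → ∀ x ∈ edge v e,
          (x ∉ prel v s (1 / 2 ^ (s.1.1 + k₁)) → h'.toFun x = h.toFun x) ∧
          (h'.toFun x ∈ h.toFun '' edge v e ∨ h'.toFun x ∈
            A '' pbox v s (1 / 2 ^ (s.1.1 + k₁ + k₀)) (1 / 2 ^ (s.1.1 + k₁ + k₀)))) ∧
        EqOn h'.toFun h.toFun Z ∧
        (∀ x ∈ pbox v s (1 / 2 ^ (s.1.1 + k₁)) 0, ‖h'.toFun x - A x‖ ≤ C / 2 ^ (s.1.1 + k₁)) ∧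
        (∀ x ∈ squ v s, x ∉ prel v s (1 / 2 ^ (s.1.1 + k₁)) →
          ‖h'.toFun x - A x‖ ≤ C / 2 ^ (s.1.1 + k₁ + k₀)) ∧
        ∀ s' ∈ T, ¬ squ v s' ⊆ squ v s → (∀ x ∈ squ v s', h.toFun x ∉
          A '' pbox v s (1 / 2 ^ (s.1.1 + k₁ + k₀)) (1 / 2 ^ (s.1.1 + k₁ + k₀))) →
          ∀ x ∈ squ v s', h'.toFun x = h.toFun x

/-- **(PLATE-E)** from the uniform collar with control of the size -/
theorem specPlateE_of (hUE : SpecU2E) : SpecPlateE := by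
  intro p θ M hp hθ hM
  have hLa : SpecLa2 := specLa2
  have hNear : SpecNear2 := specNear2
  have hGap : SpecGap2 := Gap315.specGap2
  have hCpos : 0 < (9 / 4 * M) ^ p + 4 ^ p * (1 + M ^ p) := by positivity
  refine ⟨(9 / 4 * M) ^ p + 4 ^ p * (1 + M ^ p) + 3 * M, by positivity, fun k₁ hk₁ => ?_⟩
  obtain ⟨ρ0, hρ0, hU'⟩ := hUE k₁ hk₁
  obtain ⟨K₀, hK₀⟩ := exists_K0 (4 / ρ0) (4 * M) k₁
  refine ⟨K₀, fun k₀ hk₀' => ?_⟩
  obtain ⟨hk₀, hρk, hMk⟩ := hK₀ k₀ hk₀'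
  have hR : (1:ℝ) ≤ RR k₁ k₀ := by
    have := RR_ge hk₁ hk₀
    have h2 : (47:ℝ) ≤ RR k₁ k₀ := by exact_mod_cast this
    linarith
  obtain ⟨l, hl, κ, hκ, hκ1, hκl, hnum⟩ := exists_kappa2 (θ := θ) (p := p) hθ hR
  refine ⟨κ, hκ, ?_⟩
  rintro Ω Λ v I T D ⟨⟨n₂, z⟩, k⟩ A L h hΩ hΛ hI hT H hcl Z hZ hZd hZh
  simp only at hZh hcl
  obtain ⟨J', I', inc', qC', K', δ, cu, cd, hδ, hgr, hlat, hZ', hZu, hZl, htl⟩ :=
    specLensE Ω v I T D n₂ k₁ k₀ z k hΩ hI hT H.lone H.fine Z hZ hZd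
  obtain ⟨AL, hAL, hAs, hA, HN⟩ := hNear hLa p θ M κ l k₁ k₀ n₂ Ω Λ v I T D z k A L h hp hθ hl
    hκ.le hκl hΩ hI hT H J' I' inc' qC' K' δ cu cd hgr hlat
  obtain ⟨hn1, hn2, hn3⟩ := hnum (gN n₂ k₁ k₀)
  have hd : (0:ℝ) < 1 / 2 ^ (gN n₂ k₁ k₀) := by positivity
  have hpb : ∀ y, Reg2 v (gN n₂ k₁ k₀) k (z k * 2 ^ (k₁ + k₀)) (llo v n₂ z k δ) (lhi v n₂ z k δ)
      (A 0) AL y →
      y ∈ A '' pbox v ((n₂, z), k) (1 / 2 ^ (n₂ + k₁ + k₀)) (1 / 2 ^ (n₂ + k₁ + k₀)) := by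
    intro y hy
    refine ⟨AL.symm (y - A 0), ⟨?_, fun i hi => ?_⟩, ?_⟩
    · have h1 := hy.1
      rw [ht_plate] at h1
      exact h1
    · have h1 := hy.2 i hi
      unfold llo lhi at h1
      simp only at hi
      rw [if_neg hi, if_neg hi] at h1
      exact h1
    · rw [hA, AL.apply_symm_apply]; abel
  have hclA : ∀ x ∈ squ v ((n₂, z), k),
      ‖AL.symm (h.toFun x - A 0) - x‖ ≤ θ⁻¹ * κ / 2 ^ (gN n₂ k₁ k₀) := by
    intro x hx
    have h2 : AL.symm (h.toFun x - A 0) - x = AL.symm (h.toFun x - A x) := by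
      rw [hA x, ← sub_sub, map_sub AL.symm (h.toFun x - A 0), AL.symm_apply_apply]
    rw [h2]
    refine (hAs _).trans ?_
    rw [mul_div_assoc]
    exact mul_le_mul_of_nonneg_left (hcl x hx) (inv_pos.2 hθ).le
  obtain ⟨h3, Lt, χ, q, O, hin, hout, hfar⟩ := core_plateE parts2
    hΩ hΛ HN hk₁ hk₀ hn1 hn2 hn3 (d := δ / 2) (by linarith) (by linarith)
    (ε := 1 / 2 ^ (n₂ + k₁)) (by positivity)
    (hU' v n₂ k₀ z k (δ / 2) (by omega) (by linarith)) (by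
      rw [show (4:ℝ) / 2 ^ (gN n₂ k₁ k₀) = 4 * (1 / 2 ^ (gN n₂ k₁ k₀)) by ring,
        div_eq_mul_one_div ρ0, gd n₂ k₁ k₀, ← mul_assoc]
      refine mul_le_mul_of_nonneg_right ?_ hd.le
      rwa [div_le_iff₀' hρ0] at hρk) hclA hZ' hZu hZl
    (fun x hx hr => hZh x hx (hpb _ hr))
  -- closeness in the target
  have hback : ∀ x y, ‖y - A x‖ ≤ M * ‖AL.symm (y - A 0) - x‖ := by
    intro x y
    have h2 : y - A x = L (AL.symm (y - A 0) - x) := by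
      rw [← hAL, map_sub, AL.apply_symm_apply, hA x]; abel
    rw [h2]
    exact H.above _
  have hN1 : (1:ℝ) / 2 ^ (gN n₂ k₁ k₀) ≤ 1 / 2 ^ (n₂ + k₁) :=
    one_div_le_one_div_of_le (by positivity)
      (pow_le_pow_right₀ (by norm_num) (Nat.le_add_right _ _))
  have hCM : 3 * M ≤ (9 / 4 * M) ^ p + 4 ^ p * (1 + M ^ p) + 3 * M := by linarith
  have hplane' : ∀ x ∈ squ v ((n₂, z), k),
      x k = ht v (gN n₂ k₁ k₀) k (z k * 2 ^ (k₁ + k₀)) := by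
    intro x hx
    rw [ht_plate]; exact hx.1
  refine ⟨h3, ⟨fun x hx => ?_, fun e he hs1 hs2 => ?_⟩, fun e he x hx => ?_, O.prot,
    fun x hx => ?_, fun x hx hxB => ?_, fun s' hs' hns hfo x hx => ?_⟩
  · exact (O.box x hx).trans (hA x).symm
  · obtain ⟨g1, g2⟩ := hGap D.Vx D.B J' I' D.e0 D.e1 inc' qC' Ω K' Λ h.toFun v n₂ k₁ k₀ z k δ
      (A 0) AL _ _ cu cd hδ HN p M κ (δ / 2) hp hM hκ.le (by linarith) (by linarith)
      (fun w => by rw [hAL]; exact H.above w) hk₁ hk₀ hn1 hMk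
      (fun e he hs => by rw [hAL]; exact (H.own e he hs).2)
      h3.toFun Lt χ q (fun b w l h1 _ => O.pm b w l h1) O.out O.chi_id O.chi O.box O.mark
      O.close O.lip e he hs1 hs2
    refine ⟨fun x hx => by rw [hA x]; exact g1 x hx, g2.trans (ENNReal.ofReal_le_ofReal ?_)⟩
    refine mul_le_mul_of_nonneg_right ?_ (by positivity)
    have h5 : (9 / 4 * M) ^ p + 4 ^ p * (κ + M ^ p) ≤ (9 / 4 * M) ^ p + 4 ^ p * (1 + M ^ p) := by
      gcongr
    linarith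
  · obtain ⟨S, hS⟩ := D.edges e he
    have hx' := hx
    rw [hS] at hx'
    obtain ⟨b, hbS, hxb⟩ := mem_iUnion₂.1 hx'
    have harc : K'.arc b = D.K.arc b := congrArg (fun G => G.arc b) hgr
    have hsub : edge v (D.φ b) ⊆ edge v e := by
      rw [hS]
      exact subset_biUnion_of_mem (u := fun b => edge v (D.φ b)) hbS
    rw [← D.arc b, ← harc] at hsub hxb
    have hplane : ∀ x ∈ Icc (plo v n₂ k₁ k₀ z k (δ / 2)) (phi v n₂ k₁ k₀ z k (δ / 2)),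
        x ∈ K'.arc b → x ∈ prel v ((n₂, z), k) (1 / 2 ^ (n₂ + k₁)) := by
      intro x hx hxb
      obtain ⟨w, l, h1, h2, h4⟩ := hlat.arc b ⟨x, hxb, box_sub_int hk₁ hk₀ (by linarith) hx⟩
      rw [h4, GBM.mem_edge] at hxb
      refine prel_of_box hx ?_
      rw [hxb.1 k (Ne.symm h1)]
      unfold pt ht
      rw [h2]
    refine ⟨fun hxB => ?_, ?_⟩
    · have hxI : x ∉ interior (Icc (plo v n₂ k₁ k₀ z k (δ / 2)) (phi v n₂ k₁ k₀ z k (δ / 2))) :=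
        fun hxI => hxB (hplane x (interior_subset hxI) hxb)
      rw [O.out b x hxb hxI]
      by_cases hc : b ∈ cr2 K' v (gN n₂ k₁ k₀) k (z k * 2 ^ (k₁ + k₀)) (al k₁ k₀ z) (be k₁ k₀ z)
      · obtain ⟨a, l, ha, hck⟩ := hc
        rw [ha] at hxb
        rcases crossed_end2 hk₁ hk₀ hck hxb hxB with hx1 | hx1
        · rw [hx1, ← HN.y0 b a l ha, O.chi0]
        · rw [hx1, ← HN.y1 b a l ha, O.chi1]
      · rw [O.chi_id b hc x hxb]
    · by_cases hxI : x ∈ Icc (plo v n₂ k₁ k₀ z k (δ / 2)) (phi v n₂ k₁ k₀ z k (δ / 2))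
      · right
        exact hpb _ (O.reg x hxI)
      · left
        rw [O.out b x hxb (fun h' => hxI (interior_subset h'))]
        exact ⟨χ b x, hsub (O.chi_mem b x hxb), rfl⟩
  · -- the gap
    have hxs : x ∈ squ v ((n₂, z), k) := by
      have h1 := hx.1
      simp only at h1
      refine ⟨?_, fun i hi => ?_⟩
      · have := abs_nonpos_iff.1 h1
        show x k = v k + z k / 2 ^ n₂
        linarith
      · have h2 := hx.2 i hi
        simp only at h2 hi ⊢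
        have h3 : (0:ℝ) < 1 / 2 ^ (n₂ + k₁) := by positivity
        constructor <;> linarith [h2.1, h2.2]
    by_cases hxI : x ∈ Icc (plo v n₂ k₁ k₀ z k (δ / 2)) (phi v n₂ k₁ k₀ z k (δ / 2))
    · have h1 := hin x hxI (hplane' x hxs)
      have h2 : M * ‖AL.symm (h3.toFun x - A 0) - x‖ ≤
          M * (1 / 2 ^ (n₂ + k₁) + 1 / 2 ^ (gN n₂ k₁ k₀)) := mul_le_mul_of_nonneg_left h1 hM.le
      calc ‖h3.toFun x - A x‖ ≤ _ := (hback _ _).trans h2
        _ ≤ M * (3 * (1 / 2 ^ (n₂ + k₁))) := by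
            refine mul_le_mul_of_nonneg_left ?_ hM.le
            have : (0:ℝ) < 1 / 2 ^ (n₂ + k₁) := by positivity
            linarith
        _ = 3 * M / 2 ^ (n₂ + k₁) := by ring
        _ ≤ _ := div_le_div_of_nonneg_right hCM (by positivity)
    · have h1 := hout x hxs (fun h' => hxI (interior_subset h'))
      calc ‖h3.toFun x - A x‖ ≤ M * ‖AL.symm (h3.toFun x - A 0) - x‖ := hback _ _
        _ ≤ M * (3 / 2 ^ (gN n₂ k₁ k₀)) := mul_le_mul_of_nonneg_left h1 hM.le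
        _ = 3 * M * (1 / 2 ^ (gN n₂ k₁ k₀)) := by ring
        _ ≤ 3 * M * (1 / 2 ^ (n₂ + k₁)) := mul_le_mul_of_nonneg_left hN1 (by positivity)
        _ = 3 * M / 2 ^ (n₂ + k₁) := by ring
        _ ≤ _ := div_le_div_of_nonneg_right hCM (by positivity)
  · -- the ring
    have hxI : x ∉ interior (Icc (plo v n₂ k₁ k₀ z k (δ / 2)) (phi v n₂ k₁ k₀ z k (δ / 2))) :=
      fun hxI => hxB (prel_of_box (interior_subset hxI) (hplane' x hx))
    have h1 := hout x hx hxI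
    calc ‖h3.toFun x - A x‖ ≤ M * ‖AL.symm (h3.toFun x - A 0) - x‖ := hback _ _
      _ ≤ M * (3 / 2 ^ (gN n₂ k₁ k₀)) := mul_le_mul_of_nonneg_left h1 hM.le
      _ = 3 * M / 2 ^ (n₂ + k₁ + k₀) := by unfold gN; ring
      _ ≤ _ := div_le_div_of_nonneg_right hCM (by positivity)
  · -- the other squares
    obtain ⟨j, c, hj, hjc, hcu, hcd⟩ := htl s' hs' hns
    exact hfar j c hjc hcu hcd (fun y hy hr => hfo y (by rwa [hj] at hy) (hpb _ hr))
      (by rw [hj]; exact hx)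

end P073.PL
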