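import Vale.Agent.P073.H407.PlateT1

/-!
# P073, A16 rank two (helper407), [PLATE-T], second part: the good squares
-/

open Set Metric Topology Filter MeasureTheory
open scoped ENNReal

namespace Vale.Agent.P073.H407

open Vale.Agent.P073.St (V)
open Vale.Agent.P073.AB
open Vale.Agent.P073.H194 (sInt)
open _root_.P073.Plate (pbox)
open _root_.P073.GBM (mem_squ)

theorem subs_disj {z z' : Fin 3 → ℤ} {l : Fin 3} {d : ℕ} (hl : z l = z' l) (hne : z ≠ z') :
    Disjoint (subs z l d) (subs z' l d) := by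
  rw [Finset.disjoint_left]
  intro w hw hw'
  rw [mem_subs] at hw hw'
  refine hne (funext fun j => ?_)
  by_cases hj : j = l
  · subst hj; exact hl
  · obtain ⟨h1, h2⟩ := hw.2 j hj
    obtain ⟨h3, h4⟩ := hw'.2 j hj
    have hp : (0:ℤ) < 2 ^ d := by positivity
    have h5 : z j < z' j + 1 := lt_of_mul_lt_mul_right (h1.trans_lt h4) hp.le
    have h6 : z' j < z j + 1 := lt_of_mul_lt_mul_right (h3.trans_lt h2) hp.le
    omega

/-- the union of the shrunken squares of generation `m + d` in the squares of `S₀` -/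
def boxes (v : V) (m : ℕ) (l : Fin 3) (S₀ : Finset (Fin 3 → ℤ)) (d : ℕ) (δ : ℝ) : Set V :=
  ⋃ k ∈ S₀, ⋃ z ∈ subs k l d, pbox v ((m + d, z), l) (δ / 2 ^ (m + d)) 0

theorem isClosed_boxes (v : V) (m : ℕ) (l : Fin 3) (S₀ : Finset (Fin 3 → ℤ)) (d : ℕ) (δ : ℝ) :
    IsClosed (boxes v m l S₀ d δ) :=
  isClosed_biUnion_finset fun _ _ => isClosed_biUnion_finset fun _ _ => isClosed_pbox _ _ _ _

/-- area lost by shrinking the squares of generation `m + d` -/
theorem sArea_boxes_le {v : V} {m : ℕ} {l : Fin 3} {S₀ : Finset (Fin 3 → ℤ)} {d : ℕ} {δ : ℝ}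
    (hδ : 0 ≤ δ) {k : Fin 3 → ℤ} (hk : k ∈ S₀) :
    sArea v ((m, k), l) (boxes v m l S₀ d δ)ᶜ ≤ ENNReal.ofReal (6 * δ * (1 / 2 ^ m) ^ 2) := by
  unfold sArea
  rw [← sInt_split v m k l d (measurable_const.indicator
    (isClosed_boxes v m l S₀ d δ).measurableSet.compl)]
  calc ∑ w ∈ subs k l d, sInt v ((m + d, w), l) ((boxes v m l S₀ d δ)ᶜ.indicator fun _ => 1)
      ≤ ∑ w ∈ subs k l d, ENNReal.ofReal (6 * δ * (1 / 2 ^ (m + d)) ^ 2) := by
        refine Finset.sum_le_sum fun w hw => ?_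
        refine le_trans ?_ (sArea_compl_pbox_le v (m + d) w l hδ)
        refine sArea_mono (compl_subset_compl.2 ?_)
        intro x hx
        exact mem_biUnion (x := k) hk (mem_biUnion (x := w) hw hx)
    _ = ENNReal.ofReal (6 * δ * (1 / 2 ^ m) ^ 2) := by
        rw [Finset.sum_const, card_subs, nsmul_eq_mul]
        have : ((4 ^ d : ℕ) : ℝ≥0∞) = ENNReal.ofReal (4 ^ d) := by
          push_cast
          rw [ENNReal.ofReal_pow (by norm_num)]
          norm_num
        rw [this, ← ENNReal.ofReal_mul (by positivity)]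
        congr 1
        have e : (2:ℝ) ^ (m + d) = 2 ^ m * 2 ^ d := pow_add _ _ _
        have e4 : (4:ℝ) ^ d = 2 ^ d * 2 ^ d := by
          rw [← mul_pow]; norm_num
        rw [e, e4]
        field_simp

open Classical in
/-- the squares of generation `m + d` in the squares of `S₀` which meet `G` -/
noncomputable def gsq (v : V) (m : ℕ) (l : Fin 3) (S₀ : Finset (Fin 3 → ℤ)) (d : ℕ) (G : Set V) :
    Finset (Fin 3 → ℤ) :=
  S₀.biUnion fun k => (subs k l d).filter fun w => (squ v ((m + d, w), l) ∩ G).Nonempty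

open Classical in
theorem mem_gsq {v : V} {m : ℕ} {l : Fin 3} {S₀ : Finset (Fin 3 → ℤ)} {d : ℕ} {G : Set V}
    {w : Fin 3 → ℤ} : w ∈ gsq v m l S₀ d G ↔
      ∃ k ∈ S₀, w ∈ subs k l d ∧ (squ v ((m + d, w), l) ∩ G).Nonempty := by
  unfold gsq
  simp only [Finset.mem_biUnion, Finset.mem_filter]

open Classical in
/-- the squares which do not meet `G` -/
noncomputable def bsq (v : V) (m : ℕ) (l : Fin 3) (d : ℕ) (G : Set V) (k : Fin 3 → ℤ) :
    Finset (Fin 3 → ℤ) :=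
  (subs k l d).filter fun w => ¬ (squ v ((m + d, w), l) ∩ G).Nonempty

open Classical in
theorem gsq_card {v : V} {m : ℕ} {l : Fin 3} {S₀ : Finset (Fin 3 → ℤ)} {B : ℤ}
    (hS : ∀ k ∈ S₀, k l = B) {d : ℕ} {G : Set V} :
    (gsq v m l S₀ d G).card + ∑ k ∈ S₀, (bsq v m l d G k).card = S₀.card * 4 ^ d := by
  unfold gsq
  rw [Finset.card_biUnion]
  · rw [← Finset.sum_add_distrib]
    have : ∀ k ∈ S₀, ((subs k l d).filter fun w => (squ v ((m + d, w), l) ∩ G).Nonempty).card +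
        (bsq v m l d G k).card = 4 ^ d := by
      intro k _
      rw [bsq, Finset.card_filter_add_card_filter_not, card_subs]
    rw [Finset.sum_congr rfl this, Finset.sum_const, smul_eq_mul]
  · intro k hk k' hk' hne
    exact (subs_disj ((hS k hk).trans (hS k' hk').symm) hne).mono (Finset.filter_subset _ _)
      (Finset.filter_subset _ _)

open Classical in
theorem bsq_sum {v : V} {m : ℕ} {l : Fin 3} {S₀ : Finset (Fin 3 → ℤ)} {d : ℕ} {G : Set V}
    (hG : MeasurableSet G) {ε : ℝ} (hε : 0 ≤ ε)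
    (har : ∑ k ∈ S₀, sArea v ((m, k), l) Gᶜ ≤ ENNReal.ofReal ε) :
    ((∑ k ∈ S₀, (bsq v m l d G k).card : ℕ) : ℝ) * (1 / 2 ^ (m + d)) ^ 2 ≤ ε := by
  have h3 : (((∑ k ∈ S₀, (bsq v m l d G k).card : ℕ) : ℝ≥0∞)) *
      ENNReal.ofReal ((1 / 2 ^ (m + d)) ^ 2) ≤ ENNReal.ofReal ε := by
    rw [Nat.cast_sum, Finset.sum_mul]
    refine le_trans (Finset.sum_le_sum fun k hk => ?_) har
    refine count_le hG (bsq v m l d G k) (Finset.filter_subset _ _) fun w hw => ?_
    rw [bsq, Finset.mem_filter] at hw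
    rw [Set.disjoint_iff_inter_eq_empty]
    exact not_nonempty_iff_eq_empty.1 hw.2
  rw [← ENNReal.ofReal_natCast, ← ENNReal.ofReal_mul (Nat.cast_nonneg _)] at h3
  exact (ENNReal.ofReal_le_ofReal_iff hε).1 h3

theorem four_pow_eq (n : ℕ) : (1 / 2 ^ n : ℝ) ^ 2 = 1 / 4 ^ n := by
  rw [one_div_pow, ← pow_mul, mul_comm, pow_mul]
  norm_num

/-- the area of the squares which are not good -/
theorem gsq_count {v : V} {m : ℕ} {l : Fin 3} {S₀ : Finset (Fin 3 → ℤ)} {B : ℤ}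
    (hS : ∀ k ∈ S₀, k l = B) {d : ℕ} {G : Set V} (hG : MeasurableSet G) {ε : ℝ} (hε : 0 ≤ ε)
    (har : ∑ k ∈ S₀, sArea v ((m, k), l) Gᶜ ≤ ENNReal.ofReal ε) :
    (S₀.card : ℝ) / 4 ^ m - ((gsq v m l S₀ d G).card : ℝ) / 4 ^ (m + d) ≤ ε := by
  have h1 := gsq_card (v := v) (m := m) (d := d) (G := G) hS
  have h2 := bsq_sum (v := v) (m := m) (d := d) hG hε har
  rw [four_pow_eq] at h2
  generalize (∑ k ∈ S₀, (bsq v m l d G k).card : ℕ) = b at h1 h2
  generalize (gsq v m l S₀ d G).card = g at h1 ⊢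
  have h6 : (g : ℝ) + (b : ℝ) = S₀.card * 4 ^ d := by exact_mod_cast h1
  have h5 : (S₀.card : ℝ) / 4 ^ m = ((g : ℝ) + b) / 4 ^ (m + d) := by
    rw [h6, pow_add]
    field_simp
  rw [h5, add_div]
  have : (b : ℝ) / 4 ^ (m + d) = b * (1 / 4 ^ (m + d)) := by ring
  linarith

/-- a small square which meets the inner part of a square is in its inner part -/
theorem mem_pbox_of_near {v : V} {n : ℕ} {z : Fin 3 → ℤ} {l : Fin 3} {δ δ' : ℝ} {x y : V}
    (hx : x ∈ pbox v ((n, z), l) δ 0) (hl : y l = x l) (hxy : ‖x - y‖ ≤ δ - δ') :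
    y ∈ pbox v ((n, z), l) δ' 0 := by
  refine ⟨by rw [hl]; exact hx.1, fun i hi => ?_⟩
  have h1 := hx.2 i hi
  have h2 : |x i - y i| ≤ δ - δ' := (norm_le_pi_norm (x - y) i).trans hxy
  rw [abs_le] at h2
  constructor <;> linarith [h1.1, h1.2]

end Vale.Agent.P073.H407
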