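import Vale.Agent.P073.H407.CoreE2
import Vale.Agent.P073.H194.MeshDefs

/-!
# P073, A16 rank two (helper407): choice of the plates on the middle plane

`S0` is a finite family of dyadic squares of one generation `m` in one plane.  On closed sets
`Gs s ⊆ squ v s` the map `f - L` is `κ`-Lipschitz, `L` is isometric on the plane.  For all large
`n` the squares of generation `n` which meet `G` (the union of the `Gs s`, without a small
neighbourhood of the boundaries of the squares `s`) are mapped close to disjoint plates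
`L x + a z`, well inside `Λ`.
-/

open Set Metric Topology Filter
open scoped ENNReal

namespace Vale.Agent.P073.H407

open Vale.Agent.P073.St (V)
open Vale.Agent.P073.AB
open Vale.Agent.P073.SQ (ev)
open _root_.P073.Plate (pbox)
open _root_.P073.GBM (mem_squ)
open _root_.P073.PL (exists_fine_squ)

/-- the plates of generation `n` -/
structure PlatesAt (f : V → V) (L : V →L[ℝ] V) (κ ϑ : ℝ) (Λ : Set V) (v : V)
    (S0 : Finset (Idx × Fin 3)) (l : Fin 3) (n : ℕ) (G : Set V) (J : Finset (Fin 3 → ℤ))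
    (a : (Fin 3 → ℤ) → V) : Prop where
  sub : ∀ z ∈ J, ∃ s ∈ S0, squ v ((n, z), l) ⊆ squ v s
  cover : ∀ x ∈ G, ∃ z ∈ J, x ∈ squ v ((n, z), l)
  near : ∀ z ∈ J, ∀ x ∈ G ∩ squ v ((n, z), l), ‖f x - (L x + a z)‖ ≤ κ / 2 ^ n
  meet : ∀ z ∈ J, (G ∩ squ v ((n, z), l)).Nonempty
  sep : ∀ z ∈ J, ∀ z' ∈ J, z ≠ z' → ∀ x ∈ pbox v ((n, z), l) (ϑ / 2 ^ n) 0,
    ∀ x' ∈ pbox v ((n, z'), l) (ϑ / 2 ^ n) 0, ϑ / 2 / 2 ^ n ≤ ‖(L x + a z) - (L x' + a z')‖
  inside : ∀ z ∈ J, ∀ x ∈ squ v ((n, z), l), closedBall (L x + a z) (1 / 2 ^ n) ⊆ Λ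

/-- an injective continuous map on a compact set separates points at distance at least `r` -/
theorem exists_sep {K : Set V} (hK : IsCompact K) {f : V → V} (hf : ContinuousOn f K)
    (hi : InjOn f K) {r : ℝ} (hr : 0 < r) :
    ∃ δ > 0, ∀ x ∈ K, ∀ x' ∈ K, r ≤ ‖x - x'‖ → δ ≤ ‖f x - f x'‖ := by
  have hKK : IsCompact (K ×ˢ K ∩ {q : V × V | r ≤ ‖q.1 - q.2‖}) :=
    (hK.prod hK).inter_right (isClosed_le continuous_const (by fun_prop))
  rcases (K ×ˢ K ∩ {q : V × V | r ≤ ‖q.1 - q.2‖}).eq_empty_or_nonempty with he | hne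
  · refine ⟨1, one_pos, fun x hx x' hx' h => ?_⟩
    have : (x, x') ∈ (K ×ˢ K ∩ {q : V × V | r ≤ ‖q.1 - q.2‖}) := ⟨⟨hx, hx'⟩, h⟩
    rw [he] at this
    exact this.elim
  · have hc : ContinuousOn (fun q : V × V => ‖f q.1 - f q.2‖)
        (K ×ˢ K ∩ {q : V × V | r ≤ ‖q.1 - q.2‖}) := by
      refine ContinuousOn.norm (ContinuousOn.sub ?_ ?_)
      · exact hf.comp continuousOn_fst fun q hq => hq.1.1
      · exact hf.comp continuousOn_snd fun q hq => hq.1.2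
    obtain ⟨q, hq, hmin⟩ := hKK.exists_isMinOn hne hc
    refine ⟨‖f q.1 - f q.2‖, ?_, fun x hx x' hx' h => hmin (a := (x, x')) ⟨⟨hx, hx'⟩, h⟩⟩
    rw [gt_iff_lt, norm_pos_iff, sub_ne_zero]
    intro he
    have := hi hq.1.1 hq.1.2 he
    have h2 : r ≤ ‖q.1 - q.2‖ := hq.2
    rw [this, sub_self, norm_zero] at h2
    linarith

/-- two points of a dyadic square -/
theorem norm_sub_le_squ {v : V} {n : ℕ} {z : Fin 3 → ℤ} {l : Fin 3} {x y : V}
    (hx : x ∈ squ v ((n, z), l)) (hy : y ∈ squ v ((n, z), l)) : ‖x - y‖ ≤ 1 / 2 ^ n := by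
  rw [mem_squ] at hx hy
  rw [pi_norm_le_iff_of_nonneg (by positivity)]
  intro i
  rw [Pi.sub_apply, Real.norm_eq_abs, abs_le]
  by_cases hi : i = l
  · subst hi
    rw [hx.1, hy.1, sub_self]
    have : (0:ℝ) ≤ 1 / 2 ^ n := by positivity
    constructor <;> linarith
  · have h1 := hx.2 i hi
    have h2 := hy.2 i hi
    constructor <;> linarith [h1.1, h1.2, h2.1, h2.2]

theorem pbox_subset_squ {v : V} {n : ℕ} {z : Fin 3 → ℤ} {l : Fin 3} {δ : ℝ} (hδ : 0 ≤ δ) :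
    pbox v ((n, z), l) δ 0 ⊆ squ v ((n, z), l) := by
  rintro x ⟨h1, h2⟩
  simp only at h1 h2
  refine ⟨?_, fun i hi => ?_⟩
  · have := abs_nonpos_iff.1 h1
    show x l = v l + z l / 2 ^ n
    linarith
  · have := h2 i hi
    simp only at hi ⊢
    constructor <;> linarith [this.1, this.2]

/-- different squares, shrunk by `δ` and `δ'`, are apart -/
theorem pbox_apart {v : V} {n : ℕ} {z z' : Fin 3 → ℤ} {l : Fin 3} {δ δ' : ℝ} (hl : z l = z' l)
    (hne : z ≠ z') {x x' : V} (hx : x ∈ pbox v ((n, z), l) δ 0)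
    (hx' : x' ∈ pbox v ((n, z'), l) δ' 0) : δ + δ' ≤ ‖x - x'‖ := by
  obtain ⟨i, hi⟩ := Function.ne_iff.1 hne
  have hil : i ≠ l := by rintro rfl; exact hi hl
  have h1 := hx.2 i hil
  have h2 := hx'.2 i hil
  simp only at h1 h2
  have hn : (0:ℝ) < 2 ^ n := by positivity
  refine le_trans ?_ (norm_le_pi_norm (x - x') i)
  rw [Pi.sub_apply, Real.norm_eq_abs]
  rcases lt_or_gt_of_ne hi with h | h
  · have h3 : (z i : ℝ) + 1 ≤ z' i := by exact_mod_cast h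
    have h4 : ((z i : ℝ) + 1) / 2 ^ n ≤ z' i / 2 ^ n := by gcongr
    have := neg_le_abs (x i - x' i)
    linarith [h1.2, h2.1]
  · have h3 : (z' i : ℝ) + 1 ≤ z i := by exact_mod_cast h
    have h4 : ((z' i : ℝ) + 1) / 2 ^ n ≤ z i / 2 ^ n := by gcongr
    have := le_abs_self (x i - x' i)
    linarith [h1.1, h2.2]

/-- a point of a shrunk square is in no other square of the generation -/
theorem eq_of_mem_pbox {v : V} {n : ℕ} {z z' : Fin 3 → ℤ} {l : Fin 3} {δ : ℝ} (hδ : 0 < δ)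
    (hl : z l = z' l) {x : V} (hx : x ∈ pbox v ((n, z), l) δ 0) (hx' : x ∈ squ v ((n, z'), l)) :
    z = z' := by
  by_contra hne
  have h0 : x ∈ pbox v ((n, z'), l) 0 0 := by
    rw [mem_squ] at hx'
    refine ⟨?_, fun i hi => ?_⟩
    · show |x l - (v l + z' l / 2 ^ n)| ≤ 0
      rw [hx'.1]
      unfold pt
      simp
    · have := hx'.2 i hi
      unfold pt at this
      simp only at hi ⊢
      rw [add_zero, sub_zero, add_div]
      exact ⟨this.1, by linarith [this.2]⟩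
  have := pbox_apart hl hne hx h0
  rw [sub_self, norm_zero] at this
  linarith

theorem isCompact_squ (v : V) (n : ℕ) (z : Fin 3 → ℤ) (l : Fin 3) :
    IsCompact (squ v ((n, z), l)) := by
  have : squ v ((n, z), l) = Icc (pt v n z)
      (fun i => if i = l then pt v n z i else pt v n z i + 1 / 2 ^ n) := by
    ext x
    rw [mem_squ]
    constructor
    · rintro ⟨h1, h2⟩
      refine ⟨fun i => ?_, fun i => ?_⟩
      · by_cases hi : i = l
        · rw [hi, h1]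
        · exact (h2 i hi).1
      · by_cases hi : i = l
        · rw [hi, h1]; simp
        · simp only [if_neg hi]; exact (h2 i hi).2
    · rintro ⟨h1, h2⟩
      refine ⟨?_, fun i hi => ⟨h1 i, ?_⟩⟩
      · have := h2 l
        simp only [if_true] at this
        exact le_antisymm this (h1 l)
      · have := h2 i
        simp only [if_neg hi] at this
        exact this
  rw [this]
  exact isCompact_Icc

theorem isClosed_pbox (v : V) (s : Idx × Fin 3) (δ τ : ℝ) : IsClosed (pbox v s δ τ) := by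
  have : pbox v s δ τ = {x | |x s.2 - (v s.2 + s.1.2 s.2 / 2 ^ s.1.1)| ≤ τ} ∩
      ⋂ i : Fin 3, {x | i ≠ s.2 → v i + s.1.2 i / 2 ^ s.1.1 + δ ≤ x i ∧
        x i ≤ v i + (s.1.2 i + 1) / 2 ^ s.1.1 - δ} := by
    ext x
    simp only [pbox, Set.mem_ofPred_eq, mem_inter_iff, mem_iInter]
  rw [this]
  refine IsClosed.inter (isClosed_le (by fun_prop) continuous_const) (isClosed_iInter fun i => ?_)
  by_cases hi : i = s.2
  · simp [hi]
  · simp only [ne_eq, hi, not_false_eq_true, forall_const]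
    exact (isClosed_le continuous_const (continuous_apply i)).inter
      (isClosed_le (continuous_apply i) continuous_const)

/-- the squares of generation `n` in a square of generation `m` are finitely many -/
theorem finite_sub_squ {v : V} {n : ℕ} {l : Fin 3} (s : Idx × Fin 3) (ζ : ℤ) :
    {z : Fin 3 → ℤ | z l = ζ ∧ squ v ((n, z), l) ⊆ squ v s}.Finite := by
  have hn : (0:ℝ) < 2 ^ n := by positivity
  have hK : Bornology.IsBounded (squ v s) := (isCompact_squ v s.1.1 s.1.2 s.2).isBounded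
  obtain ⟨R, hR⟩ := hK.exists_norm_le
  refine (Set.Finite.pi (t := fun i : Fin 3 => Icc (⌊-(R + ‖v‖) * 2 ^ n⌋ - |ζ|)
    (⌈(R + ‖v‖) * 2 ^ n⌉ + |ζ|)) fun i => finite_Icc _ _).subset ?_
  rintro z ⟨hzl, hz⟩
  have hp : pt v n z ∈ squ v ((n, z), l) := by
    rw [mem_squ]
    exact ⟨rfl, fun i _ => ⟨le_rfl, by linarith [show (0:ℝ) ≤ 1 / 2 ^ n by positivity]⟩⟩
  have h1 := hR _ (hz hp)
  intro i _
  have h2 : |pt v n z i| ≤ R := (norm_le_pi_norm (pt v n z) i).trans h1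
  have h3 : |v i| ≤ ‖v‖ := norm_le_pi_norm v i
  have h4 : |(z i : ℝ) / 2 ^ n| ≤ R + ‖v‖ := by
    have : (z i : ℝ) / 2 ^ n = pt v n z i - v i := by unfold pt; ring
    rw [this]
    exact (abs_sub _ _).trans (add_le_add h2 h3)
  rw [abs_div, abs_of_pos hn, div_le_iff₀ hn] at h4
  have h5 := abs_le.1 h4
  have h6 : (0:ℤ) ≤ |ζ| := abs_nonneg _
  constructor
  · have : ⌊-(R + ‖v‖) * 2 ^ n⌋ ≤ z i := by
      have h7 : ((⌊-(R + ‖v‖) * 2 ^ n⌋ : ℤ) : ℝ) ≤ z i := (Int.floor_le _).trans (by linarith [h5.1])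
      exact_mod_cast h7
    show _ ≤ z i
    linarith
  · have : z i ≤ ⌈(R + ‖v‖) * 2 ^ n⌉ := by
      have h7 : (z i : ℝ) ≤ ((⌈(R + ‖v‖) * 2 ^ n⌉ : ℤ) : ℝ) := h5.2.trans (Int.le_ceil _)
      exact_mod_cast h7
    show z i ≤ _
    linarith

/-- **[R2a]** the plates -/
theorem exists_plates {Ω Λ : Set V} (hΛ : IsOpen Λ) {f : V → V} (hfc : ContinuousOn f Ω)
    (hfi : InjOn f Ω) (hfm : MapsTo f Ω Λ) {v : V} {l : Fin 3} {m : ℕ} {ζ : ℤ}
    {S0 : Finset (Idx × Fin 3)}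
    (hS : ∀ s ∈ S0, s.1.1 = m ∧ s.2 = l ∧ s.1.2 l = ζ ∧ squ v s ⊆ Ω) {L : V →L[ℝ] V}
    (hL : ∀ x : V, x l = 0 → ‖L x‖ = ‖x‖) {κ ϑ ϑ' : ℝ} (hκ : 0 ≤ κ) (hκϑ : κ ≤ ϑ / 8)
    (hϑ : 0 < ϑ) (hϑ1 : ϑ ≤ 1 / 2) (hϑ' : 0 < ϑ') {Gs : Idx × Fin 3 → Set V}
    (hGc : ∀ s ∈ S0, IsClosed (Gs s)) (hGsub : ∀ s ∈ S0, Gs s ⊆ squ v s)
    (hGl : ∀ s ∈ S0, ∀ x ∈ Gs s, ∀ x' ∈ Gs s, ‖(f x - L x) - (f x' - L x')‖ ≤ κ * ‖x - x'‖) :
    IsClosed (⋃ s ∈ S0, Gs s ∩ pbox v s (ϑ' / 2 ^ m) 0) ∧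
      ∀ᶠ n in atTop, ∃ (J : Finset (Fin 3 → ℤ)) (a : (Fin 3 → ℤ) → V),
        PlatesAt f L κ ϑ Λ v S0 l n (⋃ s ∈ S0, Gs s ∩ pbox v s (ϑ' / 2 ^ m) 0) J a := by
  classical
  set G : Set V := ⋃ s ∈ S0, Gs s ∩ pbox v s (ϑ' / 2 ^ m) 0 with hG
  have hm : (0:ℝ) < 2 ^ m := by positivity
  have hϑm : 0 < ϑ' / 2 ^ m := by positivity
  refine ⟨isClosed_biUnion_finset fun s hs => (hGc s hs).inter (isClosed_pbox _ _ _ _), ?_⟩
  -- the compact set
  set K : Set V := ⋃ s ∈ S0, squ v s with hK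
  have hKc : IsCompact K := S0.isCompact_biUnion fun s _ => isCompact_squ v s.1.1 s.1.2 s.2
  have hKΩ : K ⊆ Ω := iUnion₂_subset fun s hs => (hS s hs).2.2.2
  obtain ⟨δ0, hδ0, hsep⟩ := exists_sep hKc (hfc.mono hKΩ) (hfi.mono hKΩ) (r := ϑ' / 2 ^ m) hϑm
  obtain ⟨δ1, hδ1, hins⟩ : ∃ δ > 0, ∀ y ∈ f '' K, closedBall y δ ⊆ Λ := by
    obtain ⟨δ, hδ, h⟩ := (hKc.image_of_continuousOn (hfc.mono hKΩ)).exists_cthickening_subset_open
      hΛ (by rintro _ ⟨x, hx, rfl⟩; exact hfm (hKΩ hx))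
    exact ⟨δ, hδ, fun y hy => (closedBall_subset_cthickening hy δ).trans h⟩
  have hlim : Tendsto (fun n : ℕ => (3:ℝ) / 2 ^ n) atTop (𝓝 0) := by
    have h1 : Tendsto (fun n : ℕ => (3:ℝ) * (1 / 2) ^ n) atTop (𝓝 (3 * 0)) :=
      (tendsto_pow_atTop_nhds_zero_of_lt_one (by norm_num) (by norm_num)).const_mul 3
    rw [mul_zero] at h1
    refine h1.congr fun n => ?_
    rw [one_div, inv_pow]; rfl
  filter_upwards [hlim.eventually_lt_const hδ0, hlim.eventually_lt_const hδ1, eventually_ge_atTop m]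
    with n hn0 hn1 hmn
  have hn : (0:ℝ) < 2 ^ n := by positivity
  -- the family
  set J0 : Set (Fin 3 → ℤ) := {z | z l = ζ * 2 ^ (n - m) ∧ (∃ s ∈ S0, squ v ((n, z), l) ⊆ squ v s) ∧
    (G ∩ squ v ((n, z), l)).Nonempty} with hJ0
  have hJf : J0.Finite := by
    refine (S0.finite_toSet.biUnion fun s _ =>
      finite_sub_squ (v := v) (n := n) (l := l) s (ζ * 2 ^ (n - m))).subset ?_
    rintro z ⟨h1, ⟨s, hs, h2⟩, -⟩
    exact mem_biUnion hs ⟨h1, h2⟩
  have hmem : ∀ z, z ∈ hJf.toFinset ↔ z ∈ J0 := fun z => hJf.mem_toFinset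
  have hpt : ∀ z : Fin 3 → ℤ, ∃ x : V, z ∈ J0 → x ∈ G ∩ squ v ((n, z), l) := by
    intro z
    by_cases hz : z ∈ J0
    · obtain ⟨x, hx⟩ := hz.2.2
      exact ⟨x, fun _ => hx⟩
    · exact ⟨0, fun h => absurd h hz⟩
  choose X hX using hpt
  -- the square of generation `m`
  have hsq : ∀ z ∈ J0, ∃ s ∈ S0, squ v ((n, z), l) ⊆ squ v s ∧
      ∀ x ∈ G ∩ squ v ((n, z), l), x ∈ Gs s ∩ pbox v s (ϑ' / 2 ^ m) 0 := by
    rintro z ⟨-, ⟨s, hs, hsub⟩, -⟩
    refine ⟨s, hs, hsub, fun x hx => ?_⟩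
    obtain ⟨s', hs', hx'⟩ := mem_iUnion₂.1 hx.1
    obtain ⟨h1, h2, h3, -⟩ := hS s hs
    obtain ⟨g1, g2, g3, -⟩ := hS s' hs'
    have hxs : x ∈ squ v s := hsub hx.2
    have e1 : s = ((m, s.1.2), l) := by rw [← h1, ← h2]
    have e2 : s' = ((m, s'.1.2), l) := by rw [← g1, ← g2]
    have h4 : s'.1.2 = s.1.2 := by
      rw [e1] at hxs
      have hx2 := hx'.2
      rw [e2] at hx2
      exact eq_of_mem_pbox hϑm (by rw [h3, g3]) hx2 hxs
    have h5 : s' = s := by rw [e1, e2, h4]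
    rw [← h5]
    exact hx'
  have hplane : ∀ z ∈ J0, ∀ z' ∈ J0, ∀ x ∈ squ v ((n, z), l), ∀ x' ∈ squ v ((n, z'), l),
      (x - x') l = 0 := by
    intro z hz z' hz' x hx x' hx'
    rw [mem_squ] at hx hx'
    rw [Pi.sub_apply, hx.1, hx'.1]
    unfold pt
    rw [hz.1, hz'.1, sub_self]
  have hLe : ∀ z ∈ J0, ∀ x ∈ squ v ((n, z), l), ∀ y ∈ squ v ((n, z), l),
      ‖L x - L y‖ ≤ 1 / 2 ^ n := by
    intro z hz x hx y hy
    rw [← map_sub, hL _ (hplane z hz z hz x hx y hy)]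
    exact norm_sub_le_squ hx hy
  have h13 : (3:ℝ) / 2 ^ n = 3 * (1 / 2 ^ n) := by ring
  have h1n : (0:ℝ) < 1 / 2 ^ n := by positivity
  refine ⟨hJf.toFinset, fun z => f (X z) - L (X z), ?_, ?_, ?_, ?_, ?_, ?_⟩
  · intro z hz
    obtain ⟨s, hs, h, -⟩ := hsq z ((hmem z).1 hz)
    exact ⟨s, hs, h⟩
  · intro x hx
    obtain ⟨s, hs, hxs⟩ := mem_iUnion₂.1 hx
    obtain ⟨h1, h2, h3, -⟩ := hS s hs
    have e1 : s = ((m, s.1.2), l) := by rw [← h1, ← h2]
    have hxs' : x ∈ squ v ((m, s.1.2), l) := by rw [← e1]; exact hGsub s hs hxs.1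
    obtain ⟨w, w1, w2, w3⟩ := exists_fine_squ (k₁ := n - m) (k₀ := 0) hxs'
    have hgn : _root_.P073.Cell.gN m (n - m) 0 = n := by
      unfold _root_.P073.Cell.gN; omega
    rw [hgn] at w2 w3
    rw [h3, add_zero] at w1
    rw [← e1] at w3
    exact ⟨w, (hmem w).2 ⟨w1, ⟨s, hs, w3⟩, ⟨x, hx, w2⟩⟩, w2⟩
  · intro z hz x hx
    have hzJ := (hmem z).1 hz
    obtain ⟨s, hs, -, h⟩ := hsq z hzJ
    have h1 := hGl s hs x (h x hx).1 (X z) (h _ (hX z hzJ)).1
    have h2 := norm_sub_le_squ hx.2 (hX z hzJ).2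
    have e : f x - (L x + (f (X z) - L (X z))) = (f x - L x) - (f (X z) - L (X z)) := by abel
    rw [e]
    calc _ ≤ κ * ‖x - X z‖ := h1
      _ ≤ κ * (1 / 2 ^ n) := mul_le_mul_of_nonneg_left h2 hκ
      _ = κ / 2 ^ n := by ring
  · intro z hz
    exact ((hmem z).1 hz).2.2
  · intro z hz z' hz' hne x hx x' hx'
    have hzJ := (hmem z).1 hz
    have hzJ' := (hmem z').1 hz'
    obtain ⟨s, hs, hsub, h⟩ := hsq z hzJ
    obtain ⟨s', hs', hsub', h'⟩ := hsq z' hzJ'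
    have hϑn : 0 ≤ ϑ / 2 ^ n := by positivity
    have hxs := pbox_subset_squ hϑn hx
    have hxs' := pbox_subset_squ hϑn hx'
    have eϑ : ϑ / 2 ^ n = ϑ * (1 / 2 ^ n) := by ring
    have eϑ2 : ϑ / 2 / 2 ^ n = ϑ / 2 * (1 / 2 ^ n) := by ring
    by_cases hss : s = s'
    · -- the same square
      subst hss
      set D := ‖x - x'‖ with hD
      have hD2 : 2 * (ϑ * (1 / 2 ^ n)) ≤ D := by
        have := pbox_apart (by rw [hzJ.1, hzJ'.1]) hne hx hx'
        rw [eϑ] at this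
        linarith
      have hLD : ‖L x - L x'‖ = D := by
        rw [← map_sub, hL _ (hplane z hzJ z' hzJ' x hxs x' hxs')]
      have hXX : ‖X z - X z'‖ ≤ D + 2 * (1 / 2 ^ n) := by
        have g1 := norm_sub_le_squ (hX z hzJ).2 hxs
        have g2 := norm_sub_le_squ hxs' (hX z' hzJ').2
        calc ‖X z - X z'‖ = ‖(X z - x) + (x - x') + (x' - X z')‖ := by congr 1; abel
          _ ≤ ‖X z - x‖ + ‖x - x'‖ + ‖x' - X z'‖ := norm_add₃_le
          _ ≤ _ := by rw [← hD]; linarith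
      have ha := hGl s hs _ (h _ (hX z hzJ)).1 _ (h' _ (hX z' hzJ')).1
      have ha2 : ‖(f (X z) - L (X z)) - (f (X z') - L (X z'))‖ ≤ κ * (D + 2 * (1 / 2 ^ n)) :=
        ha.trans (mul_le_mul_of_nonneg_left hXX hκ)
      have htri : ‖L x - L x'‖ ≤ ‖(L x + (f (X z) - L (X z))) - (L x' + (f (X z') - L (X z')))‖ +
          ‖(f (X z) - L (X z)) - (f (X z') - L (X z'))‖ := by
        have e : L x - L x' = ((L x + (f (X z) - L (X z))) - (L x' + (f (X z') - L (X z')))) -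
          ((f (X z) - L (X z)) - (f (X z') - L (X z'))) := by abel
        rw [e]
        exact norm_sub_le _ _
      rw [hLD] at htri
      rw [eϑ2]
      have hκ1 : κ * (D + 2 * (1 / 2 ^ n)) ≤ ϑ / 8 * (D + 2 * (1 / 2 ^ n)) :=
        mul_le_mul_of_nonneg_right hκϑ (by positivity)
      have hD0 : 0 ≤ D := norm_nonneg _
      have : ϑ / 8 * D ≤ 1 / 16 * D := mul_le_mul_of_nonneg_right (by linarith) hD0
      nlinarith
    · -- different squares
      obtain ⟨h1, h2, h3, -⟩ := hS s hs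
      obtain ⟨g1, g2, g3, -⟩ := hS s' hs'
      have e1 : s = ((m, s.1.2), l) := by rw [← h1, ← h2]
      have e2 : s' = ((m, s'.1.2), l) := by rw [← g1, ← g2]
      have p1 := (h _ (hX z hzJ)).2
      have p2 := (h' _ (hX z' hzJ')).2
      rw [e1] at p1
      rw [e2] at p2
      have hne2 : s.1.2 ≠ s'.1.2 := by
        intro he; apply hss; rw [e1, e2, he]
      have h4 := pbox_apart (by rw [h3, g3]) hne2 p1 p2
      have h5 := hsep (X z) (mem_iUnion₂.2 ⟨s, hs, hsub (hX z hzJ).2⟩) (X z')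
        (mem_iUnion₂.2 ⟨s', hs', hsub' (hX z' hzJ').2⟩) (by linarith)
      have h6 := hLe z hzJ x hxs (X z) (hX z hzJ).2
      have h7 := hLe z' hzJ' (X z') (hX z' hzJ').2 x' hxs'
      have h8 : ‖f (X z) - f (X z')‖ ≤
          ‖(L x + (f (X z) - L (X z))) - (L x' + (f (X z') - L (X z')))‖ + ‖L x - L (X z)‖ +
            ‖L (X z') - L x'‖ := by
        have e : f (X z) - f (X z') =
          ((L x + (f (X z) - L (X z))) - (L x' + (f (X z') - L (X z')))) - (L x - L (X z)) -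
            (L (X z') - L x') := by abel
        rw [e]
        exact (norm_sub_le _ _).trans (add_le_add (norm_sub_le _ _) le_rfl)
      rw [eϑ2]
      rw [h13] at hn0
      nlinarith
  · intro z hz x hx y hy
    have hzJ := (hmem z).1 hz
    obtain ⟨s, hs, hsub, h⟩ := hsq z hzJ
    refine hins (f (X z)) (mem_image_of_mem _ (mem_iUnion₂.2 ⟨s, hs, hsub (hX z hzJ).2⟩)) ?_
    rw [mem_closedBall, dist_eq_norm] at hy ⊢
    have h6 := hLe z hzJ x hx (X z) (hX z hzJ).2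
    have e : y - f (X z) = (y - (L x + (f (X z) - L (X z)))) + (L x - L (X z)) := by abel
    rw [e]
    rw [h13] at hn1
    calc _ ≤ ‖y - (L x + (f (X z) - L (X z)))‖ + ‖L x - L (X z)‖ := norm_add_le _ _
      _ ≤ δ1 := by linarith

end Vale.Agent.P073.H407
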