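import Vale.Agent.P073.H407.Plates
import Vale.Agent.P073.AB.Part86

/-!
# P073, A16 rank two (helper407): the area which is lost by shrinking a dyadic square
-/

open Set Metric Topology Filter MeasureTheory
open scoped ENNReal

namespace Vale.Agent.P073.H407

open Vale.Agent.P073.St (V)
open Vale.Agent.P073.AB
open Vale.Agent.P073.H194 (sInt)
open _root_.P073.Plate (pbox)
open _root_.P073.Net (dyc dyo)

/-- area of the set `A` in the dyadic square `s` -/
noncomputable def sArea (v : V) (s : Idx × Fin 3) (A : Set V) : ℝ≥0∞ :=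
  sInt v s (A.indicator fun _ => 1)

theorem sInt_mono {v : V} {s : Idx × Fin 3} {H H' : V → ℝ≥0∞} (h : ∀ x, H x ≤ H' x) :
    sInt v s H ≤ sInt v s H' := by
  unfold sInt
  gcongr
  exact h _

theorem sArea_mono {v : V} {s : Idx × Fin 3} {A A' : Set V} (h : A ⊆ A') :
    sArea v s A ≤ sArea v s A' :=
  sInt_mono fun x => indicator_le_indicator_of_subset h (fun _ => zero_le) x

theorem dyc_eq_Icc' (v : V) (n : ℕ) (z : Fin 3 → ℤ) :
    dyc v n z = Icc (fun i => v i + z i / 2 ^ n) (fun i => v i + (z i + 1) / 2 ^ n) := by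
  ext x
  constructor
  · intro h
    exact ⟨fun i => (h i).1, fun i => (h i).2⟩
  · rintro ⟨h1, h2⟩ i
    exact ⟨h1 i, h2 i⟩

/-- volume of a slab of the dyadic cube -/
theorem volume_slab_le (v : V) (n : ℕ) (z : Fin 3 → ℤ) (i : Fin 3) {a b : ℝ} (hab : a ≤ b) :
    volume {x | x ∈ dyc v n z ∧ a ≤ x i ∧ x i ≤ b} ≤
      ENNReal.ofReal ((b - a) * (1 / 2 ^ n) ^ 2) := by
  have hn : (0:ℝ) < 1 / 2 ^ n := by positivity
  have hsub : {x | x ∈ dyc v n z ∧ a ≤ x i ∧ x i ≤ b} ⊆
      Icc (Function.update (fun j => v j + z j / 2 ^ n) i a)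
        (Function.update (fun j => v j + (z j + 1) / 2 ^ n) i b) := by
    rintro x ⟨hx, h1, h2⟩
    refine ⟨fun j => ?_, fun j => ?_⟩
    · by_cases hj : j = i
      · subst hj; rw [Function.update_self]; exact h1
      · rw [Function.update_of_ne hj]; exact (hx j).1
    · by_cases hj : j = i
      · subst hj; rw [Function.update_self]; exact h2
      · rw [Function.update_of_ne hj]; exact (hx j).2
  refine (measure_mono hsub).trans ?_
  rw [Real.volume_Icc_pi, ← ENNReal.ofReal_prod_of_nonneg]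
  · refine ENNReal.ofReal_le_ofReal (le_of_eq ?_)
    rw [← Finset.mul_prod_erase _ _ (Finset.mem_univ i)]
    simp only [Function.update_self]
    congr 1
    have : ∀ j ∈ Finset.univ.erase i, Function.update (fun j => v j + ((z j : ℝ) + 1) / 2 ^ n) i b j -
        Function.update (fun j => v j + (z j : ℝ) / 2 ^ n) i a j = 1 / 2 ^ n := by
      intro j hj
      have hji : j ≠ i := Finset.ne_of_mem_erase hj
      rw [Function.update_of_ne hji, Function.update_of_ne hji]
      ring
    rw [Finset.prod_congr rfl this, Finset.prod_const, Finset.card_erase_of_mem (Finset.mem_univ i)]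
    simp
  · intro j _
    by_cases hj : j = i
    · subst hj; rw [Function.update_self, Function.update_self]; linarith
    · rw [Function.update_of_ne hj, Function.update_of_ne hj]
      have : v j + ((z j : ℝ) + 1) / 2 ^ n - (v j + z j / 2 ^ n) = 1 / 2 ^ n := by ring
      rw [this]; exact hn.le

/-- **area lost by shrinking** -/
theorem sArea_compl_pbox_le (v : V) (n : ℕ) (z : Fin 3 → ℤ) (l : Fin 3) {δ : ℝ} (hδ : 0 ≤ δ) :
    sArea v ((n, z), l) (pbox v ((n, z), l) (δ / 2 ^ n) 0)ᶜ ≤
      ENNReal.ofReal (6 * δ * (1 / 2 ^ n) ^ 2) := by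
  have hn : (0:ℝ) < 1 / 2 ^ n := by positivity
  have hδn : 0 ≤ δ / 2 ^ n := by positivity
  set S : Fin 3 → Bool → Set V := fun i b => {x | x ∈ dyc v n z ∧
    (if b then v i + z i / 2 ^ n else v i + (z i + 1) / 2 ^ n - δ / 2 ^ n) ≤ x i ∧
    x i ≤ (if b then v i + z i / 2 ^ n + δ / 2 ^ n else v i + (z i + 1) / 2 ^ n)} with hS
  have hSv : ∀ i b, volume (S i b) ≤ ENNReal.ofReal (δ / 2 ^ n * (1 / 2 ^ n) ^ 2) := by
    intro i b
    cases b
    · refine (volume_slab_le v n z i (a := v i + (z i + 1) / 2 ^ n - δ / 2 ^ n)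
        (b := v i + (z i + 1) / 2 ^ n) (by linarith)).trans (le_of_eq ?_)
      congr 1; ring
    · refine (volume_slab_le v n z i (a := v i + z i / 2 ^ n)
        (b := v i + z i / 2 ^ n + δ / 2 ^ n) (by linarith)).trans (le_of_eq ?_)
      congr 1; ring
  have hsub : {x | x ∈ dyc v n z ∧ Function.update x l (pt v n z l) ∉
      pbox v ((n, z), l) (δ / 2 ^ n) 0} ⊆ ⋃ i, ⋃ b, S i b := by
    rintro x ⟨hx, hxp⟩
    by_contra hcon
    simp only [mem_iUnion, not_exists] at hcon
    apply hxp
    refine ⟨?_, fun i hi => ?_⟩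
    · show |Function.update x l (pt v n z l) l - (v l + z l / 2 ^ n)| ≤ 0
      rw [Function.update_self]; unfold pt; simp
    · simp only at hi ⊢
      rw [Function.update_of_ne hi]
      have h1 := hcon i true
      have h2 := hcon i false
      constructor
      · by_contra hlt
        exact h1 ⟨hx, by simpa using (hx i).1, by simpa using (not_le.1 hlt).le⟩
      · by_contra hlt
        exact h2 ⟨hx, by simpa using (not_le.1 hlt).le, by simpa using (hx i).2⟩
  have hvol : volume {x | x ∈ dyc v n z ∧ Function.update x l (pt v n z l) ∉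
      pbox v ((n, z), l) (δ / 2 ^ n) 0} ≤ 6 * ENNReal.ofReal (δ / 2 ^ n * (1 / 2 ^ n) ^ 2) := by
    refine (measure_mono hsub).trans ((measure_iUnion_le _).trans ?_)
    rw [tsum_fintype]
    have h1 : ∀ i : Fin 3, volume (⋃ b, S i b) ≤ 2 * ENNReal.ofReal (δ / 2 ^ n * (1 / 2 ^ n) ^ 2) := by
      intro i
      refine (measure_iUnion_le _).trans ?_
      rw [tsum_fintype, Fintype.sum_bool, two_mul]
      exact add_le_add (hSv i true) (hSv i false)
    refine (Finset.sum_le_sum fun i _ => h1 i).trans (le_of_eq ?_)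
    rw [Finset.sum_const, Finset.card_univ, Fintype.card_fin, nsmul_eq_mul, ← mul_assoc]
    norm_num
  have hlin : (∫⁻ x in dyc v n z, (pbox v ((n, z), l) (δ / 2 ^ n) 0)ᶜ.indicator (fun _ => (1:ℝ≥0∞))
      (Function.update x l (pt v n z l))) ≤ 6 * ENNReal.ofReal (δ / 2 ^ n * (1 / 2 ^ n) ^ 2) := by
    have hcl : MeasurableSet {x : V | Function.update x l (pt v n z l) ∉
        pbox v ((n, z), l) (δ / 2 ^ n) 0} := by
      have hc : Continuous fun x : V => Function.update x l (pt v n z l) := by fun_prop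
      exact ((isClosed_pbox _ _ _ _).preimage hc).measurableSet.compl
    have e : ∀ x : V, (pbox v ((n, z), l) (δ / 2 ^ n) 0)ᶜ.indicator (fun _ => (1:ℝ≥0∞))
        (Function.update x l (pt v n z l)) = {x : V | Function.update x l (pt v n z l) ∉
        pbox v ((n, z), l) (δ / 2 ^ n) 0}.indicator (fun _ => (1:ℝ≥0∞)) x := by
      intro x
      by_cases h : Function.update x l (pt v n z l) ∈ pbox v ((n, z), l) (δ / 2 ^ n) 0
      · rw [indicator_of_notMem (by simpa using h), indicator_of_notMem (by simpa using h)]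
      · rw [indicator_of_mem h, indicator_of_mem (by exact h)]
    simp only [e]
    rw [lintegral_indicator hcl, lintegral_one, Measure.restrict_restrict hcl,
      Measure.restrict_apply_univ]
    refine (measure_mono ?_).trans hvol
    rintro x ⟨h1, h2⟩
    exact ⟨h2, h1⟩
  unfold sArea sInt
  calc (2:ℝ≥0∞) ^ n * _ ≤ 2 ^ n * (6 * ENNReal.ofReal (δ / 2 ^ n * (1 / 2 ^ n) ^ 2)) := by
        gcongr
    _ = ENNReal.ofReal (6 * δ * (1 / 2 ^ n) ^ 2) := by
        have e1 : (2:ℝ≥0∞) ^ n = ENNReal.ofReal (2 ^ n) := by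
          rw [ENNReal.ofReal_pow (by norm_num)]; simp
        have e2 : (6:ℝ≥0∞) = ENNReal.ofReal 6 := by simp
        rw [e1, e2, ← ENNReal.ofReal_mul (by norm_num), ← ENNReal.ofReal_mul (by positivity)]
        congr 1
        field_simp

end Vale.Agent.P073.H407
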