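import Vale.Agent.P073.H407.PlatesArea
import Vale.Agent.P073.H716.GSet2

/-!
# P073, A16 rank two (helper407): choice of the plates from helper716's good sets

`exists_good_plates`: one closed set `G`, for the given origin `v`, whose complement has small area
in the squares of `S0`; dyadic squares which meet `G` have small mean energy; for all large `n`
there are plates for `G`.
-/

open Set Metric Topology Filter MeasureTheory
open scoped ENNReal NNReal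

namespace Vale.Agent.P073.H407

open Vale.Agent.P073.St (V)
open Vale.Agent.P073.AB
open Vale.Agent.P073.SQ (ev)
open Vale.Agent.P073.H194 (sInt)
open Vale.Agent.P073.H16 (blk Bsq)
open Vale.Agent.P073.H716 (GSetGood bInt)
open _root_.P073.Plate (pbox)
open _root_.P073.GBM (mem_squ)

theorem blk_one (v : V) (n : ℕ) (z : Fin 3 → ℤ) (l : Fin 3) :
    blk v n z l 1 = squ v ((n, z), l) := by
  ext x
  rw [mem_squ]
  simp only [blk, mem_ofPred_eq]
  constructor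
  · rintro ⟨h1, h2⟩
    refine ⟨h1, fun i hi => ?_⟩
    have := h2 i hi
    refine ⟨this.1, this.2.trans (le_of_eq ?_)⟩
    unfold pt; push_cast; ring
  · rintro ⟨h1, h2⟩
    refine ⟨h1, fun i hi => ?_⟩
    have := h2 i hi
    refine ⟨this.1, this.2.trans (le_of_eq ?_)⟩
    unfold pt; push_cast; ring

theorem bInt_one (v : V) (n : ℕ) (z : Fin 3 → ℤ) (l : Fin 3) (H : V → ℝ≥0∞) :
    bInt v n z l 1 H = sInt v ((n, z), l) H := by
  have hz : ∀ w : Bsq z l 1, (w : Fin 3 → ℤ) = z := by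
    rintro ⟨w, h1, h2⟩
    funext i
    by_cases hi : i = l
    · subst hi; exact h1
    · have := h2 i hi
      show w i = z i
      have h3 : w i < z i + 1 := by exact_mod_cast this.2
      omega
  have hm : z ∈ Bsq z l 1 := ⟨rfl, fun i _ => ⟨le_rfl, by push_cast; omega⟩⟩
  unfold bInt
  rw [tsum_eq_single (⟨z, hm⟩ : Bsq z l 1)]
  intro w hw
  exact absurd (Subtype.ext (hz w)) hw

/-- the area is subadditive (one measurable set suffices) -/
theorem sArea_union_le {v : V} {s : Idx × Fin 3} {A B : Set V} (hA : MeasurableSet A) :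
    sArea v s (A ∪ B) ≤ sArea v s A + sArea v s B := by
  unfold sArea sInt
  rw [← mul_add]
  gcongr
  have hc : Continuous fun x : V => Function.update x s.2 (pt v s.1.1 s.1.2 s.2) := by fun_prop
  have hm : Measurable fun x : V =>
      A.indicator (fun _ => (1:ℝ≥0∞)) (Function.update x s.2 (pt v s.1.1 s.1.2 s.2)) :=
    (measurable_const.indicator hA).comp hc.measurable
  rw [← lintegral_add_left hm]
  refine lintegral_mono fun x => ?_
  by_cases h1 : Function.update x s.2 (pt v s.1.1 s.1.2 s.2) ∈ A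
  · rw [indicator_of_mem (show _ ∈ A ∪ B from Or.inl h1), indicator_of_mem h1]
    exact le_self_add
  · by_cases h2 : Function.update x s.2 (pt v s.1.1 s.1.2 s.2) ∈ B
    · rw [indicator_of_mem (show _ ∈ A ∪ B from Or.inr h2), indicator_of_mem h2]
      exact le_add_self
    · rw [indicator_of_notMem (by rintro (h | h); exacts [h1 h, h2 h])]
      exact zero_le

/-- **choice of the plates** -/
theorem exists_good_plates {Ω Λ : Set V} (hΛ : IsOpen Λ) {f : V → V} (hfc : ContinuousOn f Ω)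
    (hfi : InjOn f Ω) (hfm : MapsTo f Ω Λ) {D : V → V →L[ℝ] V} {v : V} (hv : GSetGood Ω f D v)
    {l : Fin 3} {m : ℕ} {ζ : ℤ} {S0 : Finset (Idx × Fin 3)}
    (hS : ∀ s ∈ S0, s.1.1 = m ∧ s.2 = l ∧ s.1.2 l = ζ ∧ squ v s ⊆ Ω) {L : V →L[ℝ] V}
    (hL : ∀ x : V, x l = 0 → ‖L x‖ = ‖x‖) {p : ℝ} (hp : 1 ≤ p)
    {φ : (V →L[ℝ] V) → ℝ≥0∞} (hφ : Measurable φ)
    (hφL : ∀ T : V →L[ℝ] V, ∀ i, i ≠ l → ‖T (ev i) - L (ev i)‖ₑ ^ p ≤ φ T)
    {κ ϑ ϑ' : ℝ} (hκ : 0 ≤ κ) (hκϑ : 12 * κ ≤ ϑ / 8)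
    (hϑ : 0 < ϑ) (hϑ1 : ϑ ≤ 1 / 2) (hϑ' : 0 < ϑ') :
    ∃ G : Set V, IsClosed G ∧ G ⊆ ⋃ s ∈ S0, squ v s ∧
      (∀ s ∈ S0, sArea v s Gᶜ * ENNReal.ofReal κ ^ p ≤
        16 * sInt v s (fun x => φ (D x)) +
          ENNReal.ofReal (6 * ϑ' * (1 / 2 ^ m) ^ 2) * ENNReal.ofReal κ ^ p) ∧
      (∀ s ∈ S0, ∀ n z, squ v ((n, z), l) ⊆ squ v s → (squ v ((n, z), l) ∩ G).Nonempty →
        sInt v ((n, z), l) (fun x => φ (D x)) ≤
          ENNReal.ofReal κ ^ p * ENNReal.ofReal ((1 / 2 ^ n) ^ 2)) ∧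
      ∀ᶠ n in atTop, ∃ (J : Finset (Fin 3 → ℤ)) (a : (Fin 3 → ℤ) → V),
        PlatesAt f L (12 * κ) ϑ Λ v S0 l n G J a := by
  classical
  have hch : ∀ s : Idx × Fin 3, ∃ G : Set V, s ∈ S0 → (IsClosed G ∧ G ⊆ squ v s ∧
      sArea v s Gᶜ * ENNReal.ofReal κ ^ p ≤ 16 * sInt v s (fun x => φ (D x)) ∧
      (∀ x ∈ G, ∀ y ∈ G, ‖(f x - L x) - (f y - L y)‖ₑ ≤ 12 * ENNReal.ofReal κ * ‖x - y‖ₑ) ∧
      ∀ n z, squ v ((n, z), l) ⊆ squ v s → (squ v ((n, z), l) ∩ G).Nonempty →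
        sInt v ((n, z), l) (fun x => φ (D x)) ≤
          ENNReal.ofReal κ ^ p * ENNReal.ofReal ((1 / 2 ^ n) ^ 2)) := by
    intro s
    by_cases hs : s ∈ S0
    · obtain ⟨h1, h2, h3, h4⟩ := hS s hs
      obtain ⟨⟨n, z⟩, l'⟩ := s
      simp only at h1 h2 h3
      subst h1 h2
      obtain ⟨G, hc, hsub, har, hlip, hen⟩ := hv n z l' 1 one_pos (by rw [blk_one]; exact h4) L p hp
        φ hφ hφL (ENNReal.ofReal κ)
      rw [blk_one] at hsub
      rw [bInt_one, bInt_one] at har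
      refine ⟨G, fun _ => ⟨hc, hsub, har, hlip, fun n' z' h5 h6 => ?_⟩⟩
      have := hen n' z' 1 one_pos (by rw [blk_one, blk_one]; exact h5) (by rw [blk_one]; exact h6)
      rw [bInt_one] at this
      simpa using this
    · exact ⟨∅, fun h => absurd h hs⟩
  choose Gs hG using hch
  obtain ⟨hcl, hpl⟩ := exists_plates (Gs := Gs) hΛ hfc hfi hfm hS hL (κ := 12 * κ) (ϑ := ϑ)
    (ϑ' := ϑ') (by positivity) hκϑ hϑ hϑ1 hϑ' (fun s hs => (hG s hs).1) (fun s hs => (hG s hs).2.1)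
    (by
      intro s hs x hx x' hx'
      have h1 := (hG s hs).2.2.2.1 x hx x' hx'
      have e : (12 : ℝ≥0∞) * ENNReal.ofReal κ * ‖x - x'‖ₑ = ENNReal.ofReal (12 * κ * ‖x - x'‖) := by
        rw [ENNReal.ofReal_mul (by positivity), ENNReal.ofReal_mul (by norm_num),
          ofReal_norm]
        norm_num
      rw [e, ← ofReal_norm] at h1
      exact (ENNReal.ofReal_le_ofReal_iff (by positivity)).1 h1)
  refine ⟨_, hcl, ?_, ?_, ?_, hpl⟩
  · refine iUnion₂_subset fun s hs => ?_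
    exact (inter_subset_left.trans (hG s hs).2.1).trans (subset_biUnion_of_mem (u := fun s => squ v s) hs)
  · intro s hs
    have h1 : sArea v s (⋃ s ∈ S0, Gs s ∩ pbox v s (ϑ' / 2 ^ m) 0)ᶜ ≤
        sArea v s (Gs s)ᶜ + sArea v s (pbox v s (ϑ' / 2 ^ m) 0)ᶜ := by
      have h2 : (⋃ s ∈ S0, Gs s ∩ pbox v s (ϑ' / 2 ^ m) 0)ᶜ ⊆
          (Gs s)ᶜ ∪ (pbox v s (ϑ' / 2 ^ m) 0)ᶜ := by
        rw [← compl_inter]
        exact compl_subset_compl.2
          (subset_biUnion_of_mem (u := fun s => Gs s ∩ pbox v s (ϑ' / 2 ^ m) 0) hs)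
      exact (sArea_mono h2).trans (sArea_union_le (hG s hs).1.measurableSet.compl)
    obtain ⟨h3, h4, h5, h6⟩ := hS s hs
    have h7 : sArea v s (pbox v s (ϑ' / 2 ^ m) 0)ᶜ ≤ ENNReal.ofReal (6 * ϑ' * (1 / 2 ^ m) ^ 2) := by
      obtain ⟨⟨n, z⟩, l'⟩ := s
      simp only at h3 h4
      subst h3 h4
      exact sArea_compl_pbox_le v n z l' hϑ'.le
    calc _ ≤ (sArea v s (Gs s)ᶜ + sArea v s (pbox v s (ϑ' / 2 ^ m) 0)ᶜ) * ENNReal.ofReal κ ^ p := by
          gcongr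
      _ = sArea v s (Gs s)ᶜ * ENNReal.ofReal κ ^ p +
          sArea v s (pbox v s (ϑ' / 2 ^ m) 0)ᶜ * ENNReal.ofReal κ ^ p := add_mul _ _ _
      _ ≤ _ := add_le_add (hG s hs).2.2.1 (by gcongr)
  · rintro s hs n z h1 ⟨x, hx, hxG⟩
    obtain ⟨s', hs', hx'⟩ := mem_iUnion₂.1 hxG
    have hss : s' = s := by
      obtain ⟨h3, h4, h5, h6⟩ := hS s hs
      obtain ⟨h3', h4', h5', h6'⟩ := hS s' hs'
      obtain ⟨⟨n1, z1⟩, l1⟩ := s
      obtain ⟨⟨n2, z2⟩, l2⟩ := s'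
      simp only at h3 h4 h5 h3' h4' h5'
      subst h3 h4
      subst h3' h4'
      have := eq_of_mem_pbox (by positivity) (h5'.trans h5.symm) hx'.2 (h1 hx)
      rw [this]
    subst hss
    exact (hG s' hs).2.2.2.2 n z h1 ⟨x, hx, hx'.1⟩

end Vale.Agent.P073.H407
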